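import Vale.Agent.P333.CE.Fast

/-!
P333: the words of an instance, and the words that greedy makes of them.
-/

namespace Vale.Agent.P333.Rle.V12

def w0 : List (ℕ × ℕ) :=
  [(2, 44532), (3, 145), (1, 853), (2, 300391), (3, 145), (1, 853), (2, 300391), (3, 145), (1,
    853), (2, 300391)]

def w1 : List (ℕ × ℕ) :=
  [(2, 44792), (3, 145), (1, 853), (2, 300391), (3, 145), (1, 853), (2, 300391), (3, 145), (1,
    114)]

def w2 : List (ℕ × ℕ) :=
  [(2, 300218), (3, 145), (1, 853), (2, 300764), (3, 145), (1, 853), (2, 300764), (3, 145), (1,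
    853), (2, 300764)]

def w3 : List (ℕ × ℕ) :=
  [(2, 300391), (3, 145), (1, 853), (2, 300764), (3, 145), (1, 853), (2, 300764), (3, 145), (1,
    26)]

def w4 : List (ℕ × ℕ) :=
  [(2, 300422), (3, 145), (1, 853), (2, 300777), (3, 145), (1, 853), (2, 300777), (3, 145)]

def w5 : List (ℕ × ℕ) :=
  [(2, 300764), (3, 145), (1, 853), (2, 300777), (3, 145), (1, 341)]

def w6 : List (ℕ × ℕ) :=
  [(1, 746), (2, 300777), (3, 146), (1, 853), (2, 300777), (3, 146), (1, 853), (2, 300777)]

def w7 : List (ℕ × ℕ) :=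
  [(3, 145), (1, 853), (2, 300777), (3, 146), (1, 853), (2, 300777), (3, 146), (1, 102)]

def w8 : List (ℕ × ℕ) :=
  [(2, 300584), (3, 146), (1, 853), (2, 301164), (3, 146), (1, 853), (2, 301164), (3, 146), (1,
    853), (2, 301164)]

def w9 : List (ℕ × ℕ) :=
  [(2, 300777), (3, 146), (1, 853), (2, 301164), (3, 146), (1, 853), (2, 301164), (3, 146), (1,
    46)]

def w10 : List (ℕ × ℕ) :=
  [(2, 300844), (3, 146), (1, 853), (2, 301177), (3, 146), (1, 853), (2, 301177), (3, 138)]

def w11 : List (ℕ × ℕ) :=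
  [(2, 301164), (3, 146), (1, 853), (2, 301177), (3, 146), (1, 308)]

def w12 : List (ℕ × ℕ) :=
  [(1, 741), (2, 301177), (3, 138), (1, 853), (2, 301177), (3, 138), (1, 853), (2, 301177)]

def w13 : List (ℕ × ℕ) :=
  [(3, 138), (1, 853), (2, 301177), (3, 138), (1, 853), (2, 301177), (3, 138), (1, 111)]

def w14 : List (ℕ × ℕ) :=
  [(2, 301011), (3, 138), (1, 853), (2, 301549), (3, 138), (1, 853), (2, 301549), (3, 138), (1,
    853), (2, 301549)]

def w15 : List (ℕ × ℕ) :=
  [(2, 301177), (3, 138), (1, 853), (2, 301549), (3, 138), (1, 853), (2, 301549), (3, 138), (1,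
    27)]

def w16 : List (ℕ × ℕ) :=
  [(2, 301234), (3, 138), (1, 853), (2, 301562), (3, 138), (1, 853), (2, 301562), (3, 138)]

def w17 : List (ℕ × ℕ) :=
  [(2, 301549), (3, 138), (1, 853), (2, 301562), (3, 138), (1, 312)]

def w18 : List (ℕ × ℕ) :=
  [(1, 715), (2, 301562), (3, 139), (1, 853), (2, 301562), (3, 139), (1, 853), (2, 301562)]

def w19 : List (ℕ × ℕ) :=
  [(3, 138), (1, 853), (2, 301562), (3, 139), (1, 853), (2, 301562), (3, 139), (1, 136)]

def w20 : List (ℕ × ℕ) :=
  [(2, 301394), (3, 139), (1, 853), (2, 301936), (3, 139), (1, 853), (2, 301936), (3, 139), (1,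
    853), (2, 301936)]

def w21 : List (ℕ × ℕ) :=
  [(2, 301562), (3, 139), (1, 853), (2, 301936), (3, 139), (1, 853), (2, 301936), (3, 139), (1,
    28)]

def w22 : List (ℕ × ℕ) :=
  [(2, 301624), (3, 139), (1, 853), (2, 301978), (3, 139), (1, 853), (2, 301978), (3, 139)]

def w23 : List (ℕ × ℕ) :=
  [(2, 301936), (3, 139), (1, 853), (2, 301978), (3, 139), (1, 308)]

def w24 : List (ℕ × ℕ) :=
  [(1, 736), (2, 301978), (3, 140), (1, 853), (2, 301978), (3, 140), (1, 853), (2, 301978)]

def w25 : List (ℕ × ℕ) :=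
  [(3, 139), (1, 853), (2, 301978), (3, 140), (1, 853), (2, 301978), (3, 140), (1, 114)]

def w26 : List (ℕ × ℕ) :=
  [(2, 301785), (3, 140), (1, 853), (2, 302351), (3, 140), (1, 853), (2, 302351), (3, 140), (1,
    853), (2, 302351)]

def w27 : List (ℕ × ℕ) :=
  [(2, 301978), (3, 140), (1, 853), (2, 302351), (3, 140), (1, 853), (2, 302351), (3, 140), (1,
    52)]

def w28 : List (ℕ × ℕ) :=
  [(2, 302034), (3, 140), (1, 853), (2, 302364), (3, 140), (1, 853), (2, 302364), (3, 140)]

def w29 : List (ℕ × ℕ) :=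
  [(2, 302351), (3, 140), (1, 853), (2, 302364), (3, 140), (1, 316)]

def w30 : List (ℕ × ℕ) :=
  [(1, 736), (2, 302364), (3, 161), (1, 853), (2, 302364), (3, 161), (1, 853), (2, 302364)]

def w31 : List (ℕ × ℕ) :=
  [(3, 140), (1, 853), (2, 302364), (3, 161), (1, 853), (2, 302364), (3, 161), (1, 95)]

def w32 : List (ℕ × ℕ) :=
  [(2, 302172), (3, 161), (1, 853), (2, 302737), (3, 161), (1, 853), (2, 302737), (3, 161), (1,
    853), (2, 302737)]

def w33 : List (ℕ × ℕ) :=
  [(2, 302364), (3, 161), (1, 853), (2, 302737), (3, 161), (1, 853), (2, 302737), (3, 161), (1,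
    30)]

def w34 : List (ℕ × ℕ) :=
  [(2, 302402), (3, 161), (1, 853), (2, 302750), (3, 161), (1, 853), (2, 302750), (3, 161)]

def w35 : List (ℕ × ℕ) :=
  [(2, 302737), (3, 161), (1, 853), (2, 302750), (3, 161), (1, 334)]

def w36 : List (ℕ × ℕ) :=
  [(1, 759), (2, 302750), (3, 162), (1, 853), (2, 302750), (3, 162), (1, 853), (2, 302750)]

def w37 : List (ℕ × ℕ) :=
  [(3, 161), (1, 853), (2, 302750), (3, 162), (1, 853), (2, 302750), (3, 162), (1, 92)]

def w38 : List (ℕ × ℕ) :=
  [(2, 302551), (3, 162), (1, 853), (2, 303123), (3, 162), (1, 853), (2, 303123), (3, 162), (1,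
    853), (2, 303123)]

def w39 : List (ℕ × ℕ) :=
  [(2, 302750), (3, 162), (1, 853), (2, 303123), (3, 162), (1, 853), (2, 303123), (3, 162), (1,
    36)]

def w40 : List (ℕ × ℕ) :=
  [(2, 302789), (3, 162), (1, 853), (2, 303136), (3, 162), (1, 853), (2, 303136), (3, 162)]

def w41 : List (ℕ × ℕ) :=
  [(2, 303123), (3, 162), (1, 853), (2, 303136), (3, 162), (1, 330)]

def w42 : List (ℕ × ℕ) :=
  [(1, 775), (2, 303136), (3, 163), (1, 853), (2, 303136), (3, 163), (1, 853), (2, 303136)]

def w43 : List (ℕ × ℕ) :=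
  [(3, 162), (1, 853), (2, 303136), (3, 163), (1, 853), (2, 303136), (3, 163), (1, 74)]

def w44 : List (ℕ × ℕ) :=
  [(2, 302934), (3, 163), (1, 853), (2, 303509), (3, 163), (1, 853), (2, 303509), (3, 163), (1,
    853), (2, 303509)]

def w45 : List (ℕ × ℕ) :=
  [(2, 303136), (3, 163), (1, 853), (2, 303509), (3, 163), (1, 853), (2, 303509), (3, 163), (1,
    38)]

def w46 : List (ℕ × ℕ) :=
  [(2, 303189), (3, 163), (1, 853), (2, 303522), (3, 163), (1, 853), (2, 303522), (3, 163)]

def w47 : List (ℕ × ℕ) :=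
  [(2, 303509), (3, 163), (1, 853), (2, 303522), (3, 163), (1, 319)]

def w48 : List (ℕ × ℕ) :=
  [(1, 799), (2, 303522), (3, 164), (1, 853), (2, 303522), (3, 164), (1, 853), (2, 303522)]

def w49 : List (ℕ × ℕ) :=
  [(3, 163), (1, 853), (2, 303522), (3, 164), (1, 853), (2, 303522), (3, 164), (1, 52)]

def w50 : List (ℕ × ℕ) :=
  [(2, 303329), (3, 164), (1, 853), (2, 303896), (3, 164), (1, 853), (2, 303896), (3, 164), (1,
    853), (2, 303896)]

def w51 : List (ℕ × ℕ) :=
  [(2, 303522), (3, 164), (1, 853), (2, 303896), (3, 164), (1, 853), (2, 303896), (3, 164), (1,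
    28)]

def w52 : List (ℕ × ℕ) :=
  [(2, 303571), (3, 164), (1, 853), (2, 303909), (3, 164), (1, 853), (2, 303909), (3, 164)]

def w53 : List (ℕ × ℕ) :=
  [(2, 303896), (3, 164), (1, 853), (2, 303909), (3, 164), (1, 323)]

def w54 : List (ℕ × ℕ) :=
  [(1, 762), (2, 303909), (3, 165), (1, 853), (2, 303909), (3, 165), (1, 853), (2, 303909)]

def w55 : List (ℕ × ℕ) :=
  [(3, 164), (1, 853), (2, 303909), (3, 165), (1, 853), (2, 303909), (3, 165), (1, 89)]

def w56 : List (ℕ × ℕ) :=
  [(2, 303713), (3, 165), (1, 853), (2, 304282), (3, 165), (1, 853), (2, 304282), (3, 165), (1,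
    853), (2, 304282)]

def w57 : List (ℕ × ℕ) :=
  [(2, 303909), (3, 165), (1, 853), (2, 304282), (3, 165), (1, 853), (2, 304282), (3, 165), (1,
    30)]

def w58 : List (ℕ × ℕ) :=
  [(2, 303962), (3, 165), (1, 853), (2, 304295), (3, 165), (1, 853), (2, 304295), (3, 165)]

def w59 : List (ℕ × ℕ) :=
  [(2, 304282), (3, 165), (1, 853), (2, 304295), (3, 165), (1, 319)]

def w60 : List (ℕ × ℕ) :=
  [(1, 741), (2, 304295), (3, 166), (1, 853), (2, 304295), (3, 166), (1, 853), (2, 304295)]

def w61 : List (ℕ × ℕ) :=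
  [(3, 165), (1, 853), (2, 304295), (3, 166), (1, 853), (2, 304295), (3, 166), (1, 108)]

def w62 : List (ℕ × ℕ) :=
  [(2, 304103), (3, 166), (1, 853), (2, 304676), (3, 166), (1, 853), (2, 304676), (3, 166), (1,
    853), (2, 304676)]

def w63 : List (ℕ × ℕ) :=
  [(2, 304295), (3, 166), (1, 853), (2, 304676), (3, 166), (1, 853), (2, 304676), (3, 166), (1,
    25)]

def w64 : List (ℕ × ℕ) :=
  [(2, 304358), (3, 166), (1, 853), (2, 305012), (3, 166), (1, 853), (2, 305012), (3, 166)]

def w65 : List (ℕ × ℕ) :=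
  [(2, 304676), (3, 166), (1, 853), (2, 305012), (3, 166), (1, 317)]

def w66 : List (ℕ × ℕ) :=
  [(1, 769), (2, 305012), (3, 167), (1, 853), (2, 305012), (3, 167), (1, 853), (2, 305012)]

def w67 : List (ℕ × ℕ) :=
  [(3, 166), (1, 853), (2, 305012), (3, 167), (1, 853), (2, 305012), (3, 167), (1, 82)]

def w68 : List (ℕ × ℕ) :=
  [(2, 304823), (3, 167), (1, 853), (2, 305385), (3, 167), (1, 853), (2, 305385), (3, 167), (1,
    853), (2, 305385)]

def w69 : List (ℕ × ℕ) :=
  [(2, 305012), (3, 167), (1, 853), (2, 305385), (3, 167), (1, 853), (2, 305385), (3, 167), (1,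
    21)]

def w70 : List (ℕ × ℕ) :=
  [(2, 305188), (3, 167), (1, 853), (2, 305399), (3, 167), (1, 853), (2, 305399), (3, 167), (1,
    414)]

def w71 : List (ℕ × ℕ) :=
  [(2, 305385), (3, 167), (1, 853), (2, 305399), (3, 167), (1, 610)]

def w72 : List (ℕ × ℕ) :=
  [(0, 1), (2, 44792), (3, 145), (1, 853), (2, 300391), (3, 145), (1, 853), (2, 300390)]

def w73 : List (ℕ × ℕ) :=
  [(2, 44791), (3, 145), (1, 853), (2, 300391), (3, 145), (1, 853), (2, 300764), (3, 145), (1,
    853), (2, 300763)]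

def w74 : List (ℕ × ℕ) :=
  [(2, 300390), (3, 145), (1, 853), (2, 300764), (3, 145), (1, 853), (2, 300777), (3, 144)]

def w75 : List (ℕ × ℕ) :=
  [(2, 300763), (3, 145), (1, 853), (2, 300777), (3, 146), (1, 853), (2, 300773)]

def w76 : List (ℕ × ℕ) :=
  [(3, 143), (1, 853), (2, 300777), (3, 146), (1, 853), (2, 301164), (3, 146), (1, 853), (2,
    301163)]

def w77 : List (ℕ × ℕ) :=
  [(2, 300776), (3, 146), (1, 853), (2, 301164), (3, 146), (1, 853), (2, 301177), (3, 137)]

def w78 : List (ℕ × ℕ) :=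
  [(2, 301163), (3, 146), (1, 853), (2, 301177), (3, 138), (1, 853), (2, 301176)]

def w79 : List (ℕ × ℕ) :=
  [(3, 135), (1, 853), (2, 301177), (3, 138), (1, 853), (2, 301549), (3, 138), (1, 853), (2,
    301548)]

def w80 : List (ℕ × ℕ) :=
  [(2, 301176), (3, 138), (1, 853), (2, 301549), (3, 138), (1, 853), (2, 301562), (3, 137)]

def w81 : List (ℕ × ℕ) :=
  [(2, 301548), (3, 138), (1, 853), (2, 301562), (3, 139), (1, 853), (2, 301561)]

def w82 : List (ℕ × ℕ) :=
  [(3, 137), (1, 853), (2, 301562), (3, 139), (1, 853), (2, 301936), (3, 139), (1, 853), (2,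
    301932)]

def w83 : List (ℕ × ℕ) :=
  [(2, 301561), (3, 139), (1, 853), (2, 301936), (3, 139), (1, 853), (2, 301978), (3, 138)]

def w84 : List (ℕ × ℕ) :=
  [(2, 301935), (3, 139), (1, 853), (2, 301978), (3, 140), (1, 853), (2, 301977)]

def w85 : List (ℕ × ℕ) :=
  [(3, 138), (1, 853), (2, 301978), (3, 140), (1, 853), (2, 302351), (3, 140), (1, 853), (2,
    302350)]

def w86 : List (ℕ × ℕ) :=
  [(2, 301977), (3, 140), (1, 853), (2, 302351), (3, 140), (1, 853), (2, 302364), (3, 137)]

def w87 : List (ℕ × ℕ) :=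
  [(2, 302349), (3, 140), (1, 853), (2, 302364), (3, 161), (1, 853), (2, 302363)]

def w88 : List (ℕ × ℕ) :=
  [(3, 139), (1, 853), (2, 302364), (3, 161), (1, 853), (2, 302737), (3, 161), (1, 853), (2,
    302736)]

def w89 : List (ℕ × ℕ) :=
  [(2, 302363), (3, 161), (1, 853), (2, 302737), (3, 161), (1, 853), (2, 302750), (3, 160)]

def w90 : List (ℕ × ℕ) :=
  [(2, 302736), (3, 161), (1, 853), (2, 302750), (3, 162), (1, 853), (2, 302749)]

def w91 : List (ℕ × ℕ) :=
  [(3, 160), (1, 853), (2, 302750), (3, 162), (1, 853), (2, 303123), (3, 162), (1, 853), (2,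
    303122)]

def w92 : List (ℕ × ℕ) :=
  [(2, 302749), (3, 162), (1, 853), (2, 303123), (3, 162), (1, 853), (2, 303136), (3, 159)]

def w93 : List (ℕ × ℕ) :=
  [(2, 303122), (3, 162), (1, 853), (2, 303136), (3, 163), (1, 853), (2, 303135)]

def w94 : List (ℕ × ℕ) :=
  [(3, 158), (1, 853), (2, 303136), (3, 163), (1, 853), (2, 303509), (3, 163), (1, 853), (2,
    303508)]

def w95 : List (ℕ × ℕ) :=
  [(2, 303135), (3, 163), (1, 853), (2, 303509), (3, 163), (1, 853), (2, 303522), (3, 160)]

def w96 : List (ℕ × ℕ) :=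
  [(2, 303508), (3, 163), (1, 853), (2, 303522), (3, 164), (1, 853), (2, 303521)]

def w97 : List (ℕ × ℕ) :=
  [(3, 162), (1, 853), (2, 303522), (3, 164), (1, 853), (2, 303896), (3, 164), (1, 853), (2,
    303895)]

def w98 : List (ℕ × ℕ) :=
  [(2, 303521), (3, 164), (1, 853), (2, 303896), (3, 164), (1, 853), (2, 303909), (3, 163)]

def w99 : List (ℕ × ℕ) :=
  [(2, 303895), (3, 164), (1, 853), (2, 303909), (3, 165), (1, 853), (2, 303908)]

def w100 : List (ℕ × ℕ) :=
  [(3, 163), (1, 853), (2, 303909), (3, 165), (1, 853), (2, 304282), (3, 165), (1, 853), (2,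
    304281)]

def w101 : List (ℕ × ℕ) :=
  [(2, 303907), (3, 165), (1, 853), (2, 304282), (3, 165), (1, 853), (2, 304295), (3, 162)]

def w102 : List (ℕ × ℕ) :=
  [(2, 304281), (3, 165), (1, 853), (2, 304295), (3, 166), (1, 853), (2, 304294)]

def w103 : List (ℕ × ℕ) :=
  [(3, 164), (1, 853), (2, 304295), (3, 166), (1, 853), (2, 304676), (3, 166), (1, 853), (2,
    304673)]

def w104 : List (ℕ × ℕ) :=
  [(2, 304294), (3, 166), (1, 853), (2, 304676), (3, 166), (1, 853), (2, 305012), (3, 165)]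

def w105 : List (ℕ × ℕ) :=
  [(2, 304675), (3, 166), (1, 853), (2, 305012), (3, 167), (1, 853), (2, 305011)]

def w106 : List (ℕ × ℕ) :=
  [(3, 165), (1, 853), (2, 305012), (3, 167), (1, 853), (2, 305385), (3, 167), (1, 853), (2,
    305384)]

def w107 : List (ℕ × ℕ) :=
  [(2, 305010), (3, 167), (1, 853), (2, 305385), (3, 167), (1, 853), (2, 305399), (3, 167), (1,
    413)]

def w108 : List (ℕ × ℕ) :=
  [(2, 305384), (3, 167), (1, 853), (2, 305399), (3, 167), (1, 414), (4, 1)]

def m1 : List (ℕ × ℕ) :=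
  [(2, 304823), (3, 167), (1, 853), (2, 305385), (3, 167), (1, 853), (2, 305385), (3, 167), (1,
    853), (2, 305385), (3, 167), (1, 21)]

def m2 : List (ℕ × ℕ) :=
  [(3, 165), (1, 853), (2, 305012), (3, 167), (1, 853), (2, 305385), (3, 167), (1, 853), (2,
    305399), (3, 167), (1, 413)]

def m3 : List (ℕ × ℕ) :=
  [(2, 304103), (3, 166), (1, 853), (2, 304676), (3, 166), (1, 853), (2, 304676), (3, 166), (1,
    853), (2, 304676), (3, 166), (1, 25)]

def m4 : List (ℕ × ℕ) :=
  [(3, 164), (1, 853), (2, 304295), (3, 166), (1, 853), (2, 304676), (3, 166), (1, 853), (2,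
    305012), (3, 165)]

def m5 : List (ℕ × ℕ) :=
  [(2, 303713), (3, 165), (1, 853), (2, 304282), (3, 165), (1, 853), (2, 304282), (3, 165), (1,
    853), (2, 304282), (3, 165), (1, 30)]

def m6 : List (ℕ × ℕ) :=
  [(3, 163), (1, 853), (2, 303909), (3, 165), (1, 853), (2, 304282), (3, 165), (1, 853), (2,
    304295), (3, 162)]

def m7 : List (ℕ × ℕ) :=
  [(2, 303329), (3, 164), (1, 853), (2, 303896), (3, 164), (1, 853), (2, 303896), (3, 164), (1,
    853), (2, 303896), (3, 164), (1, 28)]

def m8 : List (ℕ × ℕ) :=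
  [(3, 162), (1, 853), (2, 303522), (3, 164), (1, 853), (2, 303896), (3, 164), (1, 853), (2,
    303909), (3, 163)]

def m9 : List (ℕ × ℕ) :=
  [(2, 302934), (3, 163), (1, 853), (2, 303509), (3, 163), (1, 853), (2, 303509), (3, 163), (1,
    853), (2, 303509), (3, 163), (1, 38)]

def m10 : List (ℕ × ℕ) :=
  [(3, 158), (1, 853), (2, 303136), (3, 163), (1, 853), (2, 303509), (3, 163), (1, 853), (2,
    303522), (3, 160)]

def m11 : List (ℕ × ℕ) :=
  [(2, 302551), (3, 162), (1, 853), (2, 303123), (3, 162), (1, 853), (2, 303123), (3, 162), (1,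
    853), (2, 303123), (3, 162), (1, 36)]

def m12 : List (ℕ × ℕ) :=
  [(3, 160), (1, 853), (2, 302750), (3, 162), (1, 853), (2, 303123), (3, 162), (1, 853), (2,
    303136), (3, 159)]

def m13 : List (ℕ × ℕ) :=
  [(2, 302172), (3, 161), (1, 853), (2, 302737), (3, 161), (1, 853), (2, 302737), (3, 161), (1,
    853), (2, 302737), (3, 161), (1, 30)]

def m14 : List (ℕ × ℕ) :=
  [(3, 139), (1, 853), (2, 302364), (3, 161), (1, 853), (2, 302737), (3, 161), (1, 853), (2,
    302750), (3, 160)]

def m15 : List (ℕ × ℕ) :=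
  [(2, 301785), (3, 140), (1, 853), (2, 302351), (3, 140), (1, 853), (2, 302351), (3, 140), (1,
    853), (2, 302351), (3, 140), (1, 52)]

def m16 : List (ℕ × ℕ) :=
  [(3, 138), (1, 853), (2, 301978), (3, 140), (1, 853), (2, 302351), (3, 140), (1, 853), (2,
    302364), (3, 137)]

def m17 : List (ℕ × ℕ) :=
  [(2, 301394), (3, 139), (1, 853), (2, 301936), (3, 139), (1, 853), (2, 301936), (3, 139), (1,
    853), (2, 301936), (3, 139), (1, 28)]

def m18 : List (ℕ × ℕ) :=
  [(3, 137), (1, 853), (2, 301562), (3, 139), (1, 853), (2, 301936), (3, 139), (1, 853), (2,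
    301978), (3, 138)]

def m19 : List (ℕ × ℕ) :=
  [(2, 301011), (3, 138), (1, 853), (2, 301549), (3, 138), (1, 853), (2, 301549), (3, 138), (1,
    853), (2, 301549), (3, 138), (1, 27)]

def m20 : List (ℕ × ℕ) :=
  [(3, 135), (1, 853), (2, 301177), (3, 138), (1, 853), (2, 301549), (3, 138), (1, 853), (2,
    301562), (3, 137)]

def m21 : List (ℕ × ℕ) :=
  [(2, 300584), (3, 146), (1, 853), (2, 301164), (3, 146), (1, 853), (2, 301164), (3, 146), (1,
    853), (2, 301164), (3, 146), (1, 46)]

def m22 : List (ℕ × ℕ) :=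
  [(3, 143), (1, 853), (2, 300777), (3, 146), (1, 853), (2, 301164), (3, 146), (1, 853), (2,
    301177), (3, 137)]

def m23 : List (ℕ × ℕ) :=
  [(2, 300218), (3, 145), (1, 853), (2, 300764), (3, 145), (1, 853), (2, 300764), (3, 145), (1,
    853), (2, 300764), (3, 145), (1, 26)]

def m24 : List (ℕ × ℕ) :=
  [(2, 44791), (3, 145), (1, 853), (2, 300391), (3, 145), (1, 853), (2, 300764), (3, 145), (1,
    853), (2, 300777), (3, 144)]

def m25 : List (ℕ × ℕ) :=
  [(2, 44532), (3, 145), (1, 853), (2, 300391), (3, 145), (1, 853), (2, 300391), (3, 145), (1,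
    853), (2, 300391), (3, 145), (1, 114)]

def m26 : List (ℕ × ℕ) :=
  [(0, 1), (2, 44792), (3, 145), (1, 853), (2, 300391), (3, 145), (1, 853), (2, 300764), (3,
    145), (1, 853), (2, 300777), (3, 144)]

def m27 : List (ℕ × ℕ) :=
  [(2, 305188), (3, 167), (1, 853), (2, 305399), (3, 167), (1, 853), (2, 305399), (3, 167), (1,
    610)]

def m28 : List (ℕ × ℕ) :=
  [(3, 165), (1, 853), (2, 305012), (3, 167), (1, 853), (2, 305385), (3, 167), (1, 853), (2,
    305399), (3, 167), (1, 414), (4, 1)]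

def m29 : List (ℕ × ℕ) :=
  [(1, 769), (2, 305012), (3, 167), (1, 853), (2, 305012), (3, 167), (1, 853), (2, 305012), (3,
    167), (1, 82)]

def m30 : List (ℕ × ℕ) :=
  [(2, 304675), (3, 166), (1, 853), (2, 305012), (3, 167), (1, 853), (2, 305385), (3, 167), (1,
    853), (2, 305399), (3, 167), (1, 414), (4, 1)]

def m31 : List (ℕ × ℕ) :=
  [(2, 304358), (3, 166), (1, 853), (2, 305012), (3, 166), (1, 853), (2, 305012), (3, 166), (1,
    317)]

def m32 : List (ℕ × ℕ) :=
  [(3, 164), (1, 853), (2, 304295), (3, 166), (1, 853), (2, 304676), (3, 166), (1, 853), (2,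
    305012), (3, 167), (1, 853), (2, 305385), (3, 167), (1, 853), (2, 305399), (3, 167), (1,
    414), (4, 1)]

def m33 : List (ℕ × ℕ) :=
  [(1, 741), (2, 304295), (3, 166), (1, 853), (2, 304295), (3, 166), (1, 853), (2, 304295), (3,
    166), (1, 108)]

def m34 : List (ℕ × ℕ) :=
  [(2, 304281), (3, 165), (1, 853), (2, 304295), (3, 166), (1, 853), (2, 304676), (3, 166), (1,
    853), (2, 305012), (3, 167), (1, 853), (2, 305385), (3, 167), (1, 853), (2, 305399), (3,
    167), (1, 414), (4, 1)]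

def m35 : List (ℕ × ℕ) :=
  [(1, 762), (2, 303909), (3, 165), (1, 853), (2, 303909), (3, 165), (1, 853), (2, 303909), (3,
    165), (1, 89)]

def m36 : List (ℕ × ℕ) :=
  [(2, 303895), (3, 164), (1, 853), (2, 303909), (3, 165), (1, 853), (2, 304282), (3, 165), (1,
    853), (2, 304295), (3, 162)]

def m37 : List (ℕ × ℕ) :=
  [(2, 303962), (3, 165), (1, 853), (2, 304295), (3, 165), (1, 853), (2, 304295), (3, 165), (1,
    319)]

def m38 : List (ℕ × ℕ) :=
  [(2, 303895), (3, 164), (1, 853), (2, 303909), (3, 165), (1, 853), (2, 304282), (3, 165), (1,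
    853), (2, 304295), (3, 166), (1, 853), (2, 304676), (3, 166), (1, 853), (2, 305012), (3,
    167), (1, 853), (2, 305385), (3, 167), (1, 853), (2, 305399), (3, 167), (1, 414), (4, 1)]

def m39 : List (ℕ × ℕ) :=
  [(1, 799), (2, 303522), (3, 164), (1, 853), (2, 303522), (3, 164), (1, 853), (2, 303522), (3,
    164), (1, 52)]

def m40 : List (ℕ × ℕ) :=
  [(2, 303508), (3, 163), (1, 853), (2, 303522), (3, 164), (1, 853), (2, 303896), (3, 164), (1,
    853), (2, 303909), (3, 163)]

def m41 : List (ℕ × ℕ) :=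
  [(2, 303571), (3, 164), (1, 853), (2, 303909), (3, 164), (1, 853), (2, 303909), (3, 164), (1,
    323)]

def m42 : List (ℕ × ℕ) :=
  [(2, 303508), (3, 163), (1, 853), (2, 303522), (3, 164), (1, 853), (2, 303896), (3, 164), (1,
    853), (2, 303909), (3, 165), (1, 853), (2, 304282), (3, 165), (1, 853), (2, 304295), (3,
    166), (1, 853), (2, 304676), (3, 166), (1, 853), (2, 305012), (3, 167), (1, 853), (2,
    305385), (3, 167), (1, 853), (2, 305399), (3, 167), (1, 414), (4, 1)]

def m43 : List (ℕ × ℕ) :=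
  [(1, 775), (2, 303136), (3, 163), (1, 853), (2, 303136), (3, 163), (1, 853), (2, 303136), (3,
    163), (1, 74)]

def m44 : List (ℕ × ℕ) :=
  [(2, 303122), (3, 162), (1, 853), (2, 303136), (3, 163), (1, 853), (2, 303509), (3, 163), (1,
    853), (2, 303522), (3, 160)]

def m45 : List (ℕ × ℕ) :=
  [(2, 303189), (3, 163), (1, 853), (2, 303522), (3, 163), (1, 853), (2, 303522), (3, 163), (1,
    319)]

def m46 : List (ℕ × ℕ) :=
  [(2, 303122), (3, 162), (1, 853), (2, 303136), (3, 163), (1, 853), (2, 303509), (3, 163), (1,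
    853), (2, 303522), (3, 164), (1, 853), (2, 303896), (3, 164), (1, 853), (2, 303909), (3,
    165), (1, 853), (2, 304282), (3, 165), (1, 853), (2, 304295), (3, 166), (1, 853), (2,
    304676), (3, 166), (1, 853), (2, 305012), (3, 167), (1, 853), (2, 305385), (3, 167), (1,
    853), (2, 305399), (3, 167), (1, 414), (4, 1)]

def m47 : List (ℕ × ℕ) :=
  [(1, 759), (2, 302750), (3, 162), (1, 853), (2, 302750), (3, 162), (1, 853), (2, 302750), (3,
    162), (1, 92)]

def m48 : List (ℕ × ℕ) :=
  [(2, 302736), (3, 161), (1, 853), (2, 302750), (3, 162), (1, 853), (2, 303123), (3, 162), (1,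
    853), (2, 303136), (3, 159)]

def m49 : List (ℕ × ℕ) :=
  [(2, 302789), (3, 162), (1, 853), (2, 303136), (3, 162), (1, 853), (2, 303136), (3, 162), (1,
    330)]

def m50 : List (ℕ × ℕ) :=
  [(2, 302736), (3, 161), (1, 853), (2, 302750), (3, 162), (1, 853), (2, 303123), (3, 162), (1,
    853), (2, 303136), (3, 163), (1, 853), (2, 303509), (3, 163), (1, 853), (2, 303522), (3,
    164), (1, 853), (2, 303896), (3, 164), (1, 853), (2, 303909), (3, 165), (1, 853), (2,
    304282), (3, 165), (1, 853), (2, 304295), (3, 166), (1, 853), (2, 304676), (3, 166), (1,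
    853), (2, 305012), (3, 167), (1, 853), (2, 305385), (3, 167), (1, 853), (2, 305399), (3,
    167), (1, 414), (4, 1)]

def m51 : List (ℕ × ℕ) :=
  [(1, 736), (2, 302364), (3, 161), (1, 853), (2, 302364), (3, 161), (1, 853), (2, 302364), (3,
    161), (1, 95)]

def m52 : List (ℕ × ℕ) :=
  [(2, 302349), (3, 140), (1, 853), (2, 302364), (3, 161), (1, 853), (2, 302737), (3, 161), (1,
    853), (2, 302750), (3, 160)]

def m53 : List (ℕ × ℕ) :=
  [(2, 302402), (3, 161), (1, 853), (2, 302750), (3, 161), (1, 853), (2, 302750), (3, 161), (1,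
    334)]

def m54 : List (ℕ × ℕ) :=
  [(2, 302349), (3, 140), (1, 853), (2, 302364), (3, 161), (1, 853), (2, 302737), (3, 161), (1,
    853), (2, 302750), (3, 162), (1, 853), (2, 303123), (3, 162), (1, 853), (2, 303136), (3,
    163), (1, 853), (2, 303509), (3, 163), (1, 853), (2, 303522), (3, 164), (1, 853), (2,
    303896), (3, 164), (1, 853), (2, 303909), (3, 165), (1, 853), (2, 304282), (3, 165), (1,
    853), (2, 304295), (3, 166), (1, 853), (2, 304676), (3, 166), (1, 853), (2, 305012), (3,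
    167), (1, 853), (2, 305385), (3, 167), (1, 853), (2, 305399), (3, 167), (1, 414), (4, 1)]

def m55 : List (ℕ × ℕ) :=
  [(1, 736), (2, 301978), (3, 140), (1, 853), (2, 301978), (3, 140), (1, 853), (2, 301978), (3,
    140), (1, 114)]

def m56 : List (ℕ × ℕ) :=
  [(2, 301935), (3, 139), (1, 853), (2, 301978), (3, 140), (1, 853), (2, 302351), (3, 140), (1,
    853), (2, 302364), (3, 137)]

def m57 : List (ℕ × ℕ) :=
  [(2, 302034), (3, 140), (1, 853), (2, 302364), (3, 140), (1, 853), (2, 302364), (3, 140), (1,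
    316)]

def m58 : List (ℕ × ℕ) :=
  [(2, 301935), (3, 139), (1, 853), (2, 301978), (3, 140), (1, 853), (2, 302351), (3, 140), (1,
    853), (2, 302364), (3, 161), (1, 853), (2, 302737), (3, 161), (1, 853), (2, 302750), (3,
    162), (1, 853), (2, 303123), (3, 162), (1, 853), (2, 303136), (3, 163), (1, 853), (2,
    303509), (3, 163), (1, 853), (2, 303522), (3, 164), (1, 853), (2, 303896), (3, 164), (1,
    853), (2, 303909), (3, 165), (1, 853), (2, 304282), (3, 165), (1, 853), (2, 304295), (3,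
    166), (1, 853), (2, 304676), (3, 166), (1, 853), (2, 305012), (3, 167), (1, 853), (2,
    305385), (3, 167), (1, 853), (2, 305399), (3, 167), (1, 414), (4, 1)]

def m59 : List (ℕ × ℕ) :=
  [(1, 715), (2, 301562), (3, 139), (1, 853), (2, 301562), (3, 139), (1, 853), (2, 301562), (3,
    139), (1, 136)]

def m60 : List (ℕ × ℕ) :=
  [(2, 301548), (3, 138), (1, 853), (2, 301562), (3, 139), (1, 853), (2, 301936), (3, 139), (1,
    853), (2, 301978), (3, 138)]

def m61 : List (ℕ × ℕ) :=
  [(2, 301624), (3, 139), (1, 853), (2, 301978), (3, 139), (1, 853), (2, 301978), (3, 139), (1,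
    308)]

def m62 : List (ℕ × ℕ) :=
  [(2, 301548), (3, 138), (1, 853), (2, 301562), (3, 139), (1, 853), (2, 301936), (3, 139), (1,
    853), (2, 301978), (3, 140), (1, 853), (2, 302351), (3, 140), (1, 853), (2, 302364), (3,
    161), (1, 853), (2, 302737), (3, 161), (1, 853), (2, 302750), (3, 162), (1, 853), (2,
    303123), (3, 162), (1, 853), (2, 303136), (3, 163), (1, 853), (2, 303509), (3, 163), (1,
    853), (2, 303522), (3, 164), (1, 853), (2, 303896), (3, 164), (1, 853), (2, 303909), (3,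
    165), (1, 853), (2, 304282), (3, 165), (1, 853), (2, 304295), (3, 166), (1, 853), (2,
    304676), (3, 166), (1, 853), (2, 305012), (3, 167), (1, 853), (2, 305385), (3, 167), (1,
    853), (2, 305399), (3, 167), (1, 414), (4, 1)]

def m63 : List (ℕ × ℕ) :=
  [(1, 741), (2, 301177), (3, 138), (1, 853), (2, 301177), (3, 138), (1, 853), (2, 301177), (3,
    138), (1, 111)]

def m64 : List (ℕ × ℕ) :=
  [(2, 301163), (3, 146), (1, 853), (2, 301177), (3, 138), (1, 853), (2, 301549), (3, 138), (1,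
    853), (2, 301562), (3, 137)]

def m65 : List (ℕ × ℕ) :=
  [(2, 301234), (3, 138), (1, 853), (2, 301562), (3, 138), (1, 853), (2, 301562), (3, 138), (1,
    312)]

def m66 : List (ℕ × ℕ) :=
  [(2, 301163), (3, 146), (1, 853), (2, 301177), (3, 138), (1, 853), (2, 301549), (3, 138), (1,
    853), (2, 301562), (3, 139), (1, 853), (2, 301936), (3, 139), (1, 853), (2, 301978), (3,
    140), (1, 853), (2, 302351), (3, 140), (1, 853), (2, 302364), (3, 161), (1, 853), (2,
    302737), (3, 161), (1, 853), (2, 302750), (3, 162), (1, 853), (2, 303123), (3, 162), (1,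
    853), (2, 303136), (3, 163), (1, 853), (2, 303509), (3, 163), (1, 853), (2, 303522), (3,
    164), (1, 853), (2, 303896), (3, 164), (1, 853), (2, 303909), (3, 165), (1, 853), (2,
    304282), (3, 165), (1, 853), (2, 304295), (3, 166), (1, 853), (2, 304676), (3, 166), (1,
    853), (2, 305012), (3, 167), (1, 853), (2, 305385), (3, 167), (1, 853), (2, 305399), (3,
    167), (1, 414), (4, 1)]

def m67 : List (ℕ × ℕ) :=
  [(1, 746), (2, 300777), (3, 146), (1, 853), (2, 300777), (3, 146), (1, 853), (2, 300777), (3,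
    146), (1, 102)]

def m68 : List (ℕ × ℕ) :=
  [(2, 300763), (3, 145), (1, 853), (2, 300777), (3, 146), (1, 853), (2, 301164), (3, 146), (1,
    853), (2, 301177), (3, 137)]

def m69 : List (ℕ × ℕ) :=
  [(2, 300844), (3, 146), (1, 853), (2, 301177), (3, 146), (1, 853), (2, 301177), (3, 146), (1,
    308)]

def m70 : List (ℕ × ℕ) :=
  [(2, 300763), (3, 145), (1, 853), (2, 300777), (3, 146), (1, 853), (2, 301164), (3, 146), (1,
    853), (2, 301177), (3, 138), (1, 853), (2, 301549), (3, 138), (1, 853), (2, 301562), (3,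
    139), (1, 853), (2, 301936), (3, 139), (1, 853), (2, 301978), (3, 140), (1, 853), (2,
    302351), (3, 140), (1, 853), (2, 302364), (3, 161), (1, 853), (2, 302737), (3, 161), (1,
    853), (2, 302750), (3, 162), (1, 853), (2, 303123), (3, 162), (1, 853), (2, 303136), (3,
    163), (1, 853), (2, 303509), (3, 163), (1, 853), (2, 303522), (3, 164), (1, 853), (2,
    303896), (3, 164), (1, 853), (2, 303909), (3, 165), (1, 853), (2, 304282), (3, 165), (1,
    853), (2, 304295), (3, 166), (1, 853), (2, 304676), (3, 166), (1, 853), (2, 305012), (3,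
    167), (1, 853), (2, 305385), (3, 167), (1, 853), (2, 305399), (3, 167), (1, 414), (4, 1)]

def m71 : List (ℕ × ℕ) :=
  [(2, 300422), (3, 145), (1, 853), (2, 300777), (3, 145), (1, 853), (2, 300777), (3, 145), (1,
    341)]

def m72 : List (ℕ × ℕ) :=
  [(0, 1), (2, 44792), (3, 145), (1, 853), (2, 300391), (3, 145), (1, 853), (2, 300764), (3,
    145), (1, 853), (2, 300777), (3, 146), (1, 853), (2, 301164), (3, 146), (1, 853), (2,
    301177), (3, 138), (1, 853), (2, 301549), (3, 138), (1, 853), (2, 301562), (3, 139), (1,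
    853), (2, 301936), (3, 139), (1, 853), (2, 301978), (3, 140), (1, 853), (2, 302351), (3,
    140), (1, 853), (2, 302364), (3, 161), (1, 853), (2, 302737), (3, 161), (1, 853), (2,
    302750), (3, 162), (1, 853), (2, 303123), (3, 162), (1, 853), (2, 303136), (3, 163), (1,
    853), (2, 303509), (3, 163), (1, 853), (2, 303522), (3, 164), (1, 853), (2, 303896), (3,
    164), (1, 853), (2, 303909), (3, 165), (1, 853), (2, 304282), (3, 165), (1, 853), (2,
    304295), (3, 166), (1, 853), (2, 304676), (3, 166), (1, 853), (2, 305012), (3, 167), (1,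
    853), (2, 305385), (3, 167), (1, 853), (2, 305399), (3, 167), (1, 414), (4, 1)]

def m73 : List (ℕ × ℕ) :=
  [(2, 305188), (3, 167), (1, 853), (2, 305399), (3, 167), (1, 853), (2, 305399), (3, 167), (1,
    853), (2, 305385), (3, 167), (1, 853), (2, 305385), (3, 167), (1, 853), (2, 305385), (3,
    167), (1, 21)]

def m74 : List (ℕ × ℕ) :=
  [(2, 304358), (3, 166), (1, 853), (2, 305012), (3, 166), (1, 853), (2, 305012), (3, 166), (1,
    853), (2, 304676), (3, 166), (1, 853), (2, 304676), (3, 166), (1, 853), (2, 304676), (3,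
    166), (1, 25)]

def m75 : List (ℕ × ℕ) :=
  [(2, 303962), (3, 165), (1, 853), (2, 304295), (3, 165), (1, 853), (2, 304295), (3, 165), (1,
    853), (2, 304282), (3, 165), (1, 853), (2, 304282), (3, 165), (1, 853), (2, 304282), (3,
    165), (1, 30)]

def m76 : List (ℕ × ℕ) :=
  [(2, 303571), (3, 164), (1, 853), (2, 303909), (3, 164), (1, 853), (2, 303909), (3, 164), (1,
    853), (2, 303896), (3, 164), (1, 853), (2, 303896), (3, 164), (1, 853), (2, 303896), (3,
    164), (1, 28)]

def m77 : List (ℕ × ℕ) :=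
  [(2, 303189), (3, 163), (1, 853), (2, 303522), (3, 163), (1, 853), (2, 303522), (3, 163), (1,
    853), (2, 303509), (3, 163), (1, 853), (2, 303509), (3, 163), (1, 853), (2, 303509), (3,
    163), (1, 38)]

def m78 : List (ℕ × ℕ) :=
  [(2, 302789), (3, 162), (1, 853), (2, 303136), (3, 162), (1, 853), (2, 303136), (3, 162), (1,
    853), (2, 303123), (3, 162), (1, 853), (2, 303123), (3, 162), (1, 853), (2, 303123), (3,
    162), (1, 36)]

def m79 : List (ℕ × ℕ) :=
  [(2, 302402), (3, 161), (1, 853), (2, 302750), (3, 161), (1, 853), (2, 302750), (3, 161), (1,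
    853), (2, 302737), (3, 161), (1, 853), (2, 302737), (3, 161), (1, 853), (2, 302737), (3,
    161), (1, 30)]

def m80 : List (ℕ × ℕ) :=
  [(2, 302034), (3, 140), (1, 853), (2, 302364), (3, 140), (1, 853), (2, 302364), (3, 140), (1,
    853), (2, 302351), (3, 140), (1, 853), (2, 302351), (3, 140), (1, 853), (2, 302351), (3,
    140), (1, 52)]

def m81 : List (ℕ × ℕ) :=
  [(2, 301624), (3, 139), (1, 853), (2, 301978), (3, 139), (1, 853), (2, 301978), (3, 139), (1,
    853), (2, 301936), (3, 139), (1, 853), (2, 301936), (3, 139), (1, 853), (2, 301936), (3,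
    139), (1, 28)]

def m82 : List (ℕ × ℕ) :=
  [(2, 301234), (3, 138), (1, 853), (2, 301562), (3, 138), (1, 853), (2, 301562), (3, 138), (1,
    853), (2, 301549), (3, 138), (1, 853), (2, 301549), (3, 138), (1, 853), (2, 301549), (3,
    138), (1, 27)]

def m83 : List (ℕ × ℕ) :=
  [(2, 300844), (3, 146), (1, 853), (2, 301177), (3, 146), (1, 853), (2, 301177), (3, 146), (1,
    853), (2, 301164), (3, 146), (1, 853), (2, 301164), (3, 146), (1, 853), (2, 301164), (3,
    146), (1, 46)]

def m84 : List (ℕ × ℕ) :=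
  [(2, 300422), (3, 145), (1, 853), (2, 300777), (3, 145), (1, 853), (2, 300777), (3, 145), (1,
    853), (2, 300764), (3, 145), (1, 853), (2, 300764), (3, 145), (1, 853), (2, 300764), (3,
    145), (1, 26)]

def m85 : List (ℕ × ℕ) :=
  [(2, 300422), (3, 145), (1, 853), (2, 300777), (3, 145), (1, 853), (2, 300777), (3, 145), (1,
    853), (2, 300764), (3, 145), (1, 853), (2, 300764), (3, 145), (1, 853), (2, 300764), (3,
    145), (1, 853), (2, 300391), (3, 145), (1, 853), (2, 300391), (3, 145), (1, 853), (2,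
    300391), (3, 145), (1, 114)]

/-- the words of the instance -/
def L : List (List (ℕ × ℕ)) :=
  [w0, w1, w2, w3, w4, w5, w6, w7, w8, w9, w10, w11, w12, w13, w14, w15, w16, w17, w18, w19, w20,
    w21, w22, w23, w24, w25, w26, w27, w28, w29, w30, w31, w32, w33, w34, w35, w36, w37, w38,
    w39, w40, w41, w42, w43, w44, w45, w46, w47, w48, w49, w50, w51, w52, w53, w54, w55, w56,
    w57, w58, w59, w60, w61, w62, w63, w64, w65, w66, w67, w68, w69, w70, w71, w72, w73, w74,
    w75, w76, w77, w78, w79, w80, w81, w82, w83, w84, w85, w86, w87, w88, w89, w90, w91, w92,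
    w93, w94, w95, w96, w97, w98, w99, w100, w101, w102, w103, w104, w105, w106, w107, w108]

/-- the superstring -/
def T : List (ℕ × ℕ) :=
  [(0, 1), (2, 44792), (3, 145), (1, 853), (2, 300391), (3, 145), (1, 853), (2, 300391), (3,
    145), (1, 853), (2, 300764), (3, 145), (1, 853), (2, 300764), (3, 145), (1, 853), (2,
    300777), (3, 145), (1, 853), (2, 300777), (3, 146), (1, 853), (2, 300777), (3, 146), (1,
    853), (2, 301164), (3, 146), (1, 853), (2, 301164), (3, 146), (1, 853), (2, 301177), (3,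
    146), (1, 853), (2, 301177), (3, 138), (1, 853), (2, 301177), (3, 138), (1, 853), (2,
    301549), (3, 138), (1, 853), (2, 301549), (3, 138), (1, 853), (2, 301562), (3, 138), (1,
    853), (2, 301562), (3, 139), (1, 853), (2, 301562), (3, 139), (1, 853), (2, 301936), (3,
    139), (1, 853), (2, 301936), (3, 139), (1, 853), (2, 301978), (3, 139), (1, 853), (2,
    301978), (3, 140), (1, 853), (2, 301978), (3, 140), (1, 853), (2, 302351), (3, 140), (1,
    853), (2, 302351), (3, 140), (1, 853), (2, 302364), (3, 140), (1, 853), (2, 302364), (3,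
    161), (1, 853), (2, 302364), (3, 161), (1, 853), (2, 302737), (3, 161), (1, 853), (2,
    302737), (3, 161), (1, 853), (2, 302750), (3, 161), (1, 853), (2, 302750), (3, 162), (1,
    853), (2, 302750), (3, 162), (1, 853), (2, 303123), (3, 162), (1, 853), (2, 303123), (3,
    162), (1, 853), (2, 303136), (3, 162), (1, 853), (2, 303136), (3, 163), (1, 853), (2,
    303136), (3, 163), (1, 853), (2, 303509), (3, 163), (1, 853), (2, 303509), (3, 163), (1,
    853), (2, 303522), (3, 163), (1, 853), (2, 303522), (3, 164), (1, 853), (2, 303522), (3,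
    164), (1, 853), (2, 303896), (3, 164), (1, 853), (2, 303896), (3, 164), (1, 853), (2,
    303909), (3, 164), (1, 853), (2, 303909), (3, 165), (1, 853), (2, 303909), (3, 165), (1,
    853), (2, 304282), (3, 165), (1, 853), (2, 304282), (3, 165), (1, 853), (2, 304295), (3,
    165), (1, 853), (2, 304295), (3, 166), (1, 853), (2, 304295), (3, 166), (1, 853), (2,
    304676), (3, 166), (1, 853), (2, 304676), (3, 166), (1, 853), (2, 305012), (3, 166), (1,
    853), (2, 305012), (3, 167), (1, 853), (2, 305012), (3, 167), (1, 853), (2, 305385), (3,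
    167), (1, 853), (2, 305385), (3, 167), (1, 853), (2, 305399), (3, 167), (1, 853), (2,
    305399), (3, 167), (1, 414), (4, 1)]

/-- the positions of the words -/
def P : List ℕ :=
  [261, 1, 347353, 347180, 950673, 950331, 1553122, 1552870, 1855837, 1855644, 2459903, 2459583,
    3063181, 3062931, 3366256, 3366090, 3971113, 3970798, 4575176, 4574900, 4878613, 4878445,
    5484239, 5483927, 6089089, 6088833, 6392989, 6392796, 6999428, 6999111, 7605076, 7604819,
    7909382, 7909190, 8516654, 8516319, 9123075, 9122820, 9427798, 9427599, 10035836, 10035502,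
    10643016, 10642776, 10948145, 10947943, 11556940, 11556620, 12164884, 12164667, 12470415,
    12470222, 13079999, 13079674, 13688751, 13688496, 13994636, 13994440, 14604987, 14604667,
    15214539, 15214262, 15520786, 15520594, 16131921, 16131603, 16742560, 16742310, 17049550,
    17049361, 17661995, 17661798, 0, 301391, 648943, 1252107, 1854648, 2157808, 2761760, 3365102,
    3668631, 4273352, 4877455, 5181374, 5786898, 6391805, 6696141, 7302470, 7908198, 8212942,
    8820084, 9426586, 9731738, 10339654, 10946932, 11252469, 11861159, 12469207, 12775136,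
    13384601, 13993424, 14299742, 14909981, 15519577, 15826290, 16437635, 17048343, 17355768,
    17968218]

end Vale.Agent.P333.Rle.V12
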