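import Vale.Agent.P333.CE.Fast

/-!
P333: the words of an instance, and the words that greedy makes of them.
-/

namespace Vale.Agent.P333.Rle.V20

def w0 : List (ℕ × ℕ) :=
  [(2, 106110), (3, 73), (1, 159), (2, 299999), (3, 73), (1, 159), (2, 299999), (3, 73), (1,
    159), (2, 299999)]

def w1 : List (ℕ × ℕ) :=
  [(2, 106337), (3, 73), (1, 159), (2, 299999), (3, 73), (1, 159), (2, 299999), (3, 73), (1, 153)]

def w2 : List (ℕ × ℕ) :=
  [(2, 299884), (3, 73), (1, 159), (2, 300397), (3, 73), (1, 159), (2, 300397), (3, 73), (1,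
    159), (2, 300397)]

def w3 : List (ℕ × ℕ) :=
  [(2, 299999), (3, 73), (1, 159), (2, 300397), (3, 73), (1, 159), (2, 300397), (3, 73), (1, 41)]

def w4 : List (ℕ × ℕ) :=
  [(2, 300091), (3, 73), (1, 159), (2, 300424), (3, 73), (1, 159), (2, 300424), (3, 73)]

def w5 : List (ℕ × ℕ) :=
  [(2, 300397), (3, 73), (1, 159), (2, 300424), (3, 73), (1, 159), (2, 146)]

def w6 : List (ℕ × ℕ) :=
  [(1, 5), (2, 300424), (3, 75), (1, 159), (2, 300424), (3, 75), (1, 159), (2, 300424)]

def w7 : List (ℕ × ℕ) :=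
  [(3, 73), (1, 159), (2, 300424), (3, 75), (1, 159), (2, 300424), (3, 75), (1, 151)]

def w8 : List (ℕ × ℕ) :=
  [(2, 300307), (3, 75), (1, 159), (2, 300822), (3, 75), (1, 159), (2, 300822), (3, 75), (1,
    159), (2, 300822)]

def w9 : List (ℕ × ℕ) :=
  [(2, 300424), (3, 75), (1, 159), (2, 300822), (3, 75), (1, 159), (2, 300822), (3, 75), (1, 41)]

def w10 : List (ℕ × ℕ) :=
  [(2, 300516), (3, 75), (1, 159), (2, 300849), (3, 75), (1, 159), (2, 300849), (3, 75)]

def w11 : List (ℕ × ℕ) :=
  [(2, 300822), (3, 75), (1, 159), (2, 300849), (3, 75), (1, 159), (2, 146)]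

def w12 : List (ℕ × ℕ) :=
  [(1, 7), (2, 300849), (3, 77), (1, 159), (2, 300849), (3, 77), (1, 159), (2, 300849)]

def w13 : List (ℕ × ℕ) :=
  [(3, 75), (1, 159), (2, 300849), (3, 77), (1, 159), (2, 300849), (3, 77), (1, 149)]

def w14 : List (ℕ × ℕ) :=
  [(2, 300732), (3, 77), (1, 159), (2, 301247), (3, 77), (1, 159), (2, 301247), (3, 77), (1,
    159), (2, 301247)]

def w15 : List (ℕ × ℕ) :=
  [(2, 300849), (3, 77), (1, 159), (2, 301247), (3, 77), (1, 159), (2, 301247), (3, 77), (1, 39)]

def w16 : List (ℕ × ℕ) :=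
  [(2, 300941), (3, 77), (1, 159), (2, 301274), (3, 77), (1, 159), (2, 301274), (3, 77)]

def w17 : List (ℕ × ℕ) :=
  [(2, 301247), (3, 77), (1, 159), (2, 301274), (3, 77), (1, 159), (2, 146)]

def w18 : List (ℕ × ℕ) :=
  [(1, 9), (2, 301274), (3, 79), (1, 159), (2, 301274), (3, 79), (1, 159), (2, 301274)]

def w19 : List (ℕ × ℕ) :=
  [(3, 77), (1, 159), (2, 301274), (3, 79), (1, 159), (2, 301274), (3, 79), (1, 147)]

def w20 : List (ℕ × ℕ) :=
  [(2, 301157), (3, 79), (1, 159), (2, 301672), (3, 79), (1, 159), (2, 301672), (3, 79), (1,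
    159), (2, 301672)]

def w21 : List (ℕ × ℕ) :=
  [(2, 301274), (3, 79), (1, 159), (2, 301672), (3, 79), (1, 159), (2, 301672), (3, 79), (1, 37)]

def w22 : List (ℕ × ℕ) :=
  [(2, 301366), (3, 79), (1, 159), (2, 301699), (3, 79), (1, 159), (2, 301699), (3, 79)]

def w23 : List (ℕ × ℕ) :=
  [(2, 301672), (3, 79), (1, 159), (2, 301699), (3, 79), (1, 159), (2, 146)]

def w24 : List (ℕ × ℕ) :=
  [(1, 11), (2, 301699), (3, 81), (1, 159), (2, 301699), (3, 81), (1, 159), (2, 301699)]

def w25 : List (ℕ × ℕ) :=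
  [(3, 79), (1, 159), (2, 301699), (3, 81), (1, 159), (2, 301699), (3, 81), (1, 145)]

def w26 : List (ℕ × ℕ) :=
  [(2, 301582), (3, 81), (1, 159), (2, 302097), (3, 81), (1, 159), (2, 302097), (3, 81), (1,
    159), (2, 302097)]

def w27 : List (ℕ × ℕ) :=
  [(2, 301699), (3, 81), (1, 159), (2, 302097), (3, 81), (1, 159), (2, 302097), (3, 81), (1, 35)]

def w28 : List (ℕ × ℕ) :=
  [(2, 301791), (3, 81), (1, 159), (2, 302124), (3, 81), (1, 159), (2, 302124), (3, 81)]

def w29 : List (ℕ × ℕ) :=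
  [(2, 302097), (3, 81), (1, 159), (2, 302124), (3, 81), (1, 159), (2, 146)]

def w30 : List (ℕ × ℕ) :=
  [(1, 13), (2, 302124), (3, 83), (1, 159), (2, 302124), (3, 83), (1, 159), (2, 302124)]

def w31 : List (ℕ × ℕ) :=
  [(3, 81), (1, 159), (2, 302124), (3, 83), (1, 159), (2, 302124), (3, 83), (1, 143)]

def w32 : List (ℕ × ℕ) :=
  [(2, 302007), (3, 83), (1, 159), (2, 302522), (3, 83), (1, 159), (2, 302522), (3, 83), (1,
    159), (2, 302522)]

def w33 : List (ℕ × ℕ) :=
  [(2, 302124), (3, 83), (1, 159), (2, 302522), (3, 83), (1, 159), (2, 302522), (3, 83), (1, 33)]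

def w34 : List (ℕ × ℕ) :=
  [(2, 302217), (3, 83), (1, 159), (2, 302549), (3, 83), (1, 159), (2, 302549), (3, 83)]

def w35 : List (ℕ × ℕ) :=
  [(2, 302522), (3, 83), (1, 159), (2, 302549), (3, 83), (1, 159), (2, 145)]

def w36 : List (ℕ × ℕ) :=
  [(1, 15), (2, 302549), (3, 85), (1, 159), (2, 302549), (3, 85), (1, 159), (2, 302549)]

def w37 : List (ℕ × ℕ) :=
  [(3, 83), (1, 159), (2, 302549), (3, 85), (1, 159), (2, 302549), (3, 85), (1, 141)]

def w38 : List (ℕ × ℕ) :=
  [(2, 302432), (3, 85), (1, 159), (2, 302947), (3, 85), (1, 159), (2, 302947), (3, 85), (1,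
    159), (2, 302947)]

def w39 : List (ℕ × ℕ) :=
  [(2, 302549), (3, 85), (1, 159), (2, 302947), (3, 85), (1, 159), (2, 302947), (3, 85), (1, 31)]

def w40 : List (ℕ × ℕ) :=
  [(2, 302611), (3, 85), (1, 159), (2, 302974), (3, 85), (1, 159), (2, 302974), (3, 85)]

def w41 : List (ℕ × ℕ) :=
  [(2, 302947), (3, 85), (1, 159), (2, 302974), (3, 85), (1, 159), (2, 176)]

def w42 : List (ℕ × ℕ) :=
  [(1, 17), (2, 302974), (3, 87), (1, 159), (2, 302974), (3, 87), (1, 159), (2, 302974)]

def w43 : List (ℕ × ℕ) :=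
  [(3, 85), (1, 159), (2, 302974), (3, 87), (1, 159), (2, 302974), (3, 87), (1, 139)]

def w44 : List (ℕ × ℕ) :=
  [(2, 302857), (3, 87), (1, 159), (2, 303372), (3, 87), (1, 159), (2, 303372), (3, 87), (1,
    159), (2, 303372)]

def w45 : List (ℕ × ℕ) :=
  [(2, 302974), (3, 87), (1, 159), (2, 303372), (3, 87), (1, 159), (2, 303372), (3, 87), (1, 29)]

def w46 : List (ℕ × ℕ) :=
  [(2, 303066), (3, 87), (1, 159), (2, 303399), (3, 87), (1, 159), (2, 303399), (3, 87)]

def w47 : List (ℕ × ℕ) :=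
  [(2, 303372), (3, 87), (1, 159), (2, 303399), (3, 87), (1, 159), (2, 146)]

def w48 : List (ℕ × ℕ) :=
  [(1, 19), (2, 303399), (3, 89), (1, 159), (2, 303399), (3, 89), (1, 159), (2, 303399)]

def w49 : List (ℕ × ℕ) :=
  [(3, 87), (1, 159), (2, 303399), (3, 89), (1, 159), (2, 303399), (3, 89), (1, 137)]

def w50 : List (ℕ × ℕ) :=
  [(2, 303282), (3, 89), (1, 159), (2, 303797), (3, 89), (1, 159), (2, 303797), (3, 89), (1,
    159), (2, 303797)]

def w51 : List (ℕ × ℕ) :=
  [(2, 303399), (3, 89), (1, 159), (2, 303797), (3, 89), (1, 159), (2, 303797), (3, 89), (1, 27)]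

def w52 : List (ℕ × ℕ) :=
  [(2, 303491), (3, 89), (1, 159), (2, 303824), (3, 89), (1, 159), (2, 303824), (3, 89)]

def w53 : List (ℕ × ℕ) :=
  [(2, 303797), (3, 89), (1, 159), (2, 303824), (3, 89), (1, 159), (2, 146)]

def w54 : List (ℕ × ℕ) :=
  [(1, 21), (2, 303824), (3, 91), (1, 159), (2, 303824), (3, 91), (1, 159), (2, 303824)]

def w55 : List (ℕ × ℕ) :=
  [(3, 89), (1, 159), (2, 303824), (3, 91), (1, 159), (2, 303824), (3, 91), (1, 135)]

def w56 : List (ℕ × ℕ) :=
  [(2, 303707), (3, 91), (1, 159), (2, 304222), (3, 91), (1, 159), (2, 304222), (3, 91), (1,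
    159), (2, 304222)]

def w57 : List (ℕ × ℕ) :=
  [(2, 303824), (3, 91), (1, 159), (2, 304222), (3, 91), (1, 159), (2, 304222), (3, 91), (1, 25)]

def w58 : List (ℕ × ℕ) :=
  [(2, 303916), (3, 91), (1, 159), (2, 304249), (3, 91), (1, 159), (2, 304249), (3, 91)]

def w59 : List (ℕ × ℕ) :=
  [(2, 304222), (3, 91), (1, 159), (2, 304249), (3, 91), (1, 159), (2, 146)]

def w60 : List (ℕ × ℕ) :=
  [(1, 23), (2, 304249), (3, 93), (1, 159), (2, 304249), (3, 93), (1, 159), (2, 304249)]

def w61 : List (ℕ × ℕ) :=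
  [(3, 91), (1, 159), (2, 304249), (3, 93), (1, 159), (2, 304249), (3, 93), (1, 133)]

def w62 : List (ℕ × ℕ) :=
  [(2, 304133), (3, 93), (1, 159), (2, 304647), (3, 93), (1, 159), (2, 304647), (3, 93), (1,
    159), (2, 304647)]

def w63 : List (ℕ × ℕ) :=
  [(2, 304249), (3, 93), (1, 159), (2, 304647), (3, 93), (1, 159), (2, 304647), (3, 93), (1, 22)]

def w64 : List (ℕ × ℕ) :=
  [(2, 304341), (3, 93), (1, 159), (2, 304674), (3, 93), (1, 159), (2, 304674), (3, 93)]

def w65 : List (ℕ × ℕ) :=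
  [(2, 304647), (3, 93), (1, 159), (2, 304674), (3, 93), (1, 159), (2, 146)]

def w66 : List (ℕ × ℕ) :=
  [(1, 25), (2, 304674), (3, 95), (1, 159), (2, 304674), (3, 95), (1, 159), (2, 304674)]

def w67 : List (ℕ × ℕ) :=
  [(3, 93), (1, 159), (2, 304674), (3, 95), (1, 159), (2, 304674), (3, 95), (1, 131)]

def w68 : List (ℕ × ℕ) :=
  [(2, 304557), (3, 95), (1, 159), (2, 305072), (3, 95), (1, 159), (2, 305072), (3, 95), (1,
    159), (2, 305072)]

def w69 : List (ℕ × ℕ) :=
  [(2, 304674), (3, 95), (1, 159), (2, 305072), (3, 95), (1, 159), (2, 305072), (3, 95), (1, 21)]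

def w70 : List (ℕ × ℕ) :=
  [(2, 304766), (3, 95), (1, 159), (2, 305099), (3, 95), (1, 159), (2, 305099), (3, 95)]

def w71 : List (ℕ × ℕ) :=
  [(2, 305072), (3, 95), (1, 159), (2, 305099), (3, 95), (1, 159), (2, 146)]

def w72 : List (ℕ × ℕ) :=
  [(1, 27), (2, 305099), (3, 97), (1, 159), (2, 305099), (3, 97), (1, 159), (2, 305099)]

def w73 : List (ℕ × ℕ) :=
  [(3, 95), (1, 159), (2, 305099), (3, 97), (1, 159), (2, 305099), (3, 97), (1, 129)]

def w74 : List (ℕ × ℕ) :=
  [(2, 304982), (3, 97), (1, 159), (2, 305497), (3, 97), (1, 159), (2, 305497), (3, 97), (1,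
    159), (2, 305497)]

def w75 : List (ℕ × ℕ) :=
  [(2, 305099), (3, 97), (1, 159), (2, 305497), (3, 97), (1, 159), (2, 305497), (3, 97), (1, 19)]

def w76 : List (ℕ × ℕ) :=
  [(2, 305191), (3, 97), (1, 159), (2, 305524), (3, 97), (1, 159), (2, 305524), (3, 97)]

def w77 : List (ℕ × ℕ) :=
  [(2, 305497), (3, 97), (1, 159), (2, 305524), (3, 97), (1, 159), (2, 146)]

def w78 : List (ℕ × ℕ) :=
  [(1, 29), (2, 305524), (3, 99), (1, 159), (2, 305524), (3, 99), (1, 159), (2, 305524)]

def w79 : List (ℕ × ℕ) :=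
  [(3, 97), (1, 159), (2, 305524), (3, 99), (1, 159), (2, 305524), (3, 99), (1, 127)]

def w80 : List (ℕ × ℕ) :=
  [(2, 305407), (3, 99), (1, 159), (2, 305922), (3, 99), (1, 159), (2, 305922), (3, 99), (1,
    159), (2, 305922)]

def w81 : List (ℕ × ℕ) :=
  [(2, 305524), (3, 99), (1, 159), (2, 305922), (3, 99), (1, 159), (2, 305922), (3, 99), (1, 17)]

def w82 : List (ℕ × ℕ) :=
  [(2, 305616), (3, 99), (1, 159), (2, 305949), (3, 99), (1, 159), (2, 305949), (3, 99)]

def w83 : List (ℕ × ℕ) :=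
  [(2, 305922), (3, 99), (1, 159), (2, 305949), (3, 99), (1, 159), (2, 146)]

def w84 : List (ℕ × ℕ) :=
  [(1, 31), (2, 305949), (3, 101), (1, 159), (2, 305949), (3, 101), (1, 159), (2, 305949)]

def w85 : List (ℕ × ℕ) :=
  [(3, 99), (1, 159), (2, 305949), (3, 101), (1, 159), (2, 305949), (3, 101), (1, 125)]

def w86 : List (ℕ × ℕ) :=
  [(2, 305832), (3, 101), (1, 159), (2, 306347), (3, 101), (1, 159), (2, 306347), (3, 101), (1,
    159), (2, 306347)]

def w87 : List (ℕ × ℕ) :=
  [(2, 305949), (3, 101), (1, 159), (2, 306347), (3, 101), (1, 159), (2, 306347), (3, 101), (1,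
    15)]

def w88 : List (ℕ × ℕ) :=
  [(2, 306041), (3, 101), (1, 159), (2, 306374), (3, 101), (1, 159), (2, 306374), (3, 101)]

def w89 : List (ℕ × ℕ) :=
  [(2, 306347), (3, 101), (1, 159), (2, 306374), (3, 101), (1, 159), (2, 146)]

def w90 : List (ℕ × ℕ) :=
  [(1, 33), (2, 306374), (3, 103), (1, 159), (2, 306374), (3, 103), (1, 159), (2, 306374)]

def w91 : List (ℕ × ℕ) :=
  [(3, 101), (1, 159), (2, 306374), (3, 103), (1, 159), (2, 306374), (3, 103), (1, 123)]

def w92 : List (ℕ × ℕ) :=
  [(2, 306257), (3, 103), (1, 159), (2, 306772), (3, 103), (1, 159), (2, 306772), (3, 103), (1,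
    159), (2, 306772)]

def w93 : List (ℕ × ℕ) :=
  [(2, 306374), (3, 103), (1, 159), (2, 306772), (3, 103), (1, 159), (2, 306772), (3, 103), (1,
    13)]

def w94 : List (ℕ × ℕ) :=
  [(2, 306466), (3, 103), (1, 159), (2, 306799), (3, 103), (1, 159), (2, 306799), (3, 103)]

def w95 : List (ℕ × ℕ) :=
  [(2, 306772), (3, 103), (1, 159), (2, 306799), (3, 103), (1, 159), (2, 146)]

def w96 : List (ℕ × ℕ) :=
  [(1, 35), (2, 306799), (3, 105), (1, 159), (2, 306799), (3, 105), (1, 159), (2, 306799)]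

def w97 : List (ℕ × ℕ) :=
  [(3, 103), (1, 159), (2, 306799), (3, 105), (1, 159), (2, 306799), (3, 105), (1, 121)]

def w98 : List (ℕ × ℕ) :=
  [(2, 306682), (3, 105), (1, 159), (2, 307197), (3, 105), (1, 159), (2, 307197), (3, 105), (1,
    159), (2, 307197)]

def w99 : List (ℕ × ℕ) :=
  [(2, 306799), (3, 105), (1, 159), (2, 307197), (3, 105), (1, 159), (2, 307197), (3, 105), (1,
    11)]

def w100 : List (ℕ × ℕ) :=
  [(2, 306891), (3, 105), (1, 159), (2, 307224), (3, 105), (1, 159), (2, 307224), (3, 105)]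

def w101 : List (ℕ × ℕ) :=
  [(2, 307197), (3, 105), (1, 159), (2, 307224), (3, 105), (1, 159), (2, 146)]

def w102 : List (ℕ × ℕ) :=
  [(1, 37), (2, 307224), (3, 107), (1, 159), (2, 307224), (3, 107), (1, 159), (2, 307224)]

def w103 : List (ℕ × ℕ) :=
  [(3, 105), (1, 159), (2, 307224), (3, 107), (1, 159), (2, 307224), (3, 107), (1, 119)]

def w104 : List (ℕ × ℕ) :=
  [(2, 307107), (3, 107), (1, 159), (2, 307622), (3, 107), (1, 159), (2, 307622), (3, 107), (1,
    159), (2, 307622)]

def w105 : List (ℕ × ℕ) :=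
  [(2, 307224), (3, 107), (1, 159), (2, 307622), (3, 107), (1, 159), (2, 307622), (3, 107), (1,
    9)]

def w106 : List (ℕ × ℕ) :=
  [(2, 307316), (3, 107), (1, 159), (2, 307649), (3, 107), (1, 159), (2, 307649), (3, 107)]

def w107 : List (ℕ × ℕ) :=
  [(2, 307622), (3, 107), (1, 159), (2, 307649), (3, 107), (1, 159), (2, 146)]

def w108 : List (ℕ × ℕ) :=
  [(1, 39), (2, 307649), (3, 109), (1, 159), (2, 307649), (3, 109), (1, 159), (2, 307649)]

def w109 : List (ℕ × ℕ) :=
  [(3, 107), (1, 159), (2, 307649), (3, 109), (1, 159), (2, 307649), (3, 109), (1, 117)]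

def w110 : List (ℕ × ℕ) :=
  [(2, 307532), (3, 109), (1, 159), (2, 308047), (3, 109), (1, 159), (2, 308047), (3, 109), (1,
    159), (2, 308047)]

def w111 : List (ℕ × ℕ) :=
  [(2, 307649), (3, 109), (1, 159), (2, 308047), (3, 109), (1, 159), (2, 308047), (3, 109), (1,
    7)]

def w112 : List (ℕ × ℕ) :=
  [(2, 307741), (3, 109), (1, 159), (2, 308074), (3, 109), (1, 159), (2, 308074), (3, 109)]

def w113 : List (ℕ × ℕ) :=
  [(2, 308047), (3, 109), (1, 159), (2, 308074), (3, 109), (1, 159), (2, 146)]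

def w114 : List (ℕ × ℕ) :=
  [(1, 41), (2, 308074), (3, 111), (1, 159), (2, 308074), (3, 111), (1, 159), (2, 308074)]

def w115 : List (ℕ × ℕ) :=
  [(3, 109), (1, 159), (2, 308074), (3, 111), (1, 159), (2, 308074), (3, 111), (1, 115)]

def w116 : List (ℕ × ℕ) :=
  [(2, 307957), (3, 111), (1, 159), (2, 308472), (3, 111), (1, 159), (2, 308472), (3, 111), (1,
    159), (2, 308472)]

def w117 : List (ℕ × ℕ) :=
  [(2, 308074), (3, 111), (1, 159), (2, 308472), (3, 111), (1, 159), (2, 308472), (3, 111), (1,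
    5)]

def w118 : List (ℕ × ℕ) :=
  [(2, 308165), (3, 111), (1, 159), (2, 308499), (3, 111), (1, 159), (2, 308499), (3, 111), (1,
    159), (2, 30768)]

def w119 : List (ℕ × ℕ) :=
  [(2, 308472), (3, 111), (1, 159), (2, 308499), (3, 111), (1, 159), (2, 31074)]

def w120 : List (ℕ × ℕ) :=
  [(0, 1), (2, 106337), (3, 73), (1, 159), (2, 299999), (3, 73), (1, 159), (2, 299998)]

def w121 : List (ℕ × ℕ) :=
  [(2, 106336), (3, 73), (1, 159), (2, 299999), (3, 73), (1, 159), (2, 300397), (3, 73), (1,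
    159), (2, 300396)]

def w122 : List (ℕ × ℕ) :=
  [(2, 299998), (3, 73), (1, 159), (2, 300397), (3, 73), (1, 159), (2, 300424), (3, 72)]

def w123 : List (ℕ × ℕ) :=
  [(2, 300396), (3, 73), (1, 159), (2, 300424), (3, 75), (1, 159), (2, 300423)]

def w124 : List (ℕ × ℕ) :=
  [(3, 72), (1, 159), (2, 300424), (3, 75), (1, 159), (2, 300822), (3, 75), (1, 159), (2, 300821)]

def w125 : List (ℕ × ℕ) :=
  [(2, 300423), (3, 75), (1, 159), (2, 300822), (3, 75), (1, 159), (2, 300849), (3, 74)]

def w126 : List (ℕ × ℕ) :=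
  [(2, 300821), (3, 75), (1, 159), (2, 300849), (3, 77), (1, 159), (2, 300848)]

def w127 : List (ℕ × ℕ) :=
  [(3, 74), (1, 159), (2, 300849), (3, 77), (1, 159), (2, 301247), (3, 77), (1, 159), (2, 301246)]

def w128 : List (ℕ × ℕ) :=
  [(2, 300848), (3, 77), (1, 159), (2, 301247), (3, 77), (1, 159), (2, 301274), (3, 76)]

def w129 : List (ℕ × ℕ) :=
  [(2, 301246), (3, 77), (1, 159), (2, 301274), (3, 79), (1, 159), (2, 301270)]

def w130 : List (ℕ × ℕ) :=
  [(3, 76), (1, 159), (2, 301274), (3, 79), (1, 159), (2, 301672), (3, 79), (1, 159), (2, 301671)]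

def w131 : List (ℕ × ℕ) :=
  [(2, 301273), (3, 79), (1, 159), (2, 301672), (3, 79), (1, 159), (2, 301699), (3, 78)]

def w132 : List (ℕ × ℕ) :=
  [(2, 301671), (3, 79), (1, 159), (2, 301699), (3, 81), (1, 159), (2, 301698)]

def w133 : List (ℕ × ℕ) :=
  [(3, 78), (1, 159), (2, 301699), (3, 81), (1, 159), (2, 302097), (3, 81), (1, 159), (2, 302096)]

def w134 : List (ℕ × ℕ) :=
  [(2, 301698), (3, 81), (1, 159), (2, 302097), (3, 81), (1, 159), (2, 302124), (3, 80)]

def w135 : List (ℕ × ℕ) :=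
  [(2, 302096), (3, 81), (1, 159), (2, 302124), (3, 83), (1, 159), (2, 302123)]

def w136 : List (ℕ × ℕ) :=
  [(3, 80), (1, 159), (2, 302124), (3, 83), (1, 159), (2, 302522), (3, 83), (1, 159), (2, 302521)]

def w137 : List (ℕ × ℕ) :=
  [(2, 302123), (3, 83), (1, 159), (2, 302522), (3, 83), (1, 159), (2, 302549), (3, 82)]

def w138 : List (ℕ × ℕ) :=
  [(2, 302521), (3, 83), (1, 159), (2, 302549), (3, 85), (1, 159), (2, 302548)]

def w139 : List (ℕ × ℕ) :=
  [(3, 82), (1, 159), (2, 302549), (3, 85), (1, 159), (2, 302947), (3, 85), (1, 159), (2, 302946)]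

def w140 : List (ℕ × ℕ) :=
  [(2, 302548), (3, 85), (1, 159), (2, 302947), (3, 85), (1, 159), (2, 302974), (3, 84)]

def w141 : List (ℕ × ℕ) :=
  [(2, 302946), (3, 85), (1, 159), (2, 302974), (3, 87), (1, 159), (2, 302973)]

def w142 : List (ℕ × ℕ) :=
  [(3, 84), (1, 159), (2, 302974), (3, 87), (1, 159), (2, 303372), (3, 87), (1, 159), (2, 303371)]

def w143 : List (ℕ × ℕ) :=
  [(2, 302973), (3, 87), (1, 159), (2, 303372), (3, 87), (1, 159), (2, 303399), (3, 86)]

def w144 : List (ℕ × ℕ) :=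
  [(2, 303371), (3, 87), (1, 159), (2, 303399), (3, 89), (1, 159), (2, 303398)]

def w145 : List (ℕ × ℕ) :=
  [(3, 86), (1, 159), (2, 303399), (3, 89), (1, 159), (2, 303797), (3, 89), (1, 159), (2, 303796)]

def w146 : List (ℕ × ℕ) :=
  [(2, 303398), (3, 89), (1, 159), (2, 303797), (3, 89), (1, 159), (2, 303824), (3, 88)]

def w147 : List (ℕ × ℕ) :=
  [(2, 303796), (3, 89), (1, 159), (2, 303824), (3, 91), (1, 159), (2, 303823)]

def w148 : List (ℕ × ℕ) :=
  [(3, 88), (1, 159), (2, 303824), (3, 91), (1, 159), (2, 304222), (3, 91), (1, 159), (2, 304221)]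

def w149 : List (ℕ × ℕ) :=
  [(2, 303823), (3, 91), (1, 159), (2, 304222), (3, 91), (1, 159), (2, 304249), (3, 90)]

def w150 : List (ℕ × ℕ) :=
  [(2, 304221), (3, 91), (1, 159), (2, 304249), (3, 93), (1, 159), (2, 304248)]

def w151 : List (ℕ × ℕ) :=
  [(3, 90), (1, 159), (2, 304249), (3, 93), (1, 159), (2, 304647), (3, 93), (1, 159), (2, 304646)]

def w152 : List (ℕ × ℕ) :=
  [(2, 304248), (3, 93), (1, 159), (2, 304647), (3, 93), (1, 159), (2, 304674), (3, 92)]

def w153 : List (ℕ × ℕ) :=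
  [(2, 304646), (3, 93), (1, 159), (2, 304674), (3, 95), (1, 159), (2, 304673)]

def w154 : List (ℕ × ℕ) :=
  [(3, 92), (1, 159), (2, 304674), (3, 95), (1, 159), (2, 305072), (3, 95), (1, 159), (2, 305071)]

def w155 : List (ℕ × ℕ) :=
  [(2, 304673), (3, 95), (1, 159), (2, 305072), (3, 95), (1, 159), (2, 305099), (3, 94)]

def w156 : List (ℕ × ℕ) :=
  [(2, 305071), (3, 95), (1, 159), (2, 305099), (3, 97), (1, 159), (2, 305098)]

def w157 : List (ℕ × ℕ) :=
  [(3, 94), (1, 159), (2, 305099), (3, 97), (1, 159), (2, 305497), (3, 97), (1, 159), (2, 305496)]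

def w158 : List (ℕ × ℕ) :=
  [(2, 305098), (3, 97), (1, 159), (2, 305497), (3, 97), (1, 159), (2, 305524), (3, 96)]

def w159 : List (ℕ × ℕ) :=
  [(2, 305496), (3, 97), (1, 159), (2, 305524), (3, 99), (1, 159), (2, 305523)]

def w160 : List (ℕ × ℕ) :=
  [(3, 96), (1, 159), (2, 305524), (3, 99), (1, 159), (2, 305922), (3, 99), (1, 159), (2, 305921)]

def w161 : List (ℕ × ℕ) :=
  [(2, 305523), (3, 99), (1, 159), (2, 305922), (3, 99), (1, 159), (2, 305949), (3, 98)]

def w162 : List (ℕ × ℕ) :=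
  [(2, 305921), (3, 99), (1, 159), (2, 305949), (3, 101), (1, 159), (2, 305948)]

def w163 : List (ℕ × ℕ) :=
  [(3, 98), (1, 159), (2, 305949), (3, 101), (1, 159), (2, 306347), (3, 101), (1, 159), (2,
    306346)]

def w164 : List (ℕ × ℕ) :=
  [(2, 305948), (3, 101), (1, 159), (2, 306347), (3, 101), (1, 159), (2, 306374), (3, 100)]

def w165 : List (ℕ × ℕ) :=
  [(2, 306346), (3, 101), (1, 159), (2, 306374), (3, 103), (1, 159), (2, 306373)]

def w166 : List (ℕ × ℕ) :=
  [(3, 100), (1, 159), (2, 306374), (3, 103), (1, 159), (2, 306772), (3, 103), (1, 159), (2,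
    306771)]

def w167 : List (ℕ × ℕ) :=
  [(2, 306373), (3, 103), (1, 159), (2, 306772), (3, 103), (1, 159), (2, 306799), (3, 102)]

def w168 : List (ℕ × ℕ) :=
  [(2, 306771), (3, 103), (1, 159), (2, 306799), (3, 105), (1, 159), (2, 306798)]

def w169 : List (ℕ × ℕ) :=
  [(3, 102), (1, 159), (2, 306799), (3, 105), (1, 159), (2, 307197), (3, 105), (1, 159), (2,
    307196)]

def w170 : List (ℕ × ℕ) :=
  [(2, 306798), (3, 105), (1, 159), (2, 307197), (3, 105), (1, 159), (2, 307224), (3, 104)]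

def w171 : List (ℕ × ℕ) :=
  [(2, 307196), (3, 105), (1, 159), (2, 307224), (3, 107), (1, 159), (2, 307223)]

def w172 : List (ℕ × ℕ) :=
  [(3, 104), (1, 159), (2, 307224), (3, 107), (1, 159), (2, 307622), (3, 107), (1, 159), (2,
    307621)]

def w173 : List (ℕ × ℕ) :=
  [(2, 307223), (3, 107), (1, 159), (2, 307622), (3, 107), (1, 159), (2, 307649), (3, 106)]

def w174 : List (ℕ × ℕ) :=
  [(2, 307621), (3, 107), (1, 159), (2, 307649), (3, 109), (1, 159), (2, 307648)]

def w175 : List (ℕ × ℕ) :=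
  [(3, 106), (1, 159), (2, 307649), (3, 109), (1, 159), (2, 308047), (3, 109), (1, 159), (2,
    308046)]

def w176 : List (ℕ × ℕ) :=
  [(2, 307648), (3, 109), (1, 159), (2, 308047), (3, 109), (1, 159), (2, 308074), (3, 108)]

def w177 : List (ℕ × ℕ) :=
  [(2, 308046), (3, 109), (1, 159), (2, 308074), (3, 111), (1, 159), (2, 308073)]

def w178 : List (ℕ × ℕ) :=
  [(3, 108), (1, 159), (2, 308074), (3, 111), (1, 159), (2, 308472), (3, 111), (1, 159), (2,
    308471)]

def w179 : List (ℕ × ℕ) :=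
  [(2, 308073), (3, 111), (1, 159), (2, 308472), (3, 111), (1, 159), (2, 308499), (3, 111), (1,
    159), (2, 30767)]

def w180 : List (ℕ × ℕ) :=
  [(2, 308471), (3, 111), (1, 159), (2, 308499), (3, 111), (1, 159), (2, 30768), (4, 1)]

def m1 : List (ℕ × ℕ) :=
  [(2, 307957), (3, 111), (1, 159), (2, 308472), (3, 111), (1, 159), (2, 308472), (3, 111), (1,
    159), (2, 308472), (3, 111), (1, 5)]

def m2 : List (ℕ × ℕ) :=
  [(3, 108), (1, 159), (2, 308074), (3, 111), (1, 159), (2, 308472), (3, 111), (1, 159), (2,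
    308499), (3, 111), (1, 159), (2, 30767)]

def m3 : List (ℕ × ℕ) :=
  [(2, 307532), (3, 109), (1, 159), (2, 308047), (3, 109), (1, 159), (2, 308047), (3, 109), (1,
    159), (2, 308047), (3, 109), (1, 7)]

def m4 : List (ℕ × ℕ) :=
  [(3, 106), (1, 159), (2, 307649), (3, 109), (1, 159), (2, 308047), (3, 109), (1, 159), (2,
    308074), (3, 108)]

def m5 : List (ℕ × ℕ) :=
  [(2, 307107), (3, 107), (1, 159), (2, 307622), (3, 107), (1, 159), (2, 307622), (3, 107), (1,
    159), (2, 307622), (3, 107), (1, 9)]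

def m6 : List (ℕ × ℕ) :=
  [(3, 104), (1, 159), (2, 307224), (3, 107), (1, 159), (2, 307622), (3, 107), (1, 159), (2,
    307649), (3, 106)]

def m7 : List (ℕ × ℕ) :=
  [(2, 306682), (3, 105), (1, 159), (2, 307197), (3, 105), (1, 159), (2, 307197), (3, 105), (1,
    159), (2, 307197), (3, 105), (1, 11)]

def m8 : List (ℕ × ℕ) :=
  [(3, 102), (1, 159), (2, 306799), (3, 105), (1, 159), (2, 307197), (3, 105), (1, 159), (2,
    307224), (3, 104)]

def m9 : List (ℕ × ℕ) :=
  [(2, 306257), (3, 103), (1, 159), (2, 306772), (3, 103), (1, 159), (2, 306772), (3, 103), (1,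
    159), (2, 306772), (3, 103), (1, 13)]

def m10 : List (ℕ × ℕ) :=
  [(3, 100), (1, 159), (2, 306374), (3, 103), (1, 159), (2, 306772), (3, 103), (1, 159), (2,
    306799), (3, 102)]

def m11 : List (ℕ × ℕ) :=
  [(2, 305832), (3, 101), (1, 159), (2, 306347), (3, 101), (1, 159), (2, 306347), (3, 101), (1,
    159), (2, 306347), (3, 101), (1, 15)]

def m12 : List (ℕ × ℕ) :=
  [(3, 98), (1, 159), (2, 305949), (3, 101), (1, 159), (2, 306347), (3, 101), (1, 159), (2,
    306374), (3, 100)]

def m13 : List (ℕ × ℕ) :=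
  [(2, 305407), (3, 99), (1, 159), (2, 305922), (3, 99), (1, 159), (2, 305922), (3, 99), (1,
    159), (2, 305922), (3, 99), (1, 17)]

def m14 : List (ℕ × ℕ) :=
  [(3, 96), (1, 159), (2, 305524), (3, 99), (1, 159), (2, 305922), (3, 99), (1, 159), (2,
    305949), (3, 98)]

def m15 : List (ℕ × ℕ) :=
  [(2, 304982), (3, 97), (1, 159), (2, 305497), (3, 97), (1, 159), (2, 305497), (3, 97), (1,
    159), (2, 305497), (3, 97), (1, 19)]

def m16 : List (ℕ × ℕ) :=
  [(3, 94), (1, 159), (2, 305099), (3, 97), (1, 159), (2, 305497), (3, 97), (1, 159), (2,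
    305524), (3, 96)]

def m17 : List (ℕ × ℕ) :=
  [(2, 304557), (3, 95), (1, 159), (2, 305072), (3, 95), (1, 159), (2, 305072), (3, 95), (1,
    159), (2, 305072), (3, 95), (1, 21)]

def m18 : List (ℕ × ℕ) :=
  [(3, 92), (1, 159), (2, 304674), (3, 95), (1, 159), (2, 305072), (3, 95), (1, 159), (2,
    305099), (3, 94)]

def m19 : List (ℕ × ℕ) :=
  [(2, 304133), (3, 93), (1, 159), (2, 304647), (3, 93), (1, 159), (2, 304647), (3, 93), (1,
    159), (2, 304647), (3, 93), (1, 22)]

def m20 : List (ℕ × ℕ) :=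
  [(3, 90), (1, 159), (2, 304249), (3, 93), (1, 159), (2, 304647), (3, 93), (1, 159), (2,
    304674), (3, 92)]

def m21 : List (ℕ × ℕ) :=
  [(2, 303707), (3, 91), (1, 159), (2, 304222), (3, 91), (1, 159), (2, 304222), (3, 91), (1,
    159), (2, 304222), (3, 91), (1, 25)]

def m22 : List (ℕ × ℕ) :=
  [(3, 88), (1, 159), (2, 303824), (3, 91), (1, 159), (2, 304222), (3, 91), (1, 159), (2,
    304249), (3, 90)]

def m23 : List (ℕ × ℕ) :=
  [(2, 303282), (3, 89), (1, 159), (2, 303797), (3, 89), (1, 159), (2, 303797), (3, 89), (1,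
    159), (2, 303797), (3, 89), (1, 27)]

def m24 : List (ℕ × ℕ) :=
  [(3, 86), (1, 159), (2, 303399), (3, 89), (1, 159), (2, 303797), (3, 89), (1, 159), (2,
    303824), (3, 88)]

def m25 : List (ℕ × ℕ) :=
  [(2, 302857), (3, 87), (1, 159), (2, 303372), (3, 87), (1, 159), (2, 303372), (3, 87), (1,
    159), (2, 303372), (3, 87), (1, 29)]

def m26 : List (ℕ × ℕ) :=
  [(3, 84), (1, 159), (2, 302974), (3, 87), (1, 159), (2, 303372), (3, 87), (1, 159), (2,
    303399), (3, 86)]

def m27 : List (ℕ × ℕ) :=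
  [(2, 302432), (3, 85), (1, 159), (2, 302947), (3, 85), (1, 159), (2, 302947), (3, 85), (1,
    159), (2, 302947), (3, 85), (1, 31)]

def m28 : List (ℕ × ℕ) :=
  [(3, 82), (1, 159), (2, 302549), (3, 85), (1, 159), (2, 302947), (3, 85), (1, 159), (2,
    302974), (3, 84)]

def m29 : List (ℕ × ℕ) :=
  [(2, 302007), (3, 83), (1, 159), (2, 302522), (3, 83), (1, 159), (2, 302522), (3, 83), (1,
    159), (2, 302522), (3, 83), (1, 33)]

def m30 : List (ℕ × ℕ) :=
  [(3, 80), (1, 159), (2, 302124), (3, 83), (1, 159), (2, 302522), (3, 83), (1, 159), (2,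
    302549), (3, 82)]

def m31 : List (ℕ × ℕ) :=
  [(2, 301582), (3, 81), (1, 159), (2, 302097), (3, 81), (1, 159), (2, 302097), (3, 81), (1,
    159), (2, 302097), (3, 81), (1, 35)]

def m32 : List (ℕ × ℕ) :=
  [(3, 78), (1, 159), (2, 301699), (3, 81), (1, 159), (2, 302097), (3, 81), (1, 159), (2,
    302124), (3, 80)]

def m33 : List (ℕ × ℕ) :=
  [(2, 301157), (3, 79), (1, 159), (2, 301672), (3, 79), (1, 159), (2, 301672), (3, 79), (1,
    159), (2, 301672), (3, 79), (1, 37)]

def m34 : List (ℕ × ℕ) :=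
  [(3, 76), (1, 159), (2, 301274), (3, 79), (1, 159), (2, 301672), (3, 79), (1, 159), (2,
    301699), (3, 78)]

def m35 : List (ℕ × ℕ) :=
  [(2, 300732), (3, 77), (1, 159), (2, 301247), (3, 77), (1, 159), (2, 301247), (3, 77), (1,
    159), (2, 301247), (3, 77), (1, 39)]

def m36 : List (ℕ × ℕ) :=
  [(3, 74), (1, 159), (2, 300849), (3, 77), (1, 159), (2, 301247), (3, 77), (1, 159), (2,
    301274), (3, 76)]

def m37 : List (ℕ × ℕ) :=
  [(2, 300307), (3, 75), (1, 159), (2, 300822), (3, 75), (1, 159), (2, 300822), (3, 75), (1,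
    159), (2, 300822), (3, 75), (1, 41)]

def m38 : List (ℕ × ℕ) :=
  [(3, 72), (1, 159), (2, 300424), (3, 75), (1, 159), (2, 300822), (3, 75), (1, 159), (2,
    300849), (3, 74)]

def m39 : List (ℕ × ℕ) :=
  [(2, 299884), (3, 73), (1, 159), (2, 300397), (3, 73), (1, 159), (2, 300397), (3, 73), (1,
    159), (2, 300397), (3, 73), (1, 41)]

def m40 : List (ℕ × ℕ) :=
  [(2, 106336), (3, 73), (1, 159), (2, 299999), (3, 73), (1, 159), (2, 300397), (3, 73), (1,
    159), (2, 300424), (3, 72)]

def m41 : List (ℕ × ℕ) :=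
  [(2, 106110), (3, 73), (1, 159), (2, 299999), (3, 73), (1, 159), (2, 299999), (3, 73), (1,
    159), (2, 299999), (3, 73), (1, 153)]

def m42 : List (ℕ × ℕ) :=
  [(0, 1), (2, 106337), (3, 73), (1, 159), (2, 299999), (3, 73), (1, 159), (2, 300397), (3, 73),
    (1, 159), (2, 300424), (3, 72)]

def m43 : List (ℕ × ℕ) :=
  [(2, 308165), (3, 111), (1, 159), (2, 308499), (3, 111), (1, 159), (2, 308499), (3, 111), (1,
    159), (2, 31074)]

def m44 : List (ℕ × ℕ) :=
  [(3, 108), (1, 159), (2, 308074), (3, 111), (1, 159), (2, 308472), (3, 111), (1, 159), (2,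
    308499), (3, 111), (1, 159), (2, 30768), (4, 1)]

def m45 : List (ℕ × ℕ) :=
  [(1, 41), (2, 308074), (3, 111), (1, 159), (2, 308074), (3, 111), (1, 159), (2, 308074), (3,
    111), (1, 115)]

def m46 : List (ℕ × ℕ) :=
  [(2, 308046), (3, 109), (1, 159), (2, 308074), (3, 111), (1, 159), (2, 308472), (3, 111), (1,
    159), (2, 308499), (3, 111), (1, 159), (2, 30768), (4, 1)]

def m47 : List (ℕ × ℕ) :=
  [(2, 307741), (3, 109), (1, 159), (2, 308074), (3, 109), (1, 159), (2, 308074), (3, 109), (1,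
    159), (2, 146)]

def m48 : List (ℕ × ℕ) :=
  [(3, 106), (1, 159), (2, 307649), (3, 109), (1, 159), (2, 308047), (3, 109), (1, 159), (2,
    308074), (3, 111), (1, 159), (2, 308472), (3, 111), (1, 159), (2, 308499), (3, 111), (1,
    159), (2, 30768), (4, 1)]

def m49 : List (ℕ × ℕ) :=
  [(1, 39), (2, 307649), (3, 109), (1, 159), (2, 307649), (3, 109), (1, 159), (2, 307649), (3,
    109), (1, 117)]

def m50 : List (ℕ × ℕ) :=
  [(2, 307621), (3, 107), (1, 159), (2, 307649), (3, 109), (1, 159), (2, 308047), (3, 109), (1,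
    159), (2, 308074), (3, 111), (1, 159), (2, 308472), (3, 111), (1, 159), (2, 308499), (3,
    111), (1, 159), (2, 30768), (4, 1)]

def m51 : List (ℕ × ℕ) :=
  [(2, 307316), (3, 107), (1, 159), (2, 307649), (3, 107), (1, 159), (2, 307649), (3, 107), (1,
    159), (2, 146)]

def m52 : List (ℕ × ℕ) :=
  [(3, 104), (1, 159), (2, 307224), (3, 107), (1, 159), (2, 307622), (3, 107), (1, 159), (2,
    307649), (3, 109), (1, 159), (2, 308047), (3, 109), (1, 159), (2, 308074), (3, 111), (1,
    159), (2, 308472), (3, 111), (1, 159), (2, 308499), (3, 111), (1, 159), (2, 30768), (4, 1)]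

def m53 : List (ℕ × ℕ) :=
  [(1, 37), (2, 307224), (3, 107), (1, 159), (2, 307224), (3, 107), (1, 159), (2, 307224), (3,
    107), (1, 119)]

def m54 : List (ℕ × ℕ) :=
  [(2, 307196), (3, 105), (1, 159), (2, 307224), (3, 107), (1, 159), (2, 307622), (3, 107), (1,
    159), (2, 307649), (3, 109), (1, 159), (2, 308047), (3, 109), (1, 159), (2, 308074), (3,
    111), (1, 159), (2, 308472), (3, 111), (1, 159), (2, 308499), (3, 111), (1, 159), (2, 30768),
    (4, 1)]

def m55 : List (ℕ × ℕ) :=
  [(2, 306891), (3, 105), (1, 159), (2, 307224), (3, 105), (1, 159), (2, 307224), (3, 105), (1,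
    159), (2, 146)]

def m56 : List (ℕ × ℕ) :=
  [(3, 102), (1, 159), (2, 306799), (3, 105), (1, 159), (2, 307197), (3, 105), (1, 159), (2,
    307224), (3, 107), (1, 159), (2, 307622), (3, 107), (1, 159), (2, 307649), (3, 109), (1,
    159), (2, 308047), (3, 109), (1, 159), (2, 308074), (3, 111), (1, 159), (2, 308472), (3,
    111), (1, 159), (2, 308499), (3, 111), (1, 159), (2, 30768), (4, 1)]

def m57 : List (ℕ × ℕ) :=
  [(1, 35), (2, 306799), (3, 105), (1, 159), (2, 306799), (3, 105), (1, 159), (2, 306799), (3,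
    105), (1, 121)]

def m58 : List (ℕ × ℕ) :=
  [(2, 306771), (3, 103), (1, 159), (2, 306799), (3, 105), (1, 159), (2, 307197), (3, 105), (1,
    159), (2, 307224), (3, 107), (1, 159), (2, 307622), (3, 107), (1, 159), (2, 307649), (3,
    109), (1, 159), (2, 308047), (3, 109), (1, 159), (2, 308074), (3, 111), (1, 159), (2,
    308472), (3, 111), (1, 159), (2, 308499), (3, 111), (1, 159), (2, 30768), (4, 1)]

def m59 : List (ℕ × ℕ) :=
  [(2, 306466), (3, 103), (1, 159), (2, 306799), (3, 103), (1, 159), (2, 306799), (3, 103), (1,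
    159), (2, 146)]

def m60 : List (ℕ × ℕ) :=
  [(3, 100), (1, 159), (2, 306374), (3, 103), (1, 159), (2, 306772), (3, 103), (1, 159), (2,
    306799), (3, 105), (1, 159), (2, 307197), (3, 105), (1, 159), (2, 307224), (3, 107), (1,
    159), (2, 307622), (3, 107), (1, 159), (2, 307649), (3, 109), (1, 159), (2, 308047), (3,
    109), (1, 159), (2, 308074), (3, 111), (1, 159), (2, 308472), (3, 111), (1, 159), (2,
    308499), (3, 111), (1, 159), (2, 30768), (4, 1)]

def m61 : List (ℕ × ℕ) :=
  [(1, 33), (2, 306374), (3, 103), (1, 159), (2, 306374), (3, 103), (1, 159), (2, 306374), (3,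
    103), (1, 123)]

def m62 : List (ℕ × ℕ) :=
  [(2, 306346), (3, 101), (1, 159), (2, 306374), (3, 103), (1, 159), (2, 306772), (3, 103), (1,
    159), (2, 306799), (3, 105), (1, 159), (2, 307197), (3, 105), (1, 159), (2, 307224), (3,
    107), (1, 159), (2, 307622), (3, 107), (1, 159), (2, 307649), (3, 109), (1, 159), (2,
    308047), (3, 109), (1, 159), (2, 308074), (3, 111), (1, 159), (2, 308472), (3, 111), (1,
    159), (2, 308499), (3, 111), (1, 159), (2, 30768), (4, 1)]

def m63 : List (ℕ × ℕ) :=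
  [(2, 306041), (3, 101), (1, 159), (2, 306374), (3, 101), (1, 159), (2, 306374), (3, 101), (1,
    159), (2, 146)]

def m64 : List (ℕ × ℕ) :=
  [(3, 98), (1, 159), (2, 305949), (3, 101), (1, 159), (2, 306347), (3, 101), (1, 159), (2,
    306374), (3, 103), (1, 159), (2, 306772), (3, 103), (1, 159), (2, 306799), (3, 105), (1,
    159), (2, 307197), (3, 105), (1, 159), (2, 307224), (3, 107), (1, 159), (2, 307622), (3,
    107), (1, 159), (2, 307649), (3, 109), (1, 159), (2, 308047), (3, 109), (1, 159), (2,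
    308074), (3, 111), (1, 159), (2, 308472), (3, 111), (1, 159), (2, 308499), (3, 111), (1,
    159), (2, 30768), (4, 1)]

def m65 : List (ℕ × ℕ) :=
  [(1, 31), (2, 305949), (3, 101), (1, 159), (2, 305949), (3, 101), (1, 159), (2, 305949), (3,
    101), (1, 125)]

def m66 : List (ℕ × ℕ) :=
  [(2, 305921), (3, 99), (1, 159), (2, 305949), (3, 101), (1, 159), (2, 306347), (3, 101), (1,
    159), (2, 306374), (3, 103), (1, 159), (2, 306772), (3, 103), (1, 159), (2, 306799), (3,
    105), (1, 159), (2, 307197), (3, 105), (1, 159), (2, 307224), (3, 107), (1, 159), (2,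
    307622), (3, 107), (1, 159), (2, 307649), (3, 109), (1, 159), (2, 308047), (3, 109), (1,
    159), (2, 308074), (3, 111), (1, 159), (2, 308472), (3, 111), (1, 159), (2, 308499), (3,
    111), (1, 159), (2, 30768), (4, 1)]

def m67 : List (ℕ × ℕ) :=
  [(2, 305616), (3, 99), (1, 159), (2, 305949), (3, 99), (1, 159), (2, 305949), (3, 99), (1,
    159), (2, 146)]

def m68 : List (ℕ × ℕ) :=
  [(3, 96), (1, 159), (2, 305524), (3, 99), (1, 159), (2, 305922), (3, 99), (1, 159), (2,
    305949), (3, 101), (1, 159), (2, 306347), (3, 101), (1, 159), (2, 306374), (3, 103), (1,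
    159), (2, 306772), (3, 103), (1, 159), (2, 306799), (3, 105), (1, 159), (2, 307197), (3,
    105), (1, 159), (2, 307224), (3, 107), (1, 159), (2, 307622), (3, 107), (1, 159), (2,
    307649), (3, 109), (1, 159), (2, 308047), (3, 109), (1, 159), (2, 308074), (3, 111), (1,
    159), (2, 308472), (3, 111), (1, 159), (2, 308499), (3, 111), (1, 159), (2, 30768), (4, 1)]

def m69 : List (ℕ × ℕ) :=
  [(1, 29), (2, 305524), (3, 99), (1, 159), (2, 305524), (3, 99), (1, 159), (2, 305524), (3, 99),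
    (1, 127)]

def m70 : List (ℕ × ℕ) :=
  [(2, 305496), (3, 97), (1, 159), (2, 305524), (3, 99), (1, 159), (2, 305922), (3, 99), (1,
    159), (2, 305949), (3, 101), (1, 159), (2, 306347), (3, 101), (1, 159), (2, 306374), (3,
    103), (1, 159), (2, 306772), (3, 103), (1, 159), (2, 306799), (3, 105), (1, 159), (2,
    307197), (3, 105), (1, 159), (2, 307224), (3, 107), (1, 159), (2, 307622), (3, 107), (1,
    159), (2, 307649), (3, 109), (1, 159), (2, 308047), (3, 109), (1, 159), (2, 308074), (3,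
    111), (1, 159), (2, 308472), (3, 111), (1, 159), (2, 308499), (3, 111), (1, 159), (2, 30768),
    (4, 1)]

def m71 : List (ℕ × ℕ) :=
  [(2, 305191), (3, 97), (1, 159), (2, 305524), (3, 97), (1, 159), (2, 305524), (3, 97), (1,
    159), (2, 146)]

def m72 : List (ℕ × ℕ) :=
  [(3, 94), (1, 159), (2, 305099), (3, 97), (1, 159), (2, 305497), (3, 97), (1, 159), (2,
    305524), (3, 99), (1, 159), (2, 305922), (3, 99), (1, 159), (2, 305949), (3, 101), (1, 159),
    (2, 306347), (3, 101), (1, 159), (2, 306374), (3, 103), (1, 159), (2, 306772), (3, 103), (1,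
    159), (2, 306799), (3, 105), (1, 159), (2, 307197), (3, 105), (1, 159), (2, 307224), (3,
    107), (1, 159), (2, 307622), (3, 107), (1, 159), (2, 307649), (3, 109), (1, 159), (2,
    308047), (3, 109), (1, 159), (2, 308074), (3, 111), (1, 159), (2, 308472), (3, 111), (1,
    159), (2, 308499), (3, 111), (1, 159), (2, 30768), (4, 1)]

def m73 : List (ℕ × ℕ) :=
  [(1, 27), (2, 305099), (3, 97), (1, 159), (2, 305099), (3, 97), (1, 159), (2, 305099), (3, 97),
    (1, 129)]

def m74 : List (ℕ × ℕ) :=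
  [(2, 305071), (3, 95), (1, 159), (2, 305099), (3, 97), (1, 159), (2, 305497), (3, 97), (1,
    159), (2, 305524), (3, 99), (1, 159), (2, 305922), (3, 99), (1, 159), (2, 305949), (3, 101),
    (1, 159), (2, 306347), (3, 101), (1, 159), (2, 306374), (3, 103), (1, 159), (2, 306772), (3,
    103), (1, 159), (2, 306799), (3, 105), (1, 159), (2, 307197), (3, 105), (1, 159), (2,
    307224), (3, 107), (1, 159), (2, 307622), (3, 107), (1, 159), (2, 307649), (3, 109), (1,
    159), (2, 308047), (3, 109), (1, 159), (2, 308074), (3, 111), (1, 159), (2, 308472), (3,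
    111), (1, 159), (2, 308499), (3, 111), (1, 159), (2, 30768), (4, 1)]

def m75 : List (ℕ × ℕ) :=
  [(2, 304766), (3, 95), (1, 159), (2, 305099), (3, 95), (1, 159), (2, 305099), (3, 95), (1,
    159), (2, 146)]

def m76 : List (ℕ × ℕ) :=
  [(3, 92), (1, 159), (2, 304674), (3, 95), (1, 159), (2, 305072), (3, 95), (1, 159), (2,
    305099), (3, 97), (1, 159), (2, 305497), (3, 97), (1, 159), (2, 305524), (3, 99), (1, 159),
    (2, 305922), (3, 99), (1, 159), (2, 305949), (3, 101), (1, 159), (2, 306347), (3, 101), (1,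
    159), (2, 306374), (3, 103), (1, 159), (2, 306772), (3, 103), (1, 159), (2, 306799), (3,
    105), (1, 159), (2, 307197), (3, 105), (1, 159), (2, 307224), (3, 107), (1, 159), (2,
    307622), (3, 107), (1, 159), (2, 307649), (3, 109), (1, 159), (2, 308047), (3, 109), (1,
    159), (2, 308074), (3, 111), (1, 159), (2, 308472), (3, 111), (1, 159), (2, 308499), (3,
    111), (1, 159), (2, 30768), (4, 1)]

def m77 : List (ℕ × ℕ) :=
  [(1, 25), (2, 304674), (3, 95), (1, 159), (2, 304674), (3, 95), (1, 159), (2, 304674), (3, 95),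
    (1, 131)]

def m78 : List (ℕ × ℕ) :=
  [(2, 304646), (3, 93), (1, 159), (2, 304674), (3, 95), (1, 159), (2, 305072), (3, 95), (1,
    159), (2, 305099), (3, 97), (1, 159), (2, 305497), (3, 97), (1, 159), (2, 305524), (3, 99),
    (1, 159), (2, 305922), (3, 99), (1, 159), (2, 305949), (3, 101), (1, 159), (2, 306347), (3,
    101), (1, 159), (2, 306374), (3, 103), (1, 159), (2, 306772), (3, 103), (1, 159), (2,
    306799), (3, 105), (1, 159), (2, 307197), (3, 105), (1, 159), (2, 307224), (3, 107), (1,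
    159), (2, 307622), (3, 107), (1, 159), (2, 307649), (3, 109), (1, 159), (2, 308047), (3,
    109), (1, 159), (2, 308074), (3, 111), (1, 159), (2, 308472), (3, 111), (1, 159), (2,
    308499), (3, 111), (1, 159), (2, 30768), (4, 1)]

def m79 : List (ℕ × ℕ) :=
  [(2, 304341), (3, 93), (1, 159), (2, 304674), (3, 93), (1, 159), (2, 304674), (3, 93), (1,
    159), (2, 146)]

def m80 : List (ℕ × ℕ) :=
  [(3, 90), (1, 159), (2, 304249), (3, 93), (1, 159), (2, 304647), (3, 93), (1, 159), (2,
    304674), (3, 95), (1, 159), (2, 305072), (3, 95), (1, 159), (2, 305099), (3, 97), (1, 159),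
    (2, 305497), (3, 97), (1, 159), (2, 305524), (3, 99), (1, 159), (2, 305922), (3, 99), (1,
    159), (2, 305949), (3, 101), (1, 159), (2, 306347), (3, 101), (1, 159), (2, 306374), (3,
    103), (1, 159), (2, 306772), (3, 103), (1, 159), (2, 306799), (3, 105), (1, 159), (2,
    307197), (3, 105), (1, 159), (2, 307224), (3, 107), (1, 159), (2, 307622), (3, 107), (1,
    159), (2, 307649), (3, 109), (1, 159), (2, 308047), (3, 109), (1, 159), (2, 308074), (3,
    111), (1, 159), (2, 308472), (3, 111), (1, 159), (2, 308499), (3, 111), (1, 159), (2, 30768),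
    (4, 1)]

def m81 : List (ℕ × ℕ) :=
  [(1, 23), (2, 304249), (3, 93), (1, 159), (2, 304249), (3, 93), (1, 159), (2, 304249), (3, 93),
    (1, 133)]

def m82 : List (ℕ × ℕ) :=
  [(2, 304221), (3, 91), (1, 159), (2, 304249), (3, 93), (1, 159), (2, 304647), (3, 93), (1,
    159), (2, 304674), (3, 95), (1, 159), (2, 305072), (3, 95), (1, 159), (2, 305099), (3, 97),
    (1, 159), (2, 305497), (3, 97), (1, 159), (2, 305524), (3, 99), (1, 159), (2, 305922), (3,
    99), (1, 159), (2, 305949), (3, 101), (1, 159), (2, 306347), (3, 101), (1, 159), (2, 306374),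
    (3, 103), (1, 159), (2, 306772), (3, 103), (1, 159), (2, 306799), (3, 105), (1, 159), (2,
    307197), (3, 105), (1, 159), (2, 307224), (3, 107), (1, 159), (2, 307622), (3, 107), (1,
    159), (2, 307649), (3, 109), (1, 159), (2, 308047), (3, 109), (1, 159), (2, 308074), (3,
    111), (1, 159), (2, 308472), (3, 111), (1, 159), (2, 308499), (3, 111), (1, 159), (2, 30768),
    (4, 1)]

def m83 : List (ℕ × ℕ) :=
  [(2, 303916), (3, 91), (1, 159), (2, 304249), (3, 91), (1, 159), (2, 304249), (3, 91), (1,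
    159), (2, 146)]

def m84 : List (ℕ × ℕ) :=
  [(3, 88), (1, 159), (2, 303824), (3, 91), (1, 159), (2, 304222), (3, 91), (1, 159), (2,
    304249), (3, 93), (1, 159), (2, 304647), (3, 93), (1, 159), (2, 304674), (3, 95), (1, 159),
    (2, 305072), (3, 95), (1, 159), (2, 305099), (3, 97), (1, 159), (2, 305497), (3, 97), (1,
    159), (2, 305524), (3, 99), (1, 159), (2, 305922), (3, 99), (1, 159), (2, 305949), (3, 101),
    (1, 159), (2, 306347), (3, 101), (1, 159), (2, 306374), (3, 103), (1, 159), (2, 306772), (3,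
    103), (1, 159), (2, 306799), (3, 105), (1, 159), (2, 307197), (3, 105), (1, 159), (2,
    307224), (3, 107), (1, 159), (2, 307622), (3, 107), (1, 159), (2, 307649), (3, 109), (1,
    159), (2, 308047), (3, 109), (1, 159), (2, 308074), (3, 111), (1, 159), (2, 308472), (3,
    111), (1, 159), (2, 308499), (3, 111), (1, 159), (2, 30768), (4, 1)]

def m85 : List (ℕ × ℕ) :=
  [(1, 21), (2, 303824), (3, 91), (1, 159), (2, 303824), (3, 91), (1, 159), (2, 303824), (3, 91),
    (1, 135)]

def m86 : List (ℕ × ℕ) :=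
  [(2, 303796), (3, 89), (1, 159), (2, 303824), (3, 91), (1, 159), (2, 304222), (3, 91), (1,
    159), (2, 304249), (3, 93), (1, 159), (2, 304647), (3, 93), (1, 159), (2, 304674), (3, 95),
    (1, 159), (2, 305072), (3, 95), (1, 159), (2, 305099), (3, 97), (1, 159), (2, 305497), (3,
    97), (1, 159), (2, 305524), (3, 99), (1, 159), (2, 305922), (3, 99), (1, 159), (2, 305949),
    (3, 101), (1, 159), (2, 306347), (3, 101), (1, 159), (2, 306374), (3, 103), (1, 159), (2,
    306772), (3, 103), (1, 159), (2, 306799), (3, 105), (1, 159), (2, 307197), (3, 105), (1,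
    159), (2, 307224), (3, 107), (1, 159), (2, 307622), (3, 107), (1, 159), (2, 307649), (3,
    109), (1, 159), (2, 308047), (3, 109), (1, 159), (2, 308074), (3, 111), (1, 159), (2,
    308472), (3, 111), (1, 159), (2, 308499), (3, 111), (1, 159), (2, 30768), (4, 1)]

def m87 : List (ℕ × ℕ) :=
  [(2, 303491), (3, 89), (1, 159), (2, 303824), (3, 89), (1, 159), (2, 303824), (3, 89), (1,
    159), (2, 146)]

def m88 : List (ℕ × ℕ) :=
  [(3, 86), (1, 159), (2, 303399), (3, 89), (1, 159), (2, 303797), (3, 89), (1, 159), (2,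
    303824), (3, 91), (1, 159), (2, 304222), (3, 91), (1, 159), (2, 304249), (3, 93), (1, 159),
    (2, 304647), (3, 93), (1, 159), (2, 304674), (3, 95), (1, 159), (2, 305072), (3, 95), (1,
    159), (2, 305099), (3, 97), (1, 159), (2, 305497), (3, 97), (1, 159), (2, 305524), (3, 99),
    (1, 159), (2, 305922), (3, 99), (1, 159), (2, 305949), (3, 101), (1, 159), (2, 306347), (3,
    101), (1, 159), (2, 306374), (3, 103), (1, 159), (2, 306772), (3, 103), (1, 159), (2,
    306799), (3, 105), (1, 159), (2, 307197), (3, 105), (1, 159), (2, 307224), (3, 107), (1,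
    159), (2, 307622), (3, 107), (1, 159), (2, 307649), (3, 109), (1, 159), (2, 308047), (3,
    109), (1, 159), (2, 308074), (3, 111), (1, 159), (2, 308472), (3, 111), (1, 159), (2,
    308499), (3, 111), (1, 159), (2, 30768), (4, 1)]

def m89 : List (ℕ × ℕ) :=
  [(1, 19), (2, 303399), (3, 89), (1, 159), (2, 303399), (3, 89), (1, 159), (2, 303399), (3, 89),
    (1, 137)]

def m90 : List (ℕ × ℕ) :=
  [(2, 303371), (3, 87), (1, 159), (2, 303399), (3, 89), (1, 159), (2, 303797), (3, 89), (1,
    159), (2, 303824), (3, 91), (1, 159), (2, 304222), (3, 91), (1, 159), (2, 304249), (3, 93),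
    (1, 159), (2, 304647), (3, 93), (1, 159), (2, 304674), (3, 95), (1, 159), (2, 305072), (3,
    95), (1, 159), (2, 305099), (3, 97), (1, 159), (2, 305497), (3, 97), (1, 159), (2, 305524),
    (3, 99), (1, 159), (2, 305922), (3, 99), (1, 159), (2, 305949), (3, 101), (1, 159), (2,
    306347), (3, 101), (1, 159), (2, 306374), (3, 103), (1, 159), (2, 306772), (3, 103), (1,
    159), (2, 306799), (3, 105), (1, 159), (2, 307197), (3, 105), (1, 159), (2, 307224), (3,
    107), (1, 159), (2, 307622), (3, 107), (1, 159), (2, 307649), (3, 109), (1, 159), (2,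
    308047), (3, 109), (1, 159), (2, 308074), (3, 111), (1, 159), (2, 308472), (3, 111), (1,
    159), (2, 308499), (3, 111), (1, 159), (2, 30768), (4, 1)]

def m91 : List (ℕ × ℕ) :=
  [(2, 303066), (3, 87), (1, 159), (2, 303399), (3, 87), (1, 159), (2, 303399), (3, 87), (1,
    159), (2, 146)]

def m92 : List (ℕ × ℕ) :=
  [(3, 84), (1, 159), (2, 302974), (3, 87), (1, 159), (2, 303372), (3, 87), (1, 159), (2,
    303399), (3, 89), (1, 159), (2, 303797), (3, 89), (1, 159), (2, 303824), (3, 91), (1, 159),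
    (2, 304222), (3, 91), (1, 159), (2, 304249), (3, 93), (1, 159), (2, 304647), (3, 93), (1,
    159), (2, 304674), (3, 95), (1, 159), (2, 305072), (3, 95), (1, 159), (2, 305099), (3, 97),
    (1, 159), (2, 305497), (3, 97), (1, 159), (2, 305524), (3, 99), (1, 159), (2, 305922), (3,
    99), (1, 159), (2, 305949), (3, 101), (1, 159), (2, 306347), (3, 101), (1, 159), (2, 306374),
    (3, 103), (1, 159), (2, 306772), (3, 103), (1, 159), (2, 306799), (3, 105), (1, 159), (2,
    307197), (3, 105), (1, 159), (2, 307224), (3, 107), (1, 159), (2, 307622), (3, 107), (1,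
    159), (2, 307649), (3, 109), (1, 159), (2, 308047), (3, 109), (1, 159), (2, 308074), (3,
    111), (1, 159), (2, 308472), (3, 111), (1, 159), (2, 308499), (3, 111), (1, 159), (2, 30768),
    (4, 1)]

def m93 : List (ℕ × ℕ) :=
  [(1, 17), (2, 302974), (3, 87), (1, 159), (2, 302974), (3, 87), (1, 159), (2, 302974), (3, 87),
    (1, 139)]

def m94 : List (ℕ × ℕ) :=
  [(2, 302946), (3, 85), (1, 159), (2, 302974), (3, 87), (1, 159), (2, 303372), (3, 87), (1,
    159), (2, 303399), (3, 89), (1, 159), (2, 303797), (3, 89), (1, 159), (2, 303824), (3, 91),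
    (1, 159), (2, 304222), (3, 91), (1, 159), (2, 304249), (3, 93), (1, 159), (2, 304647), (3,
    93), (1, 159), (2, 304674), (3, 95), (1, 159), (2, 305072), (3, 95), (1, 159), (2, 305099),
    (3, 97), (1, 159), (2, 305497), (3, 97), (1, 159), (2, 305524), (3, 99), (1, 159), (2,
    305922), (3, 99), (1, 159), (2, 305949), (3, 101), (1, 159), (2, 306347), (3, 101), (1, 159),
    (2, 306374), (3, 103), (1, 159), (2, 306772), (3, 103), (1, 159), (2, 306799), (3, 105), (1,
    159), (2, 307197), (3, 105), (1, 159), (2, 307224), (3, 107), (1, 159), (2, 307622), (3,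
    107), (1, 159), (2, 307649), (3, 109), (1, 159), (2, 308047), (3, 109), (1, 159), (2,
    308074), (3, 111), (1, 159), (2, 308472), (3, 111), (1, 159), (2, 308499), (3, 111), (1,
    159), (2, 30768), (4, 1)]

def m95 : List (ℕ × ℕ) :=
  [(2, 302611), (3, 85), (1, 159), (2, 302974), (3, 85), (1, 159), (2, 302974), (3, 85), (1,
    159), (2, 176)]

def m96 : List (ℕ × ℕ) :=
  [(3, 82), (1, 159), (2, 302549), (3, 85), (1, 159), (2, 302947), (3, 85), (1, 159), (2,
    302974), (3, 87), (1, 159), (2, 303372), (3, 87), (1, 159), (2, 303399), (3, 89), (1, 159),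
    (2, 303797), (3, 89), (1, 159), (2, 303824), (3, 91), (1, 159), (2, 304222), (3, 91), (1,
    159), (2, 304249), (3, 93), (1, 159), (2, 304647), (3, 93), (1, 159), (2, 304674), (3, 95),
    (1, 159), (2, 305072), (3, 95), (1, 159), (2, 305099), (3, 97), (1, 159), (2, 305497), (3,
    97), (1, 159), (2, 305524), (3, 99), (1, 159), (2, 305922), (3, 99), (1, 159), (2, 305949),
    (3, 101), (1, 159), (2, 306347), (3, 101), (1, 159), (2, 306374), (3, 103), (1, 159), (2,
    306772), (3, 103), (1, 159), (2, 306799), (3, 105), (1, 159), (2, 307197), (3, 105), (1,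
    159), (2, 307224), (3, 107), (1, 159), (2, 307622), (3, 107), (1, 159), (2, 307649), (3,
    109), (1, 159), (2, 308047), (3, 109), (1, 159), (2, 308074), (3, 111), (1, 159), (2,
    308472), (3, 111), (1, 159), (2, 308499), (3, 111), (1, 159), (2, 30768), (4, 1)]

def m97 : List (ℕ × ℕ) :=
  [(1, 15), (2, 302549), (3, 85), (1, 159), (2, 302549), (3, 85), (1, 159), (2, 302549), (3, 85),
    (1, 141)]

def m98 : List (ℕ × ℕ) :=
  [(2, 302521), (3, 83), (1, 159), (2, 302549), (3, 85), (1, 159), (2, 302947), (3, 85), (1,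
    159), (2, 302974), (3, 87), (1, 159), (2, 303372), (3, 87), (1, 159), (2, 303399), (3, 89),
    (1, 159), (2, 303797), (3, 89), (1, 159), (2, 303824), (3, 91), (1, 159), (2, 304222), (3,
    91), (1, 159), (2, 304249), (3, 93), (1, 159), (2, 304647), (3, 93), (1, 159), (2, 304674),
    (3, 95), (1, 159), (2, 305072), (3, 95), (1, 159), (2, 305099), (3, 97), (1, 159), (2,
    305497), (3, 97), (1, 159), (2, 305524), (3, 99), (1, 159), (2, 305922), (3, 99), (1, 159),
    (2, 305949), (3, 101), (1, 159), (2, 306347), (3, 101), (1, 159), (2, 306374), (3, 103), (1,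
    159), (2, 306772), (3, 103), (1, 159), (2, 306799), (3, 105), (1, 159), (2, 307197), (3,
    105), (1, 159), (2, 307224), (3, 107), (1, 159), (2, 307622), (3, 107), (1, 159), (2,
    307649), (3, 109), (1, 159), (2, 308047), (3, 109), (1, 159), (2, 308074), (3, 111), (1,
    159), (2, 308472), (3, 111), (1, 159), (2, 308499), (3, 111), (1, 159), (2, 30768), (4, 1)]

def m99 : List (ℕ × ℕ) :=
  [(2, 302217), (3, 83), (1, 159), (2, 302549), (3, 83), (1, 159), (2, 302549), (3, 83), (1,
    159), (2, 145)]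

def m100 : List (ℕ × ℕ) :=
  [(3, 80), (1, 159), (2, 302124), (3, 83), (1, 159), (2, 302522), (3, 83), (1, 159), (2,
    302549), (3, 85), (1, 159), (2, 302947), (3, 85), (1, 159), (2, 302974), (3, 87), (1, 159),
    (2, 303372), (3, 87), (1, 159), (2, 303399), (3, 89), (1, 159), (2, 303797), (3, 89), (1,
    159), (2, 303824), (3, 91), (1, 159), (2, 304222), (3, 91), (1, 159), (2, 304249), (3, 93),
    (1, 159), (2, 304647), (3, 93), (1, 159), (2, 304674), (3, 95), (1, 159), (2, 305072), (3,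
    95), (1, 159), (2, 305099), (3, 97), (1, 159), (2, 305497), (3, 97), (1, 159), (2, 305524),
    (3, 99), (1, 159), (2, 305922), (3, 99), (1, 159), (2, 305949), (3, 101), (1, 159), (2,
    306347), (3, 101), (1, 159), (2, 306374), (3, 103), (1, 159), (2, 306772), (3, 103), (1,
    159), (2, 306799), (3, 105), (1, 159), (2, 307197), (3, 105), (1, 159), (2, 307224), (3,
    107), (1, 159), (2, 307622), (3, 107), (1, 159), (2, 307649), (3, 109), (1, 159), (2,
    308047), (3, 109), (1, 159), (2, 308074), (3, 111), (1, 159), (2, 308472), (3, 111), (1,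
    159), (2, 308499), (3, 111), (1, 159), (2, 30768), (4, 1)]

def m101 : List (ℕ × ℕ) :=
  [(1, 13), (2, 302124), (3, 83), (1, 159), (2, 302124), (3, 83), (1, 159), (2, 302124), (3, 83),
    (1, 143)]

def m102 : List (ℕ × ℕ) :=
  [(2, 302096), (3, 81), (1, 159), (2, 302124), (3, 83), (1, 159), (2, 302522), (3, 83), (1,
    159), (2, 302549), (3, 85), (1, 159), (2, 302947), (3, 85), (1, 159), (2, 302974), (3, 87),
    (1, 159), (2, 303372), (3, 87), (1, 159), (2, 303399), (3, 89), (1, 159), (2, 303797), (3,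
    89), (1, 159), (2, 303824), (3, 91), (1, 159), (2, 304222), (3, 91), (1, 159), (2, 304249),
    (3, 93), (1, 159), (2, 304647), (3, 93), (1, 159), (2, 304674), (3, 95), (1, 159), (2,
    305072), (3, 95), (1, 159), (2, 305099), (3, 97), (1, 159), (2, 305497), (3, 97), (1, 159),
    (2, 305524), (3, 99), (1, 159), (2, 305922), (3, 99), (1, 159), (2, 305949), (3, 101), (1,
    159), (2, 306347), (3, 101), (1, 159), (2, 306374), (3, 103), (1, 159), (2, 306772), (3,
    103), (1, 159), (2, 306799), (3, 105), (1, 159), (2, 307197), (3, 105), (1, 159), (2,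
    307224), (3, 107), (1, 159), (2, 307622), (3, 107), (1, 159), (2, 307649), (3, 109), (1,
    159), (2, 308047), (3, 109), (1, 159), (2, 308074), (3, 111), (1, 159), (2, 308472), (3,
    111), (1, 159), (2, 308499), (3, 111), (1, 159), (2, 30768), (4, 1)]

def m103 : List (ℕ × ℕ) :=
  [(2, 301791), (3, 81), (1, 159), (2, 302124), (3, 81), (1, 159), (2, 302124), (3, 81), (1,
    159), (2, 146)]

def m104 : List (ℕ × ℕ) :=
  [(3, 78), (1, 159), (2, 301699), (3, 81), (1, 159), (2, 302097), (3, 81), (1, 159), (2,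
    302124), (3, 83), (1, 159), (2, 302522), (3, 83), (1, 159), (2, 302549), (3, 85), (1, 159),
    (2, 302947), (3, 85), (1, 159), (2, 302974), (3, 87), (1, 159), (2, 303372), (3, 87), (1,
    159), (2, 303399), (3, 89), (1, 159), (2, 303797), (3, 89), (1, 159), (2, 303824), (3, 91),
    (1, 159), (2, 304222), (3, 91), (1, 159), (2, 304249), (3, 93), (1, 159), (2, 304647), (3,
    93), (1, 159), (2, 304674), (3, 95), (1, 159), (2, 305072), (3, 95), (1, 159), (2, 305099),
    (3, 97), (1, 159), (2, 305497), (3, 97), (1, 159), (2, 305524), (3, 99), (1, 159), (2,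
    305922), (3, 99), (1, 159), (2, 305949), (3, 101), (1, 159), (2, 306347), (3, 101), (1, 159),
    (2, 306374), (3, 103), (1, 159), (2, 306772), (3, 103), (1, 159), (2, 306799), (3, 105), (1,
    159), (2, 307197), (3, 105), (1, 159), (2, 307224), (3, 107), (1, 159), (2, 307622), (3,
    107), (1, 159), (2, 307649), (3, 109), (1, 159), (2, 308047), (3, 109), (1, 159), (2,
    308074), (3, 111), (1, 159), (2, 308472), (3, 111), (1, 159), (2, 308499), (3, 111), (1,
    159), (2, 30768), (4, 1)]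

def m105 : List (ℕ × ℕ) :=
  [(1, 11), (2, 301699), (3, 81), (1, 159), (2, 301699), (3, 81), (1, 159), (2, 301699), (3, 81),
    (1, 145)]

def m106 : List (ℕ × ℕ) :=
  [(2, 301671), (3, 79), (1, 159), (2, 301699), (3, 81), (1, 159), (2, 302097), (3, 81), (1,
    159), (2, 302124), (3, 83), (1, 159), (2, 302522), (3, 83), (1, 159), (2, 302549), (3, 85),
    (1, 159), (2, 302947), (3, 85), (1, 159), (2, 302974), (3, 87), (1, 159), (2, 303372), (3,
    87), (1, 159), (2, 303399), (3, 89), (1, 159), (2, 303797), (3, 89), (1, 159), (2, 303824),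
    (3, 91), (1, 159), (2, 304222), (3, 91), (1, 159), (2, 304249), (3, 93), (1, 159), (2,
    304647), (3, 93), (1, 159), (2, 304674), (3, 95), (1, 159), (2, 305072), (3, 95), (1, 159),
    (2, 305099), (3, 97), (1, 159), (2, 305497), (3, 97), (1, 159), (2, 305524), (3, 99), (1,
    159), (2, 305922), (3, 99), (1, 159), (2, 305949), (3, 101), (1, 159), (2, 306347), (3, 101),
    (1, 159), (2, 306374), (3, 103), (1, 159), (2, 306772), (3, 103), (1, 159), (2, 306799), (3,
    105), (1, 159), (2, 307197), (3, 105), (1, 159), (2, 307224), (3, 107), (1, 159), (2,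
    307622), (3, 107), (1, 159), (2, 307649), (3, 109), (1, 159), (2, 308047), (3, 109), (1,
    159), (2, 308074), (3, 111), (1, 159), (2, 308472), (3, 111), (1, 159), (2, 308499), (3,
    111), (1, 159), (2, 30768), (4, 1)]

def m107 : List (ℕ × ℕ) :=
  [(2, 301366), (3, 79), (1, 159), (2, 301699), (3, 79), (1, 159), (2, 301699), (3, 79), (1,
    159), (2, 146)]

def m108 : List (ℕ × ℕ) :=
  [(3, 76), (1, 159), (2, 301274), (3, 79), (1, 159), (2, 301672), (3, 79), (1, 159), (2,
    301699), (3, 81), (1, 159), (2, 302097), (3, 81), (1, 159), (2, 302124), (3, 83), (1, 159),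
    (2, 302522), (3, 83), (1, 159), (2, 302549), (3, 85), (1, 159), (2, 302947), (3, 85), (1,
    159), (2, 302974), (3, 87), (1, 159), (2, 303372), (3, 87), (1, 159), (2, 303399), (3, 89),
    (1, 159), (2, 303797), (3, 89), (1, 159), (2, 303824), (3, 91), (1, 159), (2, 304222), (3,
    91), (1, 159), (2, 304249), (3, 93), (1, 159), (2, 304647), (3, 93), (1, 159), (2, 304674),
    (3, 95), (1, 159), (2, 305072), (3, 95), (1, 159), (2, 305099), (3, 97), (1, 159), (2,
    305497), (3, 97), (1, 159), (2, 305524), (3, 99), (1, 159), (2, 305922), (3, 99), (1, 159),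
    (2, 305949), (3, 101), (1, 159), (2, 306347), (3, 101), (1, 159), (2, 306374), (3, 103), (1,
    159), (2, 306772), (3, 103), (1, 159), (2, 306799), (3, 105), (1, 159), (2, 307197), (3,
    105), (1, 159), (2, 307224), (3, 107), (1, 159), (2, 307622), (3, 107), (1, 159), (2,
    307649), (3, 109), (1, 159), (2, 308047), (3, 109), (1, 159), (2, 308074), (3, 111), (1,
    159), (2, 308472), (3, 111), (1, 159), (2, 308499), (3, 111), (1, 159), (2, 30768), (4, 1)]

def m109 : List (ℕ × ℕ) :=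
  [(1, 9), (2, 301274), (3, 79), (1, 159), (2, 301274), (3, 79), (1, 159), (2, 301274), (3, 79),
    (1, 147)]

def m110 : List (ℕ × ℕ) :=
  [(2, 301246), (3, 77), (1, 159), (2, 301274), (3, 79), (1, 159), (2, 301672), (3, 79), (1,
    159), (2, 301699), (3, 81), (1, 159), (2, 302097), (3, 81), (1, 159), (2, 302124), (3, 83),
    (1, 159), (2, 302522), (3, 83), (1, 159), (2, 302549), (3, 85), (1, 159), (2, 302947), (3,
    85), (1, 159), (2, 302974), (3, 87), (1, 159), (2, 303372), (3, 87), (1, 159), (2, 303399),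
    (3, 89), (1, 159), (2, 303797), (3, 89), (1, 159), (2, 303824), (3, 91), (1, 159), (2,
    304222), (3, 91), (1, 159), (2, 304249), (3, 93), (1, 159), (2, 304647), (3, 93), (1, 159),
    (2, 304674), (3, 95), (1, 159), (2, 305072), (3, 95), (1, 159), (2, 305099), (3, 97), (1,
    159), (2, 305497), (3, 97), (1, 159), (2, 305524), (3, 99), (1, 159), (2, 305922), (3, 99),
    (1, 159), (2, 305949), (3, 101), (1, 159), (2, 306347), (3, 101), (1, 159), (2, 306374), (3,
    103), (1, 159), (2, 306772), (3, 103), (1, 159), (2, 306799), (3, 105), (1, 159), (2,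
    307197), (3, 105), (1, 159), (2, 307224), (3, 107), (1, 159), (2, 307622), (3, 107), (1,
    159), (2, 307649), (3, 109), (1, 159), (2, 308047), (3, 109), (1, 159), (2, 308074), (3,
    111), (1, 159), (2, 308472), (3, 111), (1, 159), (2, 308499), (3, 111), (1, 159), (2, 30768),
    (4, 1)]

def m111 : List (ℕ × ℕ) :=
  [(2, 300941), (3, 77), (1, 159), (2, 301274), (3, 77), (1, 159), (2, 301274), (3, 77), (1,
    159), (2, 146)]

def m112 : List (ℕ × ℕ) :=
  [(3, 74), (1, 159), (2, 300849), (3, 77), (1, 159), (2, 301247), (3, 77), (1, 159), (2,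
    301274), (3, 79), (1, 159), (2, 301672), (3, 79), (1, 159), (2, 301699), (3, 81), (1, 159),
    (2, 302097), (3, 81), (1, 159), (2, 302124), (3, 83), (1, 159), (2, 302522), (3, 83), (1,
    159), (2, 302549), (3, 85), (1, 159), (2, 302947), (3, 85), (1, 159), (2, 302974), (3, 87),
    (1, 159), (2, 303372), (3, 87), (1, 159), (2, 303399), (3, 89), (1, 159), (2, 303797), (3,
    89), (1, 159), (2, 303824), (3, 91), (1, 159), (2, 304222), (3, 91), (1, 159), (2, 304249),
    (3, 93), (1, 159), (2, 304647), (3, 93), (1, 159), (2, 304674), (3, 95), (1, 159), (2,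
    305072), (3, 95), (1, 159), (2, 305099), (3, 97), (1, 159), (2, 305497), (3, 97), (1, 159),
    (2, 305524), (3, 99), (1, 159), (2, 305922), (3, 99), (1, 159), (2, 305949), (3, 101), (1,
    159), (2, 306347), (3, 101), (1, 159), (2, 306374), (3, 103), (1, 159), (2, 306772), (3,
    103), (1, 159), (2, 306799), (3, 105), (1, 159), (2, 307197), (3, 105), (1, 159), (2,
    307224), (3, 107), (1, 159), (2, 307622), (3, 107), (1, 159), (2, 307649), (3, 109), (1,
    159), (2, 308047), (3, 109), (1, 159), (2, 308074), (3, 111), (1, 159), (2, 308472), (3,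
    111), (1, 159), (2, 308499), (3, 111), (1, 159), (2, 30768), (4, 1)]

def m113 : List (ℕ × ℕ) :=
  [(1, 7), (2, 300849), (3, 77), (1, 159), (2, 300849), (3, 77), (1, 159), (2, 300849), (3, 77),
    (1, 149)]

def m114 : List (ℕ × ℕ) :=
  [(2, 300821), (3, 75), (1, 159), (2, 300849), (3, 77), (1, 159), (2, 301247), (3, 77), (1,
    159), (2, 301274), (3, 79), (1, 159), (2, 301672), (3, 79), (1, 159), (2, 301699), (3, 81),
    (1, 159), (2, 302097), (3, 81), (1, 159), (2, 302124), (3, 83), (1, 159), (2, 302522), (3,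
    83), (1, 159), (2, 302549), (3, 85), (1, 159), (2, 302947), (3, 85), (1, 159), (2, 302974),
    (3, 87), (1, 159), (2, 303372), (3, 87), (1, 159), (2, 303399), (3, 89), (1, 159), (2,
    303797), (3, 89), (1, 159), (2, 303824), (3, 91), (1, 159), (2, 304222), (3, 91), (1, 159),
    (2, 304249), (3, 93), (1, 159), (2, 304647), (3, 93), (1, 159), (2, 304674), (3, 95), (1,
    159), (2, 305072), (3, 95), (1, 159), (2, 305099), (3, 97), (1, 159), (2, 305497), (3, 97),
    (1, 159), (2, 305524), (3, 99), (1, 159), (2, 305922), (3, 99), (1, 159), (2, 305949), (3,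
    101), (1, 159), (2, 306347), (3, 101), (1, 159), (2, 306374), (3, 103), (1, 159), (2,
    306772), (3, 103), (1, 159), (2, 306799), (3, 105), (1, 159), (2, 307197), (3, 105), (1,
    159), (2, 307224), (3, 107), (1, 159), (2, 307622), (3, 107), (1, 159), (2, 307649), (3,
    109), (1, 159), (2, 308047), (3, 109), (1, 159), (2, 308074), (3, 111), (1, 159), (2,
    308472), (3, 111), (1, 159), (2, 308499), (3, 111), (1, 159), (2, 30768), (4, 1)]

def m115 : List (ℕ × ℕ) :=
  [(2, 300516), (3, 75), (1, 159), (2, 300849), (3, 75), (1, 159), (2, 300849), (3, 75), (1,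
    159), (2, 146)]

def m116 : List (ℕ × ℕ) :=
  [(3, 72), (1, 159), (2, 300424), (3, 75), (1, 159), (2, 300822), (3, 75), (1, 159), (2,
    300849), (3, 77), (1, 159), (2, 301247), (3, 77), (1, 159), (2, 301274), (3, 79), (1, 159),
    (2, 301672), (3, 79), (1, 159), (2, 301699), (3, 81), (1, 159), (2, 302097), (3, 81), (1,
    159), (2, 302124), (3, 83), (1, 159), (2, 302522), (3, 83), (1, 159), (2, 302549), (3, 85),
    (1, 159), (2, 302947), (3, 85), (1, 159), (2, 302974), (3, 87), (1, 159), (2, 303372), (3,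
    87), (1, 159), (2, 303399), (3, 89), (1, 159), (2, 303797), (3, 89), (1, 159), (2, 303824),
    (3, 91), (1, 159), (2, 304222), (3, 91), (1, 159), (2, 304249), (3, 93), (1, 159), (2,
    304647), (3, 93), (1, 159), (2, 304674), (3, 95), (1, 159), (2, 305072), (3, 95), (1, 159),
    (2, 305099), (3, 97), (1, 159), (2, 305497), (3, 97), (1, 159), (2, 305524), (3, 99), (1,
    159), (2, 305922), (3, 99), (1, 159), (2, 305949), (3, 101), (1, 159), (2, 306347), (3, 101),
    (1, 159), (2, 306374), (3, 103), (1, 159), (2, 306772), (3, 103), (1, 159), (2, 306799), (3,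
    105), (1, 159), (2, 307197), (3, 105), (1, 159), (2, 307224), (3, 107), (1, 159), (2,
    307622), (3, 107), (1, 159), (2, 307649), (3, 109), (1, 159), (2, 308047), (3, 109), (1,
    159), (2, 308074), (3, 111), (1, 159), (2, 308472), (3, 111), (1, 159), (2, 308499), (3,
    111), (1, 159), (2, 30768), (4, 1)]

def m117 : List (ℕ × ℕ) :=
  [(1, 5), (2, 300424), (3, 75), (1, 159), (2, 300424), (3, 75), (1, 159), (2, 300424), (3, 75),
    (1, 151)]

def m118 : List (ℕ × ℕ) :=
  [(2, 300396), (3, 73), (1, 159), (2, 300424), (3, 75), (1, 159), (2, 300822), (3, 75), (1,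
    159), (2, 300849), (3, 77), (1, 159), (2, 301247), (3, 77), (1, 159), (2, 301274), (3, 79),
    (1, 159), (2, 301672), (3, 79), (1, 159), (2, 301699), (3, 81), (1, 159), (2, 302097), (3,
    81), (1, 159), (2, 302124), (3, 83), (1, 159), (2, 302522), (3, 83), (1, 159), (2, 302549),
    (3, 85), (1, 159), (2, 302947), (3, 85), (1, 159), (2, 302974), (3, 87), (1, 159), (2,
    303372), (3, 87), (1, 159), (2, 303399), (3, 89), (1, 159), (2, 303797), (3, 89), (1, 159),
    (2, 303824), (3, 91), (1, 159), (2, 304222), (3, 91), (1, 159), (2, 304249), (3, 93), (1,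
    159), (2, 304647), (3, 93), (1, 159), (2, 304674), (3, 95), (1, 159), (2, 305072), (3, 95),
    (1, 159), (2, 305099), (3, 97), (1, 159), (2, 305497), (3, 97), (1, 159), (2, 305524), (3,
    99), (1, 159), (2, 305922), (3, 99), (1, 159), (2, 305949), (3, 101), (1, 159), (2, 306347),
    (3, 101), (1, 159), (2, 306374), (3, 103), (1, 159), (2, 306772), (3, 103), (1, 159), (2,
    306799), (3, 105), (1, 159), (2, 307197), (3, 105), (1, 159), (2, 307224), (3, 107), (1,
    159), (2, 307622), (3, 107), (1, 159), (2, 307649), (3, 109), (1, 159), (2, 308047), (3,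
    109), (1, 159), (2, 308074), (3, 111), (1, 159), (2, 308472), (3, 111), (1, 159), (2,
    308499), (3, 111), (1, 159), (2, 30768), (4, 1)]

def m119 : List (ℕ × ℕ) :=
  [(2, 300091), (3, 73), (1, 159), (2, 300424), (3, 73), (1, 159), (2, 300424), (3, 73), (1,
    159), (2, 146)]

def m120 : List (ℕ × ℕ) :=
  [(0, 1), (2, 106337), (3, 73), (1, 159), (2, 299999), (3, 73), (1, 159), (2, 300397), (3, 73),
    (1, 159), (2, 300424), (3, 75), (1, 159), (2, 300822), (3, 75), (1, 159), (2, 300849), (3,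
    77), (1, 159), (2, 301247), (3, 77), (1, 159), (2, 301274), (3, 79), (1, 159), (2, 301672),
    (3, 79), (1, 159), (2, 301699), (3, 81), (1, 159), (2, 302097), (3, 81), (1, 159), (2,
    302124), (3, 83), (1, 159), (2, 302522), (3, 83), (1, 159), (2, 302549), (3, 85), (1, 159),
    (2, 302947), (3, 85), (1, 159), (2, 302974), (3, 87), (1, 159), (2, 303372), (3, 87), (1,
    159), (2, 303399), (3, 89), (1, 159), (2, 303797), (3, 89), (1, 159), (2, 303824), (3, 91),
    (1, 159), (2, 304222), (3, 91), (1, 159), (2, 304249), (3, 93), (1, 159), (2, 304647), (3,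
    93), (1, 159), (2, 304674), (3, 95), (1, 159), (2, 305072), (3, 95), (1, 159), (2, 305099),
    (3, 97), (1, 159), (2, 305497), (3, 97), (1, 159), (2, 305524), (3, 99), (1, 159), (2,
    305922), (3, 99), (1, 159), (2, 305949), (3, 101), (1, 159), (2, 306347), (3, 101), (1, 159),
    (2, 306374), (3, 103), (1, 159), (2, 306772), (3, 103), (1, 159), (2, 306799), (3, 105), (1,
    159), (2, 307197), (3, 105), (1, 159), (2, 307224), (3, 107), (1, 159), (2, 307622), (3,
    107), (1, 159), (2, 307649), (3, 109), (1, 159), (2, 308047), (3, 109), (1, 159), (2,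
    308074), (3, 111), (1, 159), (2, 308472), (3, 111), (1, 159), (2, 308499), (3, 111), (1,
    159), (2, 30768), (4, 1)]

def m121 : List (ℕ × ℕ) :=
  [(2, 308165), (3, 111), (1, 159), (2, 308499), (3, 111), (1, 159), (2, 308499), (3, 111), (1,
    159), (2, 308472), (3, 111), (1, 159), (2, 308472), (3, 111), (1, 159), (2, 308472), (3,
    111), (1, 5)]

def m122 : List (ℕ × ℕ) :=
  [(2, 307741), (3, 109), (1, 159), (2, 308074), (3, 109), (1, 159), (2, 308074), (3, 109), (1,
    159), (2, 308047), (3, 109), (1, 159), (2, 308047), (3, 109), (1, 159), (2, 308047), (3,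
    109), (1, 7)]

def m123 : List (ℕ × ℕ) :=
  [(2, 307316), (3, 107), (1, 159), (2, 307649), (3, 107), (1, 159), (2, 307649), (3, 107), (1,
    159), (2, 307622), (3, 107), (1, 159), (2, 307622), (3, 107), (1, 159), (2, 307622), (3,
    107), (1, 9)]

def m124 : List (ℕ × ℕ) :=
  [(2, 306891), (3, 105), (1, 159), (2, 307224), (3, 105), (1, 159), (2, 307224), (3, 105), (1,
    159), (2, 307197), (3, 105), (1, 159), (2, 307197), (3, 105), (1, 159), (2, 307197), (3,
    105), (1, 11)]

def m125 : List (ℕ × ℕ) :=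
  [(2, 306466), (3, 103), (1, 159), (2, 306799), (3, 103), (1, 159), (2, 306799), (3, 103), (1,
    159), (2, 306772), (3, 103), (1, 159), (2, 306772), (3, 103), (1, 159), (2, 306772), (3,
    103), (1, 13)]

def m126 : List (ℕ × ℕ) :=
  [(2, 306041), (3, 101), (1, 159), (2, 306374), (3, 101), (1, 159), (2, 306374), (3, 101), (1,
    159), (2, 306347), (3, 101), (1, 159), (2, 306347), (3, 101), (1, 159), (2, 306347), (3,
    101), (1, 15)]

def m127 : List (ℕ × ℕ) :=
  [(2, 305616), (3, 99), (1, 159), (2, 305949), (3, 99), (1, 159), (2, 305949), (3, 99), (1,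
    159), (2, 305922), (3, 99), (1, 159), (2, 305922), (3, 99), (1, 159), (2, 305922), (3, 99),
    (1, 17)]

def m128 : List (ℕ × ℕ) :=
  [(2, 305191), (3, 97), (1, 159), (2, 305524), (3, 97), (1, 159), (2, 305524), (3, 97), (1,
    159), (2, 305497), (3, 97), (1, 159), (2, 305497), (3, 97), (1, 159), (2, 305497), (3, 97),
    (1, 19)]

def m129 : List (ℕ × ℕ) :=
  [(2, 304766), (3, 95), (1, 159), (2, 305099), (3, 95), (1, 159), (2, 305099), (3, 95), (1,
    159), (2, 305072), (3, 95), (1, 159), (2, 305072), (3, 95), (1, 159), (2, 305072), (3, 95),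
    (1, 21)]

def m130 : List (ℕ × ℕ) :=
  [(2, 304341), (3, 93), (1, 159), (2, 304674), (3, 93), (1, 159), (2, 304674), (3, 93), (1,
    159), (2, 304647), (3, 93), (1, 159), (2, 304647), (3, 93), (1, 159), (2, 304647), (3, 93),
    (1, 22)]

def m131 : List (ℕ × ℕ) :=
  [(2, 303916), (3, 91), (1, 159), (2, 304249), (3, 91), (1, 159), (2, 304249), (3, 91), (1,
    159), (2, 304222), (3, 91), (1, 159), (2, 304222), (3, 91), (1, 159), (2, 304222), (3, 91),
    (1, 25)]

def m132 : List (ℕ × ℕ) :=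
  [(2, 303491), (3, 89), (1, 159), (2, 303824), (3, 89), (1, 159), (2, 303824), (3, 89), (1,
    159), (2, 303797), (3, 89), (1, 159), (2, 303797), (3, 89), (1, 159), (2, 303797), (3, 89),
    (1, 27)]

def m133 : List (ℕ × ℕ) :=
  [(2, 303066), (3, 87), (1, 159), (2, 303399), (3, 87), (1, 159), (2, 303399), (3, 87), (1,
    159), (2, 303372), (3, 87), (1, 159), (2, 303372), (3, 87), (1, 159), (2, 303372), (3, 87),
    (1, 29)]

def m134 : List (ℕ × ℕ) :=
  [(2, 302611), (3, 85), (1, 159), (2, 302974), (3, 85), (1, 159), (2, 302974), (3, 85), (1,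
    159), (2, 302947), (3, 85), (1, 159), (2, 302947), (3, 85), (1, 159), (2, 302947), (3, 85),
    (1, 31)]

def m135 : List (ℕ × ℕ) :=
  [(2, 302217), (3, 83), (1, 159), (2, 302549), (3, 83), (1, 159), (2, 302549), (3, 83), (1,
    159), (2, 302522), (3, 83), (1, 159), (2, 302522), (3, 83), (1, 159), (2, 302522), (3, 83),
    (1, 33)]

def m136 : List (ℕ × ℕ) :=
  [(2, 301791), (3, 81), (1, 159), (2, 302124), (3, 81), (1, 159), (2, 302124), (3, 81), (1,
    159), (2, 302097), (3, 81), (1, 159), (2, 302097), (3, 81), (1, 159), (2, 302097), (3, 81),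
    (1, 35)]

def m137 : List (ℕ × ℕ) :=
  [(2, 301366), (3, 79), (1, 159), (2, 301699), (3, 79), (1, 159), (2, 301699), (3, 79), (1,
    159), (2, 301672), (3, 79), (1, 159), (2, 301672), (3, 79), (1, 159), (2, 301672), (3, 79),
    (1, 37)]

def m138 : List (ℕ × ℕ) :=
  [(2, 300941), (3, 77), (1, 159), (2, 301274), (3, 77), (1, 159), (2, 301274), (3, 77), (1,
    159), (2, 301247), (3, 77), (1, 159), (2, 301247), (3, 77), (1, 159), (2, 301247), (3, 77),
    (1, 39)]

def m139 : List (ℕ × ℕ) :=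
  [(2, 300516), (3, 75), (1, 159), (2, 300849), (3, 75), (1, 159), (2, 300849), (3, 75), (1,
    159), (2, 300822), (3, 75), (1, 159), (2, 300822), (3, 75), (1, 159), (2, 300822), (3, 75),
    (1, 41)]

def m140 : List (ℕ × ℕ) :=
  [(2, 300091), (3, 73), (1, 159), (2, 300424), (3, 73), (1, 159), (2, 300424), (3, 73), (1,
    159), (2, 300397), (3, 73), (1, 159), (2, 300397), (3, 73), (1, 159), (2, 300397), (3, 73),
    (1, 41)]

def m141 : List (ℕ × ℕ) :=
  [(2, 300091), (3, 73), (1, 159), (2, 300424), (3, 73), (1, 159), (2, 300424), (3, 73), (1,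
    159), (2, 300397), (3, 73), (1, 159), (2, 300397), (3, 73), (1, 159), (2, 300397), (3, 73),
    (1, 159), (2, 299999), (3, 73), (1, 159), (2, 299999), (3, 73), (1, 159), (2, 299999), (3,
    73), (1, 153)]

/-- the words of the instance -/
def L : List (List (ℕ × ℕ)) :=
  [w0, w1, w2, w3, w4, w5, w6, w7, w8, w9, w10, w11, w12, w13, w14, w15, w16, w17, w18, w19, w20,
    w21, w22, w23, w24, w25, w26, w27, w28, w29, w30, w31, w32, w33, w34, w35, w36, w37, w38,
    w39, w40, w41, w42, w43, w44, w45, w46, w47, w48, w49, w50, w51, w52, w53, w54, w55, w56,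
    w57, w58, w59, w60, w61, w62, w63, w64, w65, w66, w67, w68, w69, w70, w71, w72, w73, w74,
    w75, w76, w77, w78, w79, w80, w81, w82, w83, w84, w85, w86, w87, w88, w89, w90, w91, w92,
    w93, w94, w95, w96, w97, w98, w99, w100, w101, w102, w103, w104, w105, w106, w107, w108,
    w109, w110, w111, w112, w113, w114, w115, w116, w117, w118, w119, w120, w121, w122, w123,
    w124, w125, w126, w127, w128, w129, w130, w131, w132, w133, w134, w135, w136, w137, w138,
    w139, w140, w141, w142, w143, w144, w145, w146, w147, w148, w149, w150, w151, w152, w153,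
    w154, w155, w156, w157, w158, w159, w160, w161, w162, w163, w164, w165, w166, w167, w168,
    w169, w170, w171, w172, w173, w174, w175, w176, w177, w178, w179, w180]

/-- the superstring -/
def T : List (ℕ × ℕ) :=
  [(0, 1), (2, 106337), (3, 73), (1, 159), (2, 299999), (3, 73), (1, 159), (2, 299999), (3, 73),
    (1, 159), (2, 300397), (3, 73), (1, 159), (2, 300397), (3, 73), (1, 159), (2, 300424), (3,
    73), (1, 159), (2, 300424), (3, 75), (1, 159), (2, 300424), (3, 75), (1, 159), (2, 300822),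
    (3, 75), (1, 159), (2, 300822), (3, 75), (1, 159), (2, 300849), (3, 75), (1, 159), (2,
    300849), (3, 77), (1, 159), (2, 300849), (3, 77), (1, 159), (2, 301247), (3, 77), (1, 159),
    (2, 301247), (3, 77), (1, 159), (2, 301274), (3, 77), (1, 159), (2, 301274), (3, 79), (1,
    159), (2, 301274), (3, 79), (1, 159), (2, 301672), (3, 79), (1, 159), (2, 301672), (3, 79),
    (1, 159), (2, 301699), (3, 79), (1, 159), (2, 301699), (3, 81), (1, 159), (2, 301699), (3,
    81), (1, 159), (2, 302097), (3, 81), (1, 159), (2, 302097), (3, 81), (1, 159), (2, 302124),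
    (3, 81), (1, 159), (2, 302124), (3, 83), (1, 159), (2, 302124), (3, 83), (1, 159), (2,
    302522), (3, 83), (1, 159), (2, 302522), (3, 83), (1, 159), (2, 302549), (3, 83), (1, 159),
    (2, 302549), (3, 85), (1, 159), (2, 302549), (3, 85), (1, 159), (2, 302947), (3, 85), (1,
    159), (2, 302947), (3, 85), (1, 159), (2, 302974), (3, 85), (1, 159), (2, 302974), (3, 87),
    (1, 159), (2, 302974), (3, 87), (1, 159), (2, 303372), (3, 87), (1, 159), (2, 303372), (3,
    87), (1, 159), (2, 303399), (3, 87), (1, 159), (2, 303399), (3, 89), (1, 159), (2, 303399),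
    (3, 89), (1, 159), (2, 303797), (3, 89), (1, 159), (2, 303797), (3, 89), (1, 159), (2,
    303824), (3, 89), (1, 159), (2, 303824), (3, 91), (1, 159), (2, 303824), (3, 91), (1, 159),
    (2, 304222), (3, 91), (1, 159), (2, 304222), (3, 91), (1, 159), (2, 304249), (3, 91), (1,
    159), (2, 304249), (3, 93), (1, 159), (2, 304249), (3, 93), (1, 159), (2, 304647), (3, 93),
    (1, 159), (2, 304647), (3, 93), (1, 159), (2, 304674), (3, 93), (1, 159), (2, 304674), (3,
    95), (1, 159), (2, 304674), (3, 95), (1, 159), (2, 305072), (3, 95), (1, 159), (2, 305072),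
    (3, 95), (1, 159), (2, 305099), (3, 95), (1, 159), (2, 305099), (3, 97), (1, 159), (2,
    305099), (3, 97), (1, 159), (2, 305497), (3, 97), (1, 159), (2, 305497), (3, 97), (1, 159),
    (2, 305524), (3, 97), (1, 159), (2, 305524), (3, 99), (1, 159), (2, 305524), (3, 99), (1,
    159), (2, 305922), (3, 99), (1, 159), (2, 305922), (3, 99), (1, 159), (2, 305949), (3, 99),
    (1, 159), (2, 305949), (3, 101), (1, 159), (2, 305949), (3, 101), (1, 159), (2, 306347), (3,
    101), (1, 159), (2, 306347), (3, 101), (1, 159), (2, 306374), (3, 101), (1, 159), (2,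
    306374), (3, 103), (1, 159), (2, 306374), (3, 103), (1, 159), (2, 306772), (3, 103), (1,
    159), (2, 306772), (3, 103), (1, 159), (2, 306799), (3, 103), (1, 159), (2, 306799), (3,
    105), (1, 159), (2, 306799), (3, 105), (1, 159), (2, 307197), (3, 105), (1, 159), (2,
    307197), (3, 105), (1, 159), (2, 307224), (3, 105), (1, 159), (2, 307224), (3, 107), (1,
    159), (2, 307224), (3, 107), (1, 159), (2, 307622), (3, 107), (1, 159), (2, 307622), (3,
    107), (1, 159), (2, 307649), (3, 107), (1, 159), (2, 307649), (3, 109), (1, 159), (2,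
    307649), (3, 109), (1, 159), (2, 308047), (3, 109), (1, 159), (2, 308047), (3, 109), (1,
    159), (2, 308074), (3, 109), (1, 159), (2, 308074), (3, 111), (1, 159), (2, 308074), (3,
    111), (1, 159), (2, 308472), (3, 111), (1, 159), (2, 308472), (3, 111), (1, 159), (2,
    308499), (3, 111), (1, 159), (2, 308499), (3, 111), (1, 159), (2, 30768), (4, 1)]

/-- the positions of the words -/
def P : List ℕ :=
  [228, 1, 406916, 406801, 1007967, 1007661, 1608941, 1608714, 1909721, 1909604, 2511624,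
    2511318, 3113450, 3113223, 3414659, 3414542, 4017416, 4017110, 4620094, 4619867, 4921732,
    4921615, 5525343, 5525037, 6128873, 6128646, 6430940, 6430823, 7035405, 7035099, 7639787,
    7639560, 7942283, 7942166, 8547601, 8547296, 9152836, 9152609, 9455761, 9455644, 10061964,
    10061628, 10668020, 10667793, 10971374, 10971257, 11578401, 11578095, 12185339, 12185112,
    12489122, 12489005, 13097003, 13096697, 13704793, 13704566, 14009005, 14008888, 14617740,
    14617434, 15226382, 15226155, 15531022, 15530906, 16140612, 16140306, 16750106, 16749879,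
    17055176, 17055059, 17665619, 17665313, 18275965, 18275738, 18581464, 18581347, 19192761,
    19192455, 19803959, 19803732, 20109887, 20109770, 20722038, 20721732, 21334088, 21333861,
    21640445, 21640328, 22253450, 22253144, 22866352, 22866125, 23173138, 23173021, 23786997,
    23786691, 24400751, 24400524, 24707966, 24707849, 25322679, 25322373, 25937285, 25937058,
    26244929, 26244812, 26860496, 26860190, 27475954, 27475727, 27784027, 27783910, 28400448,
    28400142, 29016758, 29016531, 29325260, 29325143, 29942536, 29942229, 0, 300233, 707431,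
    1308318, 1909373, 2210661, 2812402, 3414309, 3716026, 4318621, 4921380, 5223526, 5826975,
    6430586, 6733161, 7337464, 7941927, 8244931, 8850088, 9455403, 9758836, 10364847, 10971014,
    11274876, 11881741, 12488760, 12793051, 13400770, 14008641, 14313361, 14921934, 15530657,
    15835806, 16445233, 17054808, 17360386, 17970667, 18581094, 18887101, 19498236, 20109515,
    20415951, 21027940, 21640071, 21946936, 22559779, 23172762, 23480056, 24093753, 24707588,
    25015311, 25629862, 26244549, 26552701, 27168106, 27783645, 28092226, 28708485, 29324876,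
    29633886, 30250999]

end Vale.Agent.P333.Rle.V20
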