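import Vale.Agent.P333.CE.DataV12

/-!
P333: steps of the forced greedy run.
-/

namespace Vale.Agent.P333.Rle.V12

set_option maxRecDepth 100000

theorem s9 : okS 912186 w44 w45 m9
    [m8, m7, m6, m5, m4, m3, m2, m1, w0, w1, w2, w3, w4, w5, w6, w7, w8, w9, w10, w11, w12, w13,
    w14, w15, w16, w17, w18, w19, w20, w21, w22, w23, w24, w25, w26, w27, w28, w29, w30, w31,
    w32, w33, w34, w35, w36, w37, w38, w39, w40, w41, w42, w43, w46, w47, w48, w49, w52, w53,
    w54, w55, w58, w59, w60, w61, w64, w65, w66, w67, w70, w71, w72, w73, w74, w75, w76, w77,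
    w78, w79, w80, w81, w82, w83, w84, w85, w86, w87, w88, w89, w90, w91, w92, w93, w94, w95,
    w96, w99, w102, w105, w108] = true :=
  okS_of (by decide +kernel) (by decide +kernel)

theorem s10 : okS 912184 w94 w95 m10
    [m9, m8, m7, m6, m5, m4, m3, m2, m1, w0, w1, w2, w3, w4, w5, w6, w7, w8, w9, w10, w11, w12,
    w13, w14, w15, w16, w17, w18, w19, w20, w21, w22, w23, w24, w25, w26, w27, w28, w29, w30,
    w31, w32, w33, w34, w35, w36, w37, w38, w39, w40, w41, w42, w43, w46, w47, w48, w49, w52,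
    w53, w54, w55, w58, w59, w60, w61, w64, w65, w66, w67, w70, w71, w72, w73, w74, w75, w76,
    w77, w78, w79, w80, w81, w82, w83, w84, w85, w86, w87, w88, w89, w90, w91, w92, w93, w96,
    w99, w102, w105, w108] = true :=
  okS_of (by decide +kernel) (by decide +kernel)

theorem s11 : okS 911026 w38 w39 m11
    [m10, m9, m8, m7, m6, m5, m4, m3, m2, m1, w0, w1, w2, w3, w4, w5, w6, w7, w8, w9, w10, w11,
    w12, w13, w14, w15, w16, w17, w18, w19, w20, w21, w22, w23, w24, w25, w26, w27, w28, w29,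
    w30, w31, w32, w33, w34, w35, w36, w37, w40, w41, w42, w43, w46, w47, w48, w49, w52, w53,
    w54, w55, w58, w59, w60, w61, w64, w65, w66, w67, w70, w71, w72, w73, w74, w75, w76, w77,
    w78, w79, w80, w81, w82, w83, w84, w85, w86, w87, w88, w89, w90, w91, w92, w93, w96, w99,
    w102, w105, w108] = true :=
  okS_of (by decide +kernel) (by decide +kernel)

theorem s12 : okS 911024 w91 w92 m12
    [m11, m10, m9, m8, m7, m6, m5, m4, m3, m2, m1, w0, w1, w2, w3, w4, w5, w6, w7, w8, w9, w10,
    w11, w12, w13, w14, w15, w16, w17, w18, w19, w20, w21, w22, w23, w24, w25, w26, w27, w28,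
    w29, w30, w31, w32, w33, w34, w35, w36, w37, w40, w41, w42, w43, w46, w47, w48, w49, w52,
    w53, w54, w55, w58, w59, w60, w61, w64, w65, w66, w67, w70, w71, w72, w73, w74, w75, w76,
    w77, w78, w79, w80, w81, w82, w83, w84, w85, w86, w87, w88, w89, w90, w93, w96, w99, w102,
    w105, w108] = true :=
  okS_of (by decide +kernel) (by decide +kernel)

theorem s13 : okS 909866 w32 w33 m13
    [m12, m11, m10, m9, m8, m7, m6, m5, m4, m3, m2, m1, w0, w1, w2, w3, w4, w5, w6, w7, w8, w9,
    w10, w11, w12, w13, w14, w15, w16, w17, w18, w19, w20, w21, w22, w23, w24, w25, w26, w27,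
    w28, w29, w30, w31, w34, w35, w36, w37, w40, w41, w42, w43, w46, w47, w48, w49, w52, w53,
    w54, w55, w58, w59, w60, w61, w64, w65, w66, w67, w70, w71, w72, w73, w74, w75, w76, w77,
    w78, w79, w80, w81, w82, w83, w84, w85, w86, w87, w88, w89, w90, w93, w96, w99, w102, w105,
    w108] = true :=
  okS_of (by decide +kernel) (by decide +kernel)

theorem s14 : okS 909864 w88 w89 m14
    [m13, m12, m11, m10, m9, m8, m7, m6, m5, m4, m3, m2, m1, w0, w1, w2, w3, w4, w5, w6, w7, w8,
    w9, w10, w11, w12, w13, w14, w15, w16, w17, w18, w19, w20, w21, w22, w23, w24, w25, w26, w27,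
    w28, w29, w30, w31, w34, w35, w36, w37, w40, w41, w42, w43, w46, w47, w48, w49, w52, w53,
    w54, w55, w58, w59, w60, w61, w64, w65, w66, w67, w70, w71, w72, w73, w74, w75, w76, w77,
    w78, w79, w80, w81, w82, w83, w84, w85, w86, w87, w90, w93, w96, w99, w102, w105,
    w108] = true :=
  okS_of (by decide +kernel) (by decide +kernel)

theorem s15 : okS 908666 w26 w27 m15
    [m14, m13, m12, m11, m10, m9, m8, m7, m6, m5, m4, m3, m2, m1, w0, w1, w2, w3, w4, w5, w6, w7,
    w8, w9, w10, w11, w12, w13, w14, w15, w16, w17, w18, w19, w20, w21, w22, w23, w24, w25, w28,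
    w29, w30, w31, w34, w35, w36, w37, w40, w41, w42, w43, w46, w47, w48, w49, w52, w53, w54,
    w55, w58, w59, w60, w61, w64, w65, w66, w67, w70, w71, w72, w73, w74, w75, w76, w77, w78,
    w79, w80, w81, w82, w83, w84, w85, w86, w87, w90, w93, w96, w99, w102, w105, w108] = true :=
  okS_of (by decide +kernel) (by decide +kernel)

theorem s16 : okS 908664 w85 w86 m16
    [m15, m14, m13, m12, m11, m10, m9, m8, m7, m6, m5, m4, m3, m2, m1, w0, w1, w2, w3, w4, w5,
    w6, w7, w8, w9, w10, w11, w12, w13, w14, w15, w16, w17, w18, w19, w20, w21, w22, w23, w24,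
    w25, w28, w29, w30, w31, w34, w35, w36, w37, w40, w41, w42, w43, w46, w47, w48, w49, w52,
    w53, w54, w55, w58, w59, w60, w61, w64, w65, w66, w67, w70, w71, w72, w73, w74, w75, w76,
    w77, w78, w79, w80, w81, w82, w83, w84, w87, w90, w93, w96, w99, w102, w105, w108] = true :=
  okS_of (by decide +kernel) (by decide +kernel)

theorem s17 : okS 907418 w20 w21 m17
    [m16, m15, m14, m13, m12, m11, m10, m9, m8, m7, m6, m5, m4, m3, m2, m1, w0, w1, w2, w3, w4,
    w5, w6, w7, w8, w9, w10, w11, w12, w13, w14, w15, w16, w17, w18, w19, w22, w23, w24, w25,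
    w28, w29, w30, w31, w34, w35, w36, w37, w40, w41, w42, w43, w46, w47, w48, w49, w52, w53,
    w54, w55, w58, w59, w60, w61, w64, w65, w66, w67, w70, w71, w72, w73, w74, w75, w76, w77,
    w78, w79, w80, w81, w82, w83, w84, w87, w90, w93, w96, w99, w102, w105, w108] = true :=
  okS_of (by decide +kernel) (by decide +kernel)

end Vale.Agent.P333.Rle.V12
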