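import Vale.Agent.P333.CE.DataV12

/-!
P333: steps of the forced greedy run.
-/

namespace Vale.Agent.P333.Rle.V12

set_option maxRecDepth 100000

theorem s18 : okS 907413 w82 w83 m18
    [m17, m16, m15, m14, m13, m12, m11, m10, m9, m8, m7, m6, m5, m4, m3, m2, m1, w0, w1, w2, w3,
    w4, w5, w6, w7, w8, w9, w10, w11, w12, w13, w14, w15, w16, w17, w18, w19, w22, w23, w24, w25,
    w28, w29, w30, w31, w34, w35, w36, w37, w40, w41, w42, w43, w46, w47, w48, w49, w52, w53,
    w54, w55, w58, w59, w60, w61, w64, w65, w66, w67, w70, w71, w72, w73, w74, w75, w76, w77,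
    w78, w79, w80, w81, w84, w87, w90, w93, w96, w99, w102, w105, w108] = true :=
  okS_of (by decide +kernel) (by decide +kernel)

theorem s19 : okS 906257 w14 w15 m19
    [m18, m17, m16, m15, m14, m13, m12, m11, m10, m9, m8, m7, m6, m5, m4, m3, m2, m1, w0, w1, w2,
    w3, w4, w5, w6, w7, w8, w9, w10, w11, w12, w13, w16, w17, w18, w19, w22, w23, w24, w25, w28,
    w29, w30, w31, w34, w35, w36, w37, w40, w41, w42, w43, w46, w47, w48, w49, w52, w53, w54,
    w55, w58, w59, w60, w61, w64, w65, w66, w67, w70, w71, w72, w73, w74, w75, w76, w77, w78,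
    w79, w80, w81, w84, w87, w90, w93, w96, w99, w102, w105, w108] = true :=
  okS_of (by decide +kernel) (by decide +kernel)

theorem s20 : okS 906255 w79 w80 m20
    [m19, m18, m17, m16, m15, m14, m13, m12, m11, m10, m9, m8, m7, m6, m5, m4, m3, m2, m1, w0,
    w1, w2, w3, w4, w5, w6, w7, w8, w9, w10, w11, w12, w13, w16, w17, w18, w19, w22, w23, w24,
    w25, w28, w29, w30, w31, w34, w35, w36, w37, w40, w41, w42, w43, w46, w47, w48, w49, w52,
    w53, w54, w55, w58, w59, w60, w61, w64, w65, w66, w67, w70, w71, w72, w73, w74, w75, w76,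
    w77, w78, w81, w84, w87, w90, w93, w96, w99, w102, w105, w108] = true :=
  okS_of (by decide +kernel) (by decide +kernel)

theorem s21 : okS 905103 w8 w9 m21
    [m20, m19, m18, m17, m16, m15, m14, m13, m12, m11, m10, m9, m8, m7, m6, m5, m4, m3, m2, m1,
    w0, w1, w2, w3, w4, w5, w6, w7, w10, w11, w12, w13, w16, w17, w18, w19, w22, w23, w24, w25,
    w28, w29, w30, w31, w34, w35, w36, w37, w40, w41, w42, w43, w46, w47, w48, w49, w52, w53,
    w54, w55, w58, w59, w60, w61, w64, w65, w66, w67, w70, w71, w72, w73, w74, w75, w76, w77,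
    w78, w81, w84, w87, w90, w93, w96, w99, w102, w105, w108] = true :=
  okS_of (by decide +kernel) (by decide +kernel)

theorem s22 : okS 905101 w76 w77 m22
    [m21, m20, m19, m18, m17, m16, m15, m14, m13, m12, m11, m10, m9, m8, m7, m6, m5, m4, m3, m2,
    m1, w0, w1, w2, w3, w4, w5, w6, w7, w10, w11, w12, w13, w16, w17, w18, w19, w22, w23, w24,
    w25, w28, w29, w30, w31, w34, w35, w36, w37, w40, w41, w42, w43, w46, w47, w48, w49, w52,
    w53, w54, w55, w58, w59, w60, w61, w64, w65, w66, w67, w70, w71, w72, w73, w74, w75, w78,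
    w81, w84, w87, w90, w93, w96, w99, w102, w105, w108] = true :=
  okS_of (by decide +kernel) (by decide +kernel)

theorem s23 : okS 903915 w2 w3 m23
    [m22, m21, m20, m19, m18, m17, m16, m15, m14, m13, m12, m11, m10, m9, m8, m7, m6, m5, m4, m3,
    m2, m1, w0, w1, w4, w5, w6, w7, w10, w11, w12, w13, w16, w17, w18, w19, w22, w23, w24, w25,
    w28, w29, w30, w31, w34, w35, w36, w37, w40, w41, w42, w43, w46, w47, w48, w49, w52, w53,
    w54, w55, w58, w59, w60, w61, w64, w65, w66, w67, w70, w71, w72, w73, w74, w75, w78, w81,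
    w84, w87, w90, w93, w96, w99, w102, w105, w108] = true :=
  okS_of (by decide +kernel) (by decide +kernel)

theorem s24 : okS 903913 w73 w74 m24
    [m23, m22, m21, m20, m19, m18, m17, m16, m15, m14, m13, m12, m11, m10, m9, m8, m7, m6, m5,
    m4, m3, m2, m1, w0, w1, w4, w5, w6, w7, w10, w11, w12, w13, w16, w17, w18, w19, w22, w23,
    w24, w25, w28, w29, w30, w31, w34, w35, w36, w37, w40, w41, w42, w43, w46, w47, w48, w49,
    w52, w53, w54, w55, w58, w59, w60, w61, w64, w65, w66, w67, w70, w71, w72, w75, w78, w81,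
    w84, w87, w90, w93, w96, w99, w102, w105, w108] = true :=
  okS_of (by decide +kernel) (by decide +kernel)

theorem s25 : okS 647570 w0 w1 m25
    [m24, m23, m22, m21, m20, m19, m18, m17, m16, m15, m14, m13, m12, m11, m10, m9, m8, m7, m6,
    m5, m4, m3, m2, m1, w4, w5, w6, w7, w10, w11, w12, w13, w16, w17, w18, w19, w22, w23, w24,
    w25, w28, w29, w30, w31, w34, w35, w36, w37, w40, w41, w42, w43, w46, w47, w48, w49, w52,
    w53, w54, w55, w58, w59, w60, w61, w64, w65, w66, w67, w70, w71, w72, w75, w78, w81, w84,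
    w87, w90, w93, w96, w99, w102, w105, w108] = true :=
  okS_of (by decide +kernel) (by decide +kernel)

theorem s26 : okS 647568 w72 m24 m26
    [m25, m23, m22, m21, m20, m19, m18, m17, m16, m15, m14, m13, m12, m11, m10, m9, m8, m7, m6,
    m5, m4, m3, m2, m1, w4, w5, w6, w7, w10, w11, w12, w13, w16, w17, w18, w19, w22, w23, w24,
    w25, w28, w29, w30, w31, w34, w35, w36, w37, w40, w41, w42, w43, w46, w47, w48, w49, w52,
    w53, w54, w55, w58, w59, w60, w61, w64, w65, w66, w67, w70, w71, w75, w78, w81, w84, w87,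
    w90, w93, w96, w99, w102, w105, w108] = true :=
  okS_of (by decide +kernel) (by decide +kernel)

theorem s27 : okS 612385 w70 w71 m27
    [m26, m25, m23, m22, m21, m20, m19, m18, m17, m16, m15, m14, m13, m12, m11, m10, m9, m8, m7,
    m6, m5, m4, m3, m2, m1, w4, w5, w6, w7, w10, w11, w12, w13, w16, w17, w18, w19, w22, w23,
    w24, w25, w28, w29, w30, w31, w34, w35, w36, w37, w40, w41, w42, w43, w46, w47, w48, w49,
    w52, w53, w54, w55, w58, w59, w60, w61, w64, w65, w66, w67, w75, w78, w81, w84, w87, w90,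
    w93, w96, w99, w102, w105, w108] = true :=
  okS_of (by decide +kernel) (by decide +kernel)

theorem s28 : okS 612383 m2 w108 m28
    [m27, m26, m25, m23, m22, m21, m20, m19, m18, m17, m16, m15, m14, m13, m12, m11, m10, m9, m8,
    m7, m6, m5, m4, m3, m1, w4, w5, w6, w7, w10, w11, w12, w13, w16, w17, w18, w19, w22, w23,
    w24, w25, w28, w29, w30, w31, w34, w35, w36, w37, w40, w41, w42, w43, w46, w47, w48, w49,
    w52, w53, w54, w55, w58, w59, w60, w61, w64, w65, w66, w67, w75, w78, w81, w84, w87, w90,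
    w93, w96, w99, w102, w105] = true :=
  okS_of (by decide +kernel) (by decide +kernel)

theorem s29 : okS 612063 w66 w67 m29
    [m28, m27, m26, m25, m23, m22, m21, m20, m19, m18, m17, m16, m15, m14, m13, m12, m11, m10,
    m9, m8, m7, m6, m5, m4, m3, m1, w4, w5, w6, w7, w10, w11, w12, w13, w16, w17, w18, w19, w22,
    w23, w24, w25, w28, w29, w30, w31, w34, w35, w36, w37, w40, w41, w42, w43, w46, w47, w48,
    w49, w52, w53, w54, w55, w58, w59, w60, w61, w64, w65, w75, w78, w81, w84, w87, w90, w93,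
    w96, w99, w102, w105] = true :=
  okS_of (by decide +kernel) (by decide +kernel)

end Vale.Agent.P333.Rle.V12
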