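import Vale.Agent.P333.CE.DataV12

/-!
P333: steps of the forced greedy run.
-/

namespace Vale.Agent.P333.Rle.V12

set_option maxRecDepth 100000

theorem s30 : okS 612061 w105 m28 m30
    [m29, m27, m26, m25, m23, m22, m21, m20, m19, m18, m17, m16, m15, m14, m13, m12, m11, m10,
    m9, m8, m7, m6, m5, m4, m3, m1, w4, w5, w6, w7, w10, w11, w12, w13, w16, w17, w18, w19, w22,
    w23, w24, w25, w28, w29, w30, w31, w34, w35, w36, w37, w40, w41, w42, w43, w46, w47, w48,
    w49, w52, w53, w54, w55, w58, w59, w60, w61, w64, w65, w75, w78, w81, w84, w87, w90, w93,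
    w96, w99, w102] = true :=
  okS_of (by decide +kernel) (by decide +kernel)

theorem s31 : okS 610873 w64 w65 m31
    [m30, m29, m27, m26, m25, m23, m22, m21, m20, m19, m18, m17, m16, m15, m14, m13, m12, m11,
    m10, m9, m8, m7, m6, m5, m4, m3, m1, w4, w5, w6, w7, w10, w11, w12, w13, w16, w17, w18, w19,
    w22, w23, w24, w25, w28, w29, w30, w31, w34, w35, w36, w37, w40, w41, w42, w43, w46, w47,
    w48, w49, w52, w53, w54, w55, w58, w59, w60, w61, w75, w78, w81, w84, w87, w90, w93, w96,
    w99, w102] = true :=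
  okS_of (by decide +kernel) (by decide +kernel)

theorem s32 : okS 610871 m4 m30 m32
    [m31, m29, m27, m26, m25, m23, m22, m21, m20, m19, m18, m17, m16, m15, m14, m13, m12, m11,
    m10, m9, m8, m7, m6, m5, m3, m1, w4, w5, w6, w7, w10, w11, w12, w13, w16, w17, w18, w19, w22,
    w23, w24, w25, w28, w29, w30, w31, w34, w35, w36, w37, w40, w41, w42, w43, w46, w47, w48,
    w49, w52, w53, w54, w55, w58, w59, w60, w61, w75, w78, w81, w84, w87, w90, w93, w96, w99,
    w102] = true :=
  okS_of (by decide +kernel) (by decide +kernel)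

theorem s33 : okS 610627 w60 w61 m33
    [m32, m31, m29, m27, m26, m25, m23, m22, m21, m20, m19, m18, m17, m16, m15, m14, m13, m12,
    m11, m10, m9, m8, m7, m6, m5, m3, m1, w4, w5, w6, w7, w10, w11, w12, w13, w16, w17, w18, w19,
    w22, w23, w24, w25, w28, w29, w30, w31, w34, w35, w36, w37, w40, w41, w42, w43, w46, w47,
    w48, w49, w52, w53, w54, w55, w58, w59, w75, w78, w81, w84, w87, w90, w93, w96, w99,
    w102] = true :=
  okS_of (by decide +kernel) (by decide +kernel)

theorem s34 : okS 610625 w102 m32 m34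
    [m33, m31, m29, m27, m26, m25, m23, m22, m21, m20, m19, m18, m17, m16, m15, m14, m13, m12,
    m11, m10, m9, m8, m7, m6, m5, m3, m1, w4, w5, w6, w7, w10, w11, w12, w13, w16, w17, w18, w19,
    w22, w23, w24, w25, w28, w29, w30, w31, w34, w35, w36, w37, w40, w41, w42, w43, w46, w47,
    w48, w49, w52, w53, w54, w55, w58, w59, w75, w78, w81, w84, w87, w90, w93, w96, w99] = true :=
  okS_of (by decide +kernel) (by decide +kernel)

theorem s35 : okS 609853 w54 w55 m35
    [m34, m33, m31, m29, m27, m26, m25, m23, m22, m21, m20, m19, m18, m17, m16, m15, m14, m13,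
    m12, m11, m10, m9, m8, m7, m6, m5, m3, m1, w4, w5, w6, w7, w10, w11, w12, w13, w16, w17, w18,
    w19, w22, w23, w24, w25, w28, w29, w30, w31, w34, w35, w36, w37, w40, w41, w42, w43, w46,
    w47, w48, w49, w52, w53, w58, w59, w75, w78, w81, w84, w87, w90, w93, w96, w99] = true :=
  okS_of (by decide +kernel) (by decide +kernel)

theorem s36 : okS 609851 w99 m6 m36
    [m35, m34, m33, m31, m29, m27, m26, m25, m23, m22, m21, m20, m19, m18, m17, m16, m15, m14,
    m13, m12, m11, m10, m9, m8, m7, m5, m3, m1, w4, w5, w6, w7, w10, w11, w12, w13, w16, w17,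
    w18, w19, w22, w23, w24, w25, w28, w29, w30, w31, w34, w35, w36, w37, w40, w41, w42, w43,
    w46, w47, w48, w49, w52, w53, w58, w59, w75, w78, w81, w84, w87, w90, w93, w96] = true :=
  okS_of (by decide +kernel) (by decide +kernel)

theorem s37 : okS 609760 w58 w59 m37
    [m36, m35, m34, m33, m31, m29, m27, m26, m25, m23, m22, m21, m20, m19, m18, m17, m16, m15,
    m14, m13, m12, m11, m10, m9, m8, m7, m5, m3, m1, w4, w5, w6, w7, w10, w11, w12, w13, w16,
    w17, w18, w19, w22, w23, w24, w25, w28, w29, w30, w31, w34, w35, w36, w37, w40, w41, w42,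
    w43, w46, w47, w48, w49, w52, w53, w75, w78, w81, w84, w87, w90, w93, w96] = true :=
  okS_of (by decide +kernel) (by decide +kernel)

theorem s38 : okS 609756 m36 m34 m38
    [m37, m35, m33, m31, m29, m27, m26, m25, m23, m22, m21, m20, m19, m18, m17, m16, m15, m14,
    m13, m12, m11, m10, m9, m8, m7, m5, m3, m1, w4, w5, w6, w7, w10, w11, w12, w13, w16, w17,
    w18, w19, w22, w23, w24, w25, w28, w29, w30, w31, w34, w35, w36, w37, w40, w41, w42, w43,
    w46, w47, w48, w49, w52, w53, w75, w78, w81, w84, w87, w90, w93, w96] = true :=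
  okS_of (by decide +kernel) (by decide +kernel)

theorem s39 : okS 609077 w48 w49 m39
    [m38, m37, m35, m33, m31, m29, m27, m26, m25, m23, m22, m21, m20, m19, m18, m17, m16, m15,
    m14, m13, m12, m11, m10, m9, m8, m7, m5, m3, m1, w4, w5, w6, w7, w10, w11, w12, w13, w16,
    w17, w18, w19, w22, w23, w24, w25, w28, w29, w30, w31, w34, w35, w36, w37, w40, w41, w42,
    w43, w46, w47, w52, w53, w75, w78, w81, w84, w87, w90, w93, w96] = true :=
  okS_of (by decide +kernel) (by decide +kernel)

theorem s40 : okS 609075 w96 m8 m40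
    [m39, m38, m37, m35, m33, m31, m29, m27, m26, m25, m23, m22, m21, m20, m19, m18, m17, m16,
    m15, m14, m13, m12, m11, m10, m9, m7, m5, m3, m1, w4, w5, w6, w7, w10, w11, w12, w13, w16,
    w17, w18, w19, w22, w23, w24, w25, w28, w29, w30, w31, w34, w35, w36, w37, w40, w41, w42,
    w43, w46, w47, w52, w53, w75, w78, w81, w84, w87, w90, w93] = true :=
  okS_of (by decide +kernel) (by decide +kernel)

theorem s41 : okS 608986 w52 w53 m41
    [m40, m39, m38, m37, m35, m33, m31, m29, m27, m26, m25, m23, m22, m21, m20, m19, m18, m17,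
    m16, m15, m14, m13, m12, m11, m10, m9, m7, m5, m3, m1, w4, w5, w6, w7, w10, w11, w12, w13,
    w16, w17, w18, w19, w22, w23, w24, w25, w28, w29, w30, w31, w34, w35, w36, w37, w40, w41,
    w42, w43, w46, w47, w75, w78, w81, w84, w87, w90, w93] = true :=
  okS_of (by decide +kernel) (by decide +kernel)

theorem s42 : okS 608984 m40 m38 m42
    [m41, m39, m37, m35, m33, m31, m29, m27, m26, m25, m23, m22, m21, m20, m19, m18, m17, m16,
    m15, m14, m13, m12, m11, m10, m9, m7, m5, m3, m1, w4, w5, w6, w7, w10, w11, w12, w13, w16,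
    w17, w18, w19, w22, w23, w24, w25, w28, w29, w30, w31, w34, w35, w36, w37, w40, w41, w42,
    w43, w46, w47, w75, w78, w81, w84, w87, w90, w93] = true :=
  okS_of (by decide +kernel) (by decide +kernel)

theorem s43 : okS 608303 w42 w43 m43
    [m42, m41, m39, m37, m35, m33, m31, m29, m27, m26, m25, m23, m22, m21, m20, m19, m18, m17,
    m16, m15, m14, m13, m12, m11, m10, m9, m7, m5, m3, m1, w4, w5, w6, w7, w10, w11, w12, w13,
    w16, w17, w18, w19, w22, w23, w24, w25, w28, w29, w30, w31, w34, w35, w36, w37, w40, w41,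
    w46, w47, w75, w78, w81, w84, w87, w90, w93] = true :=
  okS_of (by decide +kernel) (by decide +kernel)

theorem s44 : okS 608298 w93 m10 m44
    [m43, m42, m41, m39, m37, m35, m33, m31, m29, m27, m26, m25, m23, m22, m21, m20, m19, m18,
    m17, m16, m15, m14, m13, m12, m11, m9, m7, m5, m3, m1, w4, w5, w6, w7, w10, w11, w12, w13,
    w16, w17, w18, w19, w22, w23, w24, w25, w28, w29, w30, w31, w34, w35, w36, w37, w40, w41,
    w46, w47, w75, w78, w81, w84, w87, w90] = true :=
  okS_of (by decide +kernel) (by decide +kernel)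

theorem s45 : okS 608210 w46 w47 m45
    [m44, m43, m42, m41, m39, m37, m35, m33, m31, m29, m27, m26, m25, m23, m22, m21, m20, m19,
    m18, m17, m16, m15, m14, m13, m12, m11, m9, m7, m5, m3, m1, w4, w5, w6, w7, w10, w11, w12,
    w13, w16, w17, w18, w19, w22, w23, w24, w25, w28, w29, w30, w31, w34, w35, w36, w37, w40,
    w41, w75, w78, w81, w84, w87, w90] = true :=
  okS_of (by decide +kernel) (by decide +kernel)

end Vale.Agent.P333.Rle.V12
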