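import Vale.Agent.P333.CE.DataV12

/-!
P333: steps of the forced greedy run.
-/

namespace Vale.Agent.P333.Rle.V12

set_option maxRecDepth 100000

theorem s46 : okS 608206 m44 m42 m46
    [m45, m43, m41, m39, m37, m35, m33, m31, m29, m27, m26, m25, m23, m22, m21, m20, m19, m18,
    m17, m16, m15, m14, m13, m12, m11, m9, m7, m5, m3, m1, w4, w5, w6, w7, w10, w11, w12, w13,
    w16, w17, w18, w19, w22, w23, w24, w25, w28, w29, w30, w31, w34, w35, w36, w37, w40, w41,
    w75, w78, w81, w84, w87, w90] = true :=
  okS_of (by decide +kernel) (by decide +kernel)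

theorem s47 : okS 607529 w36 w37 m47
    [m46, m45, m43, m41, m39, m37, m35, m33, m31, m29, m27, m26, m25, m23, m22, m21, m20, m19,
    m18, m17, m16, m15, m14, m13, m12, m11, m9, m7, m5, m3, m1, w4, w5, w6, w7, w10, w11, w12,
    w13, w16, w17, w18, w19, w22, w23, w24, w25, w28, w29, w30, w31, w34, w35, w40, w41, w75,
    w78, w81, w84, w87, w90] = true :=
  okS_of (by decide +kernel) (by decide +kernel)

theorem s48 : okS 607527 w90 m12 m48
    [m47, m46, m45, m43, m41, m39, m37, m35, m33, m31, m29, m27, m26, m25, m23, m22, m21, m20,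
    m19, m18, m17, m16, m15, m14, m13, m11, m9, m7, m5, m3, m1, w4, w5, w6, w7, w10, w11, w12,
    w13, w16, w17, w18, w19, w22, w23, w24, w25, w28, w29, w30, w31, w34, w35, w40, w41, w75,
    w78, w81, w84, w87] = true :=
  okS_of (by decide +kernel) (by decide +kernel)

theorem s49 : okS 607436 w40 w41 m49
    [m48, m47, m46, m45, m43, m41, m39, m37, m35, m33, m31, m29, m27, m26, m25, m23, m22, m21,
    m20, m19, m18, m17, m16, m15, m14, m13, m11, m9, m7, m5, m3, m1, w4, w5, w6, w7, w10, w11,
    w12, w13, w16, w17, w18, w19, w22, w23, w24, w25, w28, w29, w30, w31, w34, w35, w75, w78,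
    w81, w84, w87] = true :=
  okS_of (by decide +kernel) (by decide +kernel)

theorem s50 : okS 607432 m48 m46 m50
    [m49, m47, m45, m43, m41, m39, m37, m35, m33, m31, m29, m27, m26, m25, m23, m22, m21, m20,
    m19, m18, m17, m16, m15, m14, m13, m11, m9, m7, m5, m3, m1, w4, w5, w6, w7, w10, w11, w12,
    w13, w16, w17, w18, w19, w22, w23, w24, w25, w28, w29, w30, w31, w34, w35, w75, w78, w81,
    w84, w87] = true :=
  okS_of (by decide +kernel) (by decide +kernel)

theorem s51 : okS 606735 w30 w31 m51
    [m50, m49, m47, m45, m43, m41, m39, m37, m35, m33, m31, m29, m27, m26, m25, m23, m22, m21,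
    m20, m19, m18, m17, m16, m15, m14, m13, m11, m9, m7, m5, m3, m1, w4, w5, w6, w7, w10, w11,
    w12, w13, w16, w17, w18, w19, w22, w23, w24, w25, w28, w29, w34, w35, w75, w78, w81, w84,
    w87] = true :=
  okS_of (by decide +kernel) (by decide +kernel)

theorem s52 : okS 606733 w87 m14 m52
    [m51, m50, m49, m47, m45, m43, m41, m39, m37, m35, m33, m31, m29, m27, m26, m25, m23, m22,
    m21, m20, m19, m18, m17, m16, m15, m13, m11, m9, m7, m5, m3, m1, w4, w5, w6, w7, w10, w11,
    w12, w13, w16, w17, w18, w19, w22, w23, w24, w25, w28, w29, w34, w35, w75, w78, w81,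
    w84] = true :=
  okS_of (by decide +kernel) (by decide +kernel)

theorem s53 : okS 606662 w34 w35 m53
    [m52, m51, m50, m49, m47, m45, m43, m41, m39, m37, m35, m33, m31, m29, m27, m26, m25, m23,
    m22, m21, m20, m19, m18, m17, m16, m15, m13, m11, m9, m7, m5, m3, m1, w4, w5, w6, w7, w10,
    w11, w12, w13, w16, w17, w18, w19, w22, w23, w24, w25, w28, w29, w75, w78, w81, w84] = true :=
  okS_of (by decide +kernel) (by decide +kernel)

theorem s54 : okS 606660 m52 m50 m54
    [m53, m51, m49, m47, m45, m43, m41, m39, m37, m35, m33, m31, m29, m27, m26, m25, m23, m22,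
    m21, m20, m19, m18, m17, m16, m15, m13, m11, m9, m7, m5, m3, m1, w4, w5, w6, w7, w10, w11,
    w12, w13, w16, w17, w18, w19, w22, w23, w24, w25, w28, w29, w75, w78, w81, w84] = true :=
  okS_of (by decide +kernel) (by decide +kernel)

theorem s55 : okS 605941 w24 w25 m55
    [m54, m53, m51, m49, m47, m45, m43, m41, m39, m37, m35, m33, m31, m29, m27, m26, m25, m23,
    m22, m21, m20, m19, m18, m17, m16, m15, m13, m11, m9, m7, m5, m3, m1, w4, w5, w6, w7, w10,
    w11, w12, w13, w16, w17, w18, w19, w22, w23, w28, w29, w75, w78, w81, w84] = true :=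
  okS_of (by decide +kernel) (by decide +kernel)

theorem s56 : okS 605939 w84 m16 m56
    [m55, m54, m53, m51, m49, m47, m45, m43, m41, m39, m37, m35, m33, m31, m29, m27, m26, m25,
    m23, m22, m21, m20, m19, m18, m17, m15, m13, m11, m9, m7, m5, m3, m1, w4, w5, w6, w7, w10,
    w11, w12, w13, w16, w17, w18, w19, w22, w23, w28, w29, w75, w78, w81] = true :=
  okS_of (by decide +kernel) (by decide +kernel)

theorem s57 : okS 605848 w28 w29 m57
    [m56, m55, m54, m53, m51, m49, m47, m45, m43, m41, m39, m37, m35, m33, m31, m29, m27, m26,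
    m25, m23, m22, m21, m20, m19, m18, m17, m15, m13, m11, m9, m7, m5, m3, m1, w4, w5, w6, w7,
    w10, w11, w12, w13, w16, w17, w18, w19, w22, w23, w75, w78, w81] = true :=
  okS_of (by decide +kernel) (by decide +kernel)

theorem s58 : okS 605843 m56 m54 m58
    [m57, m55, m53, m51, m49, m47, m45, m43, m41, m39, m37, m35, m33, m31, m29, m27, m26, m25,
    m23, m22, m21, m20, m19, m18, m17, m15, m13, m11, m9, m7, m5, m3, m1, w4, w5, w6, w7, w10,
    w11, w12, w13, w16, w17, w18, w19, w22, w23, w75, w78, w81] = true :=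
  okS_of (by decide +kernel) (by decide +kernel)

theorem s59 : okS 605107 w18 w19 m59
    [m58, m57, m55, m53, m51, m49, m47, m45, m43, m41, m39, m37, m35, m33, m31, m29, m27, m26,
    m25, m23, m22, m21, m20, m19, m18, m17, m15, m13, m11, m9, m7, m5, m3, m1, w4, w5, w6, w7,
    w10, w11, w12, w13, w16, w17, w22, w23, w75, w78, w81] = true :=
  okS_of (by decide +kernel) (by decide +kernel)

theorem s60 : okS 605105 w81 m18 m60
    [m59, m58, m57, m55, m53, m51, m49, m47, m45, m43, m41, m39, m37, m35, m33, m31, m29, m27,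
    m26, m25, m23, m22, m21, m20, m19, m17, m15, m13, m11, m9, m7, m5, m3, m1, w4, w5, w6, w7,
    w10, w11, w12, w13, w16, w17, w22, w23, w75, w78] = true :=
  okS_of (by decide +kernel) (by decide +kernel)

theorem s61 : okS 605045 w22 w23 m61
    [m60, m59, m58, m57, m55, m53, m51, m49, m47, m45, m43, m41, m39, m37, m35, m33, m31, m29,
    m27, m26, m25, m23, m22, m21, m20, m19, m17, m15, m13, m11, m9, m7, m5, m3, m1, w4, w5, w6,
    w7, w10, w11, w12, w13, w16, w17, w75, w78] = true :=
  okS_of (by decide +kernel) (by decide +kernel)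

theorem s62 : okS 605043 m60 m58 m62
    [m61, m59, m57, m55, m53, m51, m49, m47, m45, m43, m41, m39, m37, m35, m33, m31, m29, m27,
    m26, m25, m23, m22, m21, m20, m19, m17, m15, m13, m11, m9, m7, m5, m3, m1, w4, w5, w6, w7,
    w10, w11, w12, w13, w16, w17, w75, w78] = true :=
  okS_of (by decide +kernel) (by decide +kernel)

theorem s63 : okS 604336 w12 w13 m63
    [m62, m61, m59, m57, m55, m53, m51, m49, m47, m45, m43, m41, m39, m37, m35, m33, m31, m29,
    m27, m26, m25, m23, m22, m21, m20, m19, m17, m15, m13, m11, m9, m7, m5, m3, m1, w4, w5, w6,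
    w7, w10, w11, w16, w17, w75, w78] = true :=
  okS_of (by decide +kernel) (by decide +kernel)

theorem s64 : okS 604332 w78 m20 m64
    [m63, m62, m61, m59, m57, m55, m53, m51, m49, m47, m45, m43, m41, m39, m37, m35, m33, m31,
    m29, m27, m26, m25, m23, m22, m21, m19, m17, m15, m13, m11, m9, m7, m5, m3, m1, w4, w5, w6,
    w7, w10, w11, w16, w17, w75] = true :=
  okS_of (by decide +kernel) (by decide +kernel)

theorem s65 : okS 604240 w16 w17 m65
    [m64, m63, m62, m61, m59, m57, m55, m53, m51, m49, m47, m45, m43, m41, m39, m37, m35, m33,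
    m31, m29, m27, m26, m25, m23, m22, m21, m19, m17, m15, m13, m11, m9, m7, m5, m3, m1, w4, w5,
    w6, w7, w10, w11, w75] = true :=
  okS_of (by decide +kernel) (by decide +kernel)

theorem s66 : okS 604238 m64 m62 m66
    [m65, m63, m61, m59, m57, m55, m53, m51, m49, m47, m45, m43, m41, m39, m37, m35, m33, m31,
    m29, m27, m26, m25, m23, m22, m21, m19, m17, m15, m13, m11, m9, m7, m5, m3, m1, w4, w5, w6,
    w7, w10, w11, w75] = true :=
  okS_of (by decide +kernel) (by decide +kernel)

theorem s67 : okS 603551 w6 w7 m67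
    [m66, m65, m63, m61, m59, m57, m55, m53, m51, m49, m47, m45, m43, m41, m39, m37, m35, m33,
    m31, m29, m27, m26, m25, m23, m22, m21, m19, m17, m15, m13, m11, m9, m7, m5, m3, m1, w4, w5,
    w10, w11, w75] = true :=
  okS_of (by decide +kernel) (by decide +kernel)

theorem s68 : okS 603545 w75 m22 m68
    [m67, m66, m65, m63, m61, m59, m57, m55, m53, m51, m49, m47, m45, m43, m41, m39, m37, m35,
    m33, m31, m29, m27, m26, m25, m23, m21, m19, m17, m15, m13, m11, m9, m7, m5, m3, m1, w4, w5,
    w10, w11] = true :=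
  okS_of (by decide +kernel) (by decide +kernel)

theorem s69 : okS 603478 w10 w11 m69
    [m68, m67, m66, m65, m63, m61, m59, m57, m55, m53, m51, m49, m47, m45, m43, m41, m39, m37,
    m35, m33, m31, m29, m27, m26, m25, m23, m21, m19, m17, m15, m13, m11, m9, m7, m5, m3, m1, w4,
    w5] = true :=
  okS_of (by decide +kernel) (by decide +kernel)

theorem s70 : okS 603476 m68 m66 m70
    [m69, m67, m65, m63, m61, m59, m57, m55, m53, m51, m49, m47, m45, m43, m41, m39, m37, m35,
    m33, m31, m29, m27, m26, m25, m23, m21, m19, m17, m15, m13, m11, m9, m7, m5, m3, m1, w4,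
    w5] = true :=
  okS_of (by decide +kernel) (by decide +kernel)

theorem s71 : okS 602684 w4 w5 m71
    [m70, m69, m67, m65, m63, m61, m59, m57, m55, m53, m51, m49, m47, m45, m43, m41, m39, m37,
    m35, m33, m31, m29, m27, m26, m25, m23, m21, m19, m17, m15, m13, m11, m9, m7, m5, m3,
    m1] = true :=
  okS_of (by decide +kernel) (by decide +kernel)

theorem s72 : okS 602682 m26 m70 m72
    [m71, m69, m67, m65, m63, m61, m59, m57, m55, m53, m51, m49, m47, m45, m43, m41, m39, m37,
    m35, m33, m31, m29, m27, m25, m23, m21, m19, m17, m15, m13, m11, m9, m7, m5, m3, m1] = true :=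
  okS_of (by decide +kernel) (by decide +kernel)

theorem s73 : okS 305600 m27 m1 m73
    [m72, m71, m69, m67, m65, m63, m61, m59, m57, m55, m53, m51, m49, m47, m45, m43, m41, m39,
    m37, m35, m33, m31, m29, m25, m23, m21, m19, m17, m15, m13, m11, m9, m7, m5, m3] = true :=
  okS_of (by decide +kernel) (by decide +kernel)

theorem s74 : okS 304586 m31 m3 m74
    [m73, m72, m71, m69, m67, m65, m63, m61, m59, m57, m55, m53, m51, m49, m47, m45, m43, m41,
    m39, m37, m35, m33, m29, m25, m23, m21, m19, m17, m15, m13, m11, m9, m7, m5] = true :=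
  okS_of (by decide +kernel) (by decide +kernel)

theorem s75 : okS 304197 m37 m5 m75
    [m74, m73, m72, m71, m69, m67, m65, m63, m61, m59, m57, m55, m53, m51, m49, m47, m45, m43,
    m41, m39, m35, m33, m29, m25, m23, m21, m19, m17, m15, m13, m11, m9, m7] = true :=
  okS_of (by decide +kernel) (by decide +kernel)

theorem s76 : okS 303816 m41 m7 m76
    [m75, m74, m73, m72, m71, m69, m67, m65, m63, m61, m59, m57, m55, m53, m51, m49, m47, m45,
    m43, m39, m35, m33, m29, m25, m23, m21, m19, m17, m15, m13, m11, m9] = true :=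
  okS_of (by decide +kernel) (by decide +kernel)

theorem s77 : okS 303416 m45 m9 m77
    [m76, m75, m74, m73, m72, m71, m69, m67, m65, m63, m61, m59, m57, m55, m53, m51, m49, m47,
    m43, m39, m35, m33, m29, m25, m23, m21, m19, m17, m15, m13, m11] = true :=
  okS_of (by decide +kernel) (by decide +kernel)

theorem s78 : okS 303043 m49 m11 m78
    [m77, m76, m75, m74, m73, m72, m71, m69, m67, m65, m63, m61, m59, m57, m55, m53, m51, m47,
    m43, m39, m35, m33, m29, m25, m23, m21, m19, m17, m15, m13] = true :=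
  okS_of (by decide +kernel) (by decide +kernel)

theorem s79 : okS 302667 m53 m13 m79
    [m78, m77, m76, m75, m74, m73, m72, m71, m69, m67, m65, m63, m61, m59, m57, m55, m51, m47,
    m43, m39, m35, m33, m29, m25, m23, m21, m19, m17, m15] = true :=
  okS_of (by decide +kernel) (by decide +kernel)

theorem s80 : okS 302241 m57 m15 m80
    [m79, m78, m77, m76, m75, m74, m73, m72, m71, m69, m67, m65, m63, m61, m59, m55, m51, m47,
    m43, m39, m35, m33, m29, m25, m23, m21, m19, m17] = true :=
  okS_of (by decide +kernel) (by decide +kernel)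

theorem s81 : okS 301841 m61 m17 m81
    [m80, m79, m78, m77, m76, m75, m74, m73, m72, m71, m69, m67, m65, m63, m59, m55, m51, m47,
    m43, m39, m35, m33, m29, m25, m23, m21, m19] = true :=
  okS_of (by decide +kernel) (by decide +kernel)

theorem s82 : okS 301461 m65 m19 m82
    [m81, m80, m79, m78, m77, m76, m75, m74, m73, m72, m71, m69, m67, m63, m59, m55, m51, m47,
    m43, m39, m35, m33, m29, m25, m23, m21] = true :=
  okS_of (by decide +kernel) (by decide +kernel)

theorem s83 : okS 301038 m69 m21 m83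
    [m82, m81, m80, m79, m78, m77, m76, m75, m74, m73, m72, m71, m67, m63, m59, m55, m51, m47,
    m43, m39, m35, m33, m29, m25, m23] = true :=
  okS_of (by decide +kernel) (by decide +kernel)

theorem s84 : okS 300704 m71 m23 m84
    [m83, m82, m81, m80, m79, m78, m77, m76, m75, m74, m73, m72, m67, m63, m59, m55, m51, m47,
    m43, m39, m35, m33, m29, m25] = true :=
  okS_of (by decide +kernel) (by decide +kernel)

theorem s85 : okS 44703 m84 m25 m85
    [m83, m82, m81, m80, m79, m78, m77, m76, m75, m74, m73, m72, m67, m63, m59, m55, m51, m47,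
    m43, m39, m35, m33, m29] = true :=
  okS_of (by decide +kernel) (by decide +kernel)

end Vale.Agent.P333.Rle.V12
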