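import Vale.Agent.P333.CE.StV12A
import Vale.Agent.P333.CE.StV12B
import Vale.Agent.P333.CE.StV12C
import Vale.Agent.P333.CE.StV12D
import Vale.Agent.P333.CE.StV12E

/-!
P333: the forced greedy run.
-/

namespace Vale.Agent.P333.Rle.V12

set_option maxRecDepth 100000

theorem last : okE 40440182 137 [m85, m83, m82, m81, m80, m79, m78, m77, m76, m75, m74, m73, m72,
    m67, m63, m59, m55, m51, m47, m43, m39, m35, m33, m29] = true := by decide +kernel

theorem c86 : Valid [m85, m83, m82, m81, m80, m79, m78, m77, m76, m75, m74, m73, m72, m67, m63,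
    m59, m55, m51, m47, m43, m39, m35, m33, m29] → Concl 40440182 [m85, m83, m82, m81, m80, m79,
    m78, m77, m76, m75, m74, m73, m72, m67, m63, m59, m55, m51, m47, m43, m39, m35, m33,
    m29] := finish last

theorem c85 : Valid [m84, m83, m82, m81, m80, m79, m78, m77, m76, m75, m74, m73, m72, m67, m63,
    m59, m55, m51, m47, m43, m39, m35, m33, m29, m25] →
    Concl 40440182 [m84, m83, m82, m81, m80, m79, m78, m77, m76, m75, m74, m73, m72, m67, m63,
    m59, m55, m51, m47, m43, m39, m35, m33, m29, m25] :=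
  next (i := 0) (j := 23) rfl rfl s85 c86

theorem c84 : Valid [m83, m82, m81, m80, m79, m78, m77, m76, m75, m74, m73, m72, m71, m67, m63,
    m59, m55, m51, m47, m43, m39, m35, m33, m29, m25, m23] →
    Concl 40440182 [m83, m82, m81, m80, m79, m78, m77, m76, m75, m74, m73, m72, m71, m67, m63,
    m59, m55, m51, m47, m43, m39, m35, m33, m29, m25, m23] :=
  next (i := 12) (j := 24) rfl rfl s84 c85

theorem c83 : Valid [m82, m81, m80, m79, m78, m77, m76, m75, m74, m73, m72, m71, m69, m67, m63,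
    m59, m55, m51, m47, m43, m39, m35, m33, m29, m25, m23, m21] →
    Concl 40440182 [m82, m81, m80, m79, m78, m77, m76, m75, m74, m73, m72, m71, m69, m67, m63,
    m59, m55, m51, m47, m43, m39, m35, m33, m29, m25, m23, m21] :=
  next (i := 12) (j := 25) rfl rfl s83 c84

theorem c82 : Valid [m81, m80, m79, m78, m77, m76, m75, m74, m73, m72, m71, m69, m67, m65, m63,
    m59, m55, m51, m47, m43, m39, m35, m33, m29, m25, m23, m21, m19] →
    Concl 40440182 [m81, m80, m79, m78, m77, m76, m75, m74, m73, m72, m71, m69, m67, m65, m63,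
    m59, m55, m51, m47, m43, m39, m35, m33, m29, m25, m23, m21, m19] :=
  next (i := 13) (j := 26) rfl rfl s82 c83

theorem c81 : Valid [m80, m79, m78, m77, m76, m75, m74, m73, m72, m71, m69, m67, m65, m63, m61,
    m59, m55, m51, m47, m43, m39, m35, m33, m29, m25, m23, m21, m19, m17] →
    Concl 40440182 [m80, m79, m78, m77, m76, m75, m74, m73, m72, m71, m69, m67, m65, m63, m61,
    m59, m55, m51, m47, m43, m39, m35, m33, m29, m25, m23, m21, m19, m17] :=
  next (i := 14) (j := 27) rfl rfl s81 c82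

theorem c80 : Valid [m79, m78, m77, m76, m75, m74, m73, m72, m71, m69, m67, m65, m63, m61, m59,
    m57, m55, m51, m47, m43, m39, m35, m33, m29, m25, m23, m21, m19, m17, m15] →
    Concl 40440182 [m79, m78, m77, m76, m75, m74, m73, m72, m71, m69, m67, m65, m63, m61, m59,
    m57, m55, m51, m47, m43, m39, m35, m33, m29, m25, m23, m21, m19, m17, m15] :=
  next (i := 15) (j := 28) rfl rfl s80 c81

theorem c79 : Valid [m78, m77, m76, m75, m74, m73, m72, m71, m69, m67, m65, m63, m61, m59, m57,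
    m55, m53, m51, m47, m43, m39, m35, m33, m29, m25, m23, m21, m19, m17, m15, m13] →
    Concl 40440182 [m78, m77, m76, m75, m74, m73, m72, m71, m69, m67, m65, m63, m61, m59, m57,
    m55, m53, m51, m47, m43, m39, m35, m33, m29, m25, m23, m21, m19, m17, m15, m13] :=
  next (i := 16) (j := 29) rfl rfl s79 c80

theorem c78 : Valid [m77, m76, m75, m74, m73, m72, m71, m69, m67, m65, m63, m61, m59, m57, m55,
    m53, m51, m49, m47, m43, m39, m35, m33, m29, m25, m23, m21, m19, m17, m15, m13, m11] →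
    Concl 40440182 [m77, m76, m75, m74, m73, m72, m71, m69, m67, m65, m63, m61, m59, m57, m55,
    m53, m51, m49, m47, m43, m39, m35, m33, m29, m25, m23, m21, m19, m17, m15, m13, m11] :=
  next (i := 17) (j := 30) rfl rfl s78 c79

theorem c77 : Valid [m76, m75, m74, m73, m72, m71, m69, m67, m65, m63, m61, m59, m57, m55, m53,
    m51, m49, m47, m45, m43, m39, m35, m33, m29, m25, m23, m21, m19, m17, m15, m13, m11, m9] →
    Concl 40440182 [m76, m75, m74, m73, m72, m71, m69, m67, m65, m63, m61, m59, m57, m55, m53,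
    m51, m49, m47, m45, m43, m39, m35, m33, m29, m25, m23, m21, m19, m17, m15, m13, m11, m9] :=
  next (i := 18) (j := 31) rfl rfl s77 c78

theorem c76 : Valid [m75, m74, m73, m72, m71, m69, m67, m65, m63, m61, m59, m57, m55, m53, m51,
    m49, m47, m45, m43, m41, m39, m35, m33, m29, m25, m23, m21, m19, m17, m15, m13, m11, m9, m7] →
    Concl 40440182 [m75, m74, m73, m72, m71, m69, m67, m65, m63, m61, m59, m57, m55, m53, m51,
    m49, m47, m45, m43, m41, m39, m35, m33, m29, m25, m23, m21, m19, m17, m15, m13, m11, m9,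
    m7] :=
  next (i := 19) (j := 32) rfl rfl s76 c77

theorem c75 : Valid [m74, m73, m72, m71, m69, m67, m65, m63, m61, m59, m57, m55, m53, m51, m49,
    m47, m45, m43, m41, m39, m37, m35, m33, m29, m25, m23, m21, m19, m17, m15, m13, m11, m9, m7,
    m5] →
    Concl 40440182 [m74, m73, m72, m71, m69, m67, m65, m63, m61, m59, m57, m55, m53, m51, m49,
    m47, m45, m43, m41, m39, m37, m35, m33, m29, m25, m23, m21, m19, m17, m15, m13, m11, m9, m7,
    m5] :=
  next (i := 20) (j := 33) rfl rfl s75 c76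

theorem c74 : Valid [m73, m72, m71, m69, m67, m65, m63, m61, m59, m57, m55, m53, m51, m49, m47,
    m45, m43, m41, m39, m37, m35, m33, m31, m29, m25, m23, m21, m19, m17, m15, m13, m11, m9, m7,
    m5, m3] →
    Concl 40440182 [m73, m72, m71, m69, m67, m65, m63, m61, m59, m57, m55, m53, m51, m49, m47,
    m45, m43, m41, m39, m37, m35, m33, m31, m29, m25, m23, m21, m19, m17, m15, m13, m11, m9, m7,
    m5, m3] :=
  next (i := 22) (j := 34) rfl rfl s74 c75

theorem c73 : Valid [m72, m71, m69, m67, m65, m63, m61, m59, m57, m55, m53, m51, m49, m47, m45,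
    m43, m41, m39, m37, m35, m33, m31, m29, m27, m25, m23, m21, m19, m17, m15, m13, m11, m9, m7,
    m5, m3, m1] →
    Concl 40440182 [m72, m71, m69, m67, m65, m63, m61, m59, m57, m55, m53, m51, m49, m47, m45,
    m43, m41, m39, m37, m35, m33, m31, m29, m27, m25, m23, m21, m19, m17, m15, m13, m11, m9, m7,
    m5, m3, m1] :=
  next (i := 23) (j := 35) rfl rfl s73 c74

theorem c72 : Valid [m71, m70, m69, m67, m65, m63, m61, m59, m57, m55, m53, m51, m49, m47, m45,
    m43, m41, m39, m37, m35, m33, m31, m29, m27, m26, m25, m23, m21, m19, m17, m15, m13, m11, m9,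
    m7, m5, m3, m1] →
    Concl 40440182 [m71, m70, m69, m67, m65, m63, m61, m59, m57, m55, m53, m51, m49, m47, m45,
    m43, m41, m39, m37, m35, m33, m31, m29, m27, m26, m25, m23, m21, m19, m17, m15, m13, m11, m9,
    m7, m5, m3, m1] :=
  next (i := 24) (j := 1) rfl rfl s72 c73

theorem c71 : Valid [m70, m69, m67, m65, m63, m61, m59, m57, m55, m53, m51, m49, m47, m45, m43,
    m41, m39, m37, m35, m33, m31, m29, m27, m26, m25, m23, m21, m19, m17, m15, m13, m11, m9, m7,
    m5, m3, m1, w4, w5] →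
    Concl 40440182 [m70, m69, m67, m65, m63, m61, m59, m57, m55, m53, m51, m49, m47, m45, m43,
    m41, m39, m37, m35, m33, m31, m29, m27, m26, m25, m23, m21, m19, m17, m15, m13, m11, m9, m7,
    m5, m3, m1, w4, w5] :=
  next (i := 37) (j := 37) rfl rfl s71 c72

theorem c70 : Valid [m69, m68, m67, m66, m65, m63, m61, m59, m57, m55, m53, m51, m49, m47, m45,
    m43, m41, m39, m37, m35, m33, m31, m29, m27, m26, m25, m23, m21, m19, m17, m15, m13, m11, m9,
    m7, m5, m3, m1, w4, w5] →
    Concl 40440182 [m69, m68, m67, m66, m65, m63, m61, m59, m57, m55, m53, m51, m49, m47, m45,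
    m43, m41, m39, m37, m35, m33, m31, m29, m27, m26, m25, m23, m21, m19, m17, m15, m13, m11, m9,
    m7, m5, m3, m1, w4, w5] :=
  next (i := 1) (j := 2) rfl rfl s70 c71

theorem c69 : Valid [m68, m67, m66, m65, m63, m61, m59, m57, m55, m53, m51, m49, m47, m45, m43,
    m41, m39, m37, m35, m33, m31, m29, m27, m26, m25, m23, m21, m19, m17, m15, m13, m11, m9, m7,
    m5, m3, m1, w4, w5, w10, w11] →
    Concl 40440182 [m68, m67, m66, m65, m63, m61, m59, m57, m55, m53, m51, m49, m47, m45, m43,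
    m41, m39, m37, m35, m33, m31, m29, m27, m26, m25, m23, m21, m19, m17, m15, m13, m11, m9, m7,
    m5, m3, m1, w4, w5, w10, w11] :=
  next (i := 39) (j := 39) rfl rfl s69 c70

theorem c68 : Valid [m67, m66, m65, m63, m61, m59, m57, m55, m53, m51, m49, m47, m45, m43, m41,
    m39, m37, m35, m33, m31, m29, m27, m26, m25, m23, m22, m21, m19, m17, m15, m13, m11, m9, m7,
    m5, m3, m1, w4, w5, w10, w11, w75] →
    Concl 40440182 [m67, m66, m65, m63, m61, m59, m57, m55, m53, m51, m49, m47, m45, m43, m41,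
    m39, m37, m35, m33, m31, m29, m27, m26, m25, m23, m22, m21, m19, m17, m15, m13, m11, m9, m7,
    m5, m3, m1, w4, w5, w10, w11, w75] :=
  next (i := 41) (j := 25) rfl rfl s68 c69

theorem c67 : Valid [m66, m65, m63, m61, m59, m57, m55, m53, m51, m49, m47, m45, m43, m41, m39,
    m37, m35, m33, m31, m29, m27, m26, m25, m23, m22, m21, m19, m17, m15, m13, m11, m9, m7, m5,
    m3, m1, w4, w5, w6, w7, w10, w11, w75] →
    Concl 40440182 [m66, m65, m63, m61, m59, m57, m55, m53, m51, m49, m47, m45, m43, m41, m39,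
    m37, m35, m33, m31, m29, m27, m26, m25, m23, m22, m21, m19, m17, m15, m13, m11, m9, m7, m5,
    m3, m1, w4, w5, w6, w7, w10, w11, w75] :=
  next (i := 38) (j := 38) rfl rfl s67 c68

theorem c66 : Valid [m65, m64, m63, m62, m61, m59, m57, m55, m53, m51, m49, m47, m45, m43, m41,
    m39, m37, m35, m33, m31, m29, m27, m26, m25, m23, m22, m21, m19, m17, m15, m13, m11, m9, m7,
    m5, m3, m1, w4, w5, w6, w7, w10, w11, w75] →
    Concl 40440182 [m65, m64, m63, m62, m61, m59, m57, m55, m53, m51, m49, m47, m45, m43, m41,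
    m39, m37, m35, m33, m31, m29, m27, m26, m25, m23, m22, m21, m19, m17, m15, m13, m11, m9, m7,
    m5, m3, m1, w4, w5, w6, w7, w10, w11, w75] :=
  next (i := 1) (j := 2) rfl rfl s66 c67

theorem c65 : Valid [m64, m63, m62, m61, m59, m57, m55, m53, m51, m49, m47, m45, m43, m41, m39,
    m37, m35, m33, m31, m29, m27, m26, m25, m23, m22, m21, m19, m17, m15, m13, m11, m9, m7, m5,
    m3, m1, w4, w5, w6, w7, w10, w11, w16, w17, w75] →
    Concl 40440182 [m64, m63, m62, m61, m59, m57, m55, m53, m51, m49, m47, m45, m43, m41, m39,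
    m37, m35, m33, m31, m29, m27, m26, m25, m23, m22, m21, m19, m17, m15, m13, m11, m9, m7, m5,
    m3, m1, w4, w5, w6, w7, w10, w11, w16, w17, w75] :=
  next (i := 42) (j := 42) rfl rfl s65 c66

theorem c64 : Valid [m63, m62, m61, m59, m57, m55, m53, m51, m49, m47, m45, m43, m41, m39, m37,
    m35, m33, m31, m29, m27, m26, m25, m23, m22, m21, m20, m19, m17, m15, m13, m11, m9, m7, m5,
    m3, m1, w4, w5, w6, w7, w10, w11, w16, w17, w75, w78] →
    Concl 40440182 [m63, m62, m61, m59, m57, m55, m53, m51, m49, m47, m45, m43, m41, m39, m37,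
    m35, m33, m31, m29, m27, m26, m25, m23, m22, m21, m20, m19, m17, m15, m13, m11, m9, m7, m5,
    m3, m1, w4, w5, w6, w7, w10, w11, w16, w17, w75, w78] :=
  next (i := 45) (j := 25) rfl rfl s64 c65

theorem c63 : Valid [m62, m61, m59, m57, m55, m53, m51, m49, m47, m45, m43, m41, m39, m37, m35,
    m33, m31, m29, m27, m26, m25, m23, m22, m21, m20, m19, m17, m15, m13, m11, m9, m7, m5, m3,
    m1, w4, w5, w6, w7, w10, w11, w12, w13, w16, w17, w75, w78] →
    Concl 40440182 [m62, m61, m59, m57, m55, m53, m51, m49, m47, m45, m43, m41, m39, m37, m35,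
    m33, m31, m29, m27, m26, m25, m23, m22, m21, m20, m19, m17, m15, m13, m11, m9, m7, m5, m3,
    m1, w4, w5, w6, w7, w10, w11, w12, w13, w16, w17, w75, w78] :=
  next (i := 41) (j := 41) rfl rfl s63 c64

theorem c62 : Valid [m61, m60, m59, m58, m57, m55, m53, m51, m49, m47, m45, m43, m41, m39, m37,
    m35, m33, m31, m29, m27, m26, m25, m23, m22, m21, m20, m19, m17, m15, m13, m11, m9, m7, m5,
    m3, m1, w4, w5, w6, w7, w10, w11, w12, w13, w16, w17, w75, w78] →
    Concl 40440182 [m61, m60, m59, m58, m57, m55, m53, m51, m49, m47, m45, m43, m41, m39, m37,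
    m35, m33, m31, m29, m27, m26, m25, m23, m22, m21, m20, m19, m17, m15, m13, m11, m9, m7, m5,
    m3, m1, w4, w5, w6, w7, w10, w11, w12, w13, w16, w17, w75, w78] :=
  next (i := 1) (j := 2) rfl rfl s62 c63

theorem c61 : Valid [m60, m59, m58, m57, m55, m53, m51, m49, m47, m45, m43, m41, m39, m37, m35,
    m33, m31, m29, m27, m26, m25, m23, m22, m21, m20, m19, m17, m15, m13, m11, m9, m7, m5, m3,
    m1, w4, w5, w6, w7, w10, w11, w12, w13, w16, w17, w22, w23, w75, w78] →
    Concl 40440182 [m60, m59, m58, m57, m55, m53, m51, m49, m47, m45, m43, m41, m39, m37, m35,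
    m33, m31, m29, m27, m26, m25, m23, m22, m21, m20, m19, m17, m15, m13, m11, m9, m7, m5, m3,
    m1, w4, w5, w6, w7, w10, w11, w12, w13, w16, w17, w22, w23, w75, w78] :=
  next (i := 45) (j := 45) rfl rfl s61 c62

theorem c60 : Valid [m59, m58, m57, m55, m53, m51, m49, m47, m45, m43, m41, m39, m37, m35, m33,
    m31, m29, m27, m26, m25, m23, m22, m21, m20, m19, m18, m17, m15, m13, m11, m9, m7, m5, m3,
    m1, w4, w5, w6, w7, w10, w11, w12, w13, w16, w17, w22, w23, w75, w78, w81] →
    Concl 40440182 [m59, m58, m57, m55, m53, m51, m49, m47, m45, m43, m41, m39, m37, m35, m33,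
    m31, m29, m27, m26, m25, m23, m22, m21, m20, m19, m18, m17, m15, m13, m11, m9, m7, m5, m3,
    m1, w4, w5, w6, w7, w10, w11, w12, w13, w16, w17, w22, w23, w75, w78, w81] :=
  next (i := 49) (j := 25) rfl rfl s60 c61

theorem c59 : Valid [m58, m57, m55, m53, m51, m49, m47, m45, m43, m41, m39, m37, m35, m33, m31,
    m29, m27, m26, m25, m23, m22, m21, m20, m19, m18, m17, m15, m13, m11, m9, m7, m5, m3, m1, w4,
    w5, w6, w7, w10, w11, w12, w13, w16, w17, w18, w19, w22, w23, w75, w78, w81] →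
    Concl 40440182 [m58, m57, m55, m53, m51, m49, m47, m45, m43, m41, m39, m37, m35, m33, m31,
    m29, m27, m26, m25, m23, m22, m21, m20, m19, m18, m17, m15, m13, m11, m9, m7, m5, m3, m1, w4,
    w5, w6, w7, w10, w11, w12, w13, w16, w17, w18, w19, w22, w23, w75, w78, w81] :=
  next (i := 44) (j := 44) rfl rfl s59 c60

theorem c58 : Valid [m57, m56, m55, m54, m53, m51, m49, m47, m45, m43, m41, m39, m37, m35, m33,
    m31, m29, m27, m26, m25, m23, m22, m21, m20, m19, m18, m17, m15, m13, m11, m9, m7, m5, m3,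
    m1, w4, w5, w6, w7, w10, w11, w12, w13, w16, w17, w18, w19, w22, w23, w75, w78, w81] →
    Concl 40440182 [m57, m56, m55, m54, m53, m51, m49, m47, m45, m43, m41, m39, m37, m35, m33,
    m31, m29, m27, m26, m25, m23, m22, m21, m20, m19, m18, m17, m15, m13, m11, m9, m7, m5, m3,
    m1, w4, w5, w6, w7, w10, w11, w12, w13, w16, w17, w18, w19, w22, w23, w75, w78, w81] :=
  next (i := 1) (j := 2) rfl rfl s58 c59

theorem c57 : Valid [m56, m55, m54, m53, m51, m49, m47, m45, m43, m41, m39, m37, m35, m33, m31,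
    m29, m27, m26, m25, m23, m22, m21, m20, m19, m18, m17, m15, m13, m11, m9, m7, m5, m3, m1, w4,
    w5, w6, w7, w10, w11, w12, w13, w16, w17, w18, w19, w22, w23, w28, w29, w75, w78, w81] →
    Concl 40440182 [m56, m55, m54, m53, m51, m49, m47, m45, m43, m41, m39, m37, m35, m33, m31,
    m29, m27, m26, m25, m23, m22, m21, m20, m19, m18, m17, m15, m13, m11, m9, m7, m5, m3, m1, w4,
    w5, w6, w7, w10, w11, w12, w13, w16, w17, w18, w19, w22, w23, w28, w29, w75, w78, w81] :=
  next (i := 48) (j := 48) rfl rfl s57 c58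

theorem c56 : Valid [m55, m54, m53, m51, m49, m47, m45, m43, m41, m39, m37, m35, m33, m31, m29,
    m27, m26, m25, m23, m22, m21, m20, m19, m18, m17, m16, m15, m13, m11, m9, m7, m5, m3, m1, w4,
    w5, w6, w7, w10, w11, w12, w13, w16, w17, w18, w19, w22, w23, w28, w29, w75, w78, w81, w84] →
    Concl 40440182 [m55, m54, m53, m51, m49, m47, m45, m43, m41, m39, m37, m35, m33, m31, m29,
    m27, m26, m25, m23, m22, m21, m20, m19, m18, m17, m16, m15, m13, m11, m9, m7, m5, m3, m1, w4,
    w5, w6, w7, w10, w11, w12, w13, w16, w17, w18, w19, w22, w23, w28, w29, w75, w78, w81, w84] :=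
  next (i := 53) (j := 25) rfl rfl s56 c57

theorem c55 : Valid [m54, m53, m51, m49, m47, m45, m43, m41, m39, m37, m35, m33, m31, m29, m27,
    m26, m25, m23, m22, m21, m20, m19, m18, m17, m16, m15, m13, m11, m9, m7, m5, m3, m1, w4, w5,
    w6, w7, w10, w11, w12, w13, w16, w17, w18, w19, w22, w23, w24, w25, w28, w29, w75, w78, w81,
    w84] →
    Concl 40440182 [m54, m53, m51, m49, m47, m45, m43, m41, m39, m37, m35, m33, m31, m29, m27,
    m26, m25, m23, m22, m21, m20, m19, m18, m17, m16, m15, m13, m11, m9, m7, m5, m3, m1, w4, w5,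
    w6, w7, w10, w11, w12, w13, w16, w17, w18, w19, w22, w23, w24, w25, w28, w29, w75, w78, w81,
    w84] :=
  next (i := 47) (j := 47) rfl rfl s55 c56

theorem c54 : Valid [m53, m52, m51, m50, m49, m47, m45, m43, m41, m39, m37, m35, m33, m31, m29,
    m27, m26, m25, m23, m22, m21, m20, m19, m18, m17, m16, m15, m13, m11, m9, m7, m5, m3, m1, w4,
    w5, w6, w7, w10, w11, w12, w13, w16, w17, w18, w19, w22, w23, w24, w25, w28, w29, w75, w78,
    w81, w84] →
    Concl 40440182 [m53, m52, m51, m50, m49, m47, m45, m43, m41, m39, m37, m35, m33, m31, m29,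
    m27, m26, m25, m23, m22, m21, m20, m19, m18, m17, m16, m15, m13, m11, m9, m7, m5, m3, m1, w4,
    w5, w6, w7, w10, w11, w12, w13, w16, w17, w18, w19, w22, w23, w24, w25, w28, w29, w75, w78,
    w81, w84] :=
  next (i := 1) (j := 2) rfl rfl s54 c55

theorem c53 : Valid [m52, m51, m50, m49, m47, m45, m43, m41, m39, m37, m35, m33, m31, m29, m27,
    m26, m25, m23, m22, m21, m20, m19, m18, m17, m16, m15, m13, m11, m9, m7, m5, m3, m1, w4, w5,
    w6, w7, w10, w11, w12, w13, w16, w17, w18, w19, w22, w23, w24, w25, w28, w29, w34, w35, w75,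
    w78, w81, w84] →
    Concl 40440182 [m52, m51, m50, m49, m47, m45, m43, m41, m39, m37, m35, m33, m31, m29, m27,
    m26, m25, m23, m22, m21, m20, m19, m18, m17, m16, m15, m13, m11, m9, m7, m5, m3, m1, w4, w5,
    w6, w7, w10, w11, w12, w13, w16, w17, w18, w19, w22, w23, w24, w25, w28, w29, w34, w35, w75,
    w78, w81, w84] :=
  next (i := 51) (j := 51) rfl rfl s53 c54

theorem c52 : Valid [m51, m50, m49, m47, m45, m43, m41, m39, m37, m35, m33, m31, m29, m27, m26,
    m25, m23, m22, m21, m20, m19, m18, m17, m16, m15, m14, m13, m11, m9, m7, m5, m3, m1, w4, w5,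
    w6, w7, w10, w11, w12, w13, w16, w17, w18, w19, w22, w23, w24, w25, w28, w29, w34, w35, w75,
    w78, w81, w84, w87] →
    Concl 40440182 [m51, m50, m49, m47, m45, m43, m41, m39, m37, m35, m33, m31, m29, m27, m26,
    m25, m23, m22, m21, m20, m19, m18, m17, m16, m15, m14, m13, m11, m9, m7, m5, m3, m1, w4, w5,
    w6, w7, w10, w11, w12, w13, w16, w17, w18, w19, w22, w23, w24, w25, w28, w29, w34, w35, w75,
    w78, w81, w84, w87] :=
  next (i := 57) (j := 25) rfl rfl s52 c53

theorem c51 : Valid [m50, m49, m47, m45, m43, m41, m39, m37, m35, m33, m31, m29, m27, m26, m25,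
    m23, m22, m21, m20, m19, m18, m17, m16, m15, m14, m13, m11, m9, m7, m5, m3, m1, w4, w5, w6,
    w7, w10, w11, w12, w13, w16, w17, w18, w19, w22, w23, w24, w25, w28, w29, w30, w31, w34, w35,
    w75, w78, w81, w84, w87] →
    Concl 40440182 [m50, m49, m47, m45, m43, m41, m39, m37, m35, m33, m31, m29, m27, m26, m25,
    m23, m22, m21, m20, m19, m18, m17, m16, m15, m14, m13, m11, m9, m7, m5, m3, m1, w4, w5, w6,
    w7, w10, w11, w12, w13, w16, w17, w18, w19, w22, w23, w24, w25, w28, w29, w30, w31, w34, w35,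
    w75, w78, w81, w84, w87] :=
  next (i := 50) (j := 50) rfl rfl s51 c52

theorem c50 : Valid [m49, m48, m47, m46, m45, m43, m41, m39, m37, m35, m33, m31, m29, m27, m26,
    m25, m23, m22, m21, m20, m19, m18, m17, m16, m15, m14, m13, m11, m9, m7, m5, m3, m1, w4, w5,
    w6, w7, w10, w11, w12, w13, w16, w17, w18, w19, w22, w23, w24, w25, w28, w29, w30, w31, w34,
    w35, w75, w78, w81, w84, w87] →
    Concl 40440182 [m49, m48, m47, m46, m45, m43, m41, m39, m37, m35, m33, m31, m29, m27, m26,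
    m25, m23, m22, m21, m20, m19, m18, m17, m16, m15, m14, m13, m11, m9, m7, m5, m3, m1, w4, w5,
    w6, w7, w10, w11, w12, w13, w16, w17, w18, w19, w22, w23, w24, w25, w28, w29, w30, w31, w34,
    w35, w75, w78, w81, w84, w87] :=
  next (i := 1) (j := 2) rfl rfl s50 c51

theorem c49 : Valid [m48, m47, m46, m45, m43, m41, m39, m37, m35, m33, m31, m29, m27, m26, m25,
    m23, m22, m21, m20, m19, m18, m17, m16, m15, m14, m13, m11, m9, m7, m5, m3, m1, w4, w5, w6,
    w7, w10, w11, w12, w13, w16, w17, w18, w19, w22, w23, w24, w25, w28, w29, w30, w31, w34, w35,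
    w40, w41, w75, w78, w81, w84, w87] →
    Concl 40440182 [m48, m47, m46, m45, m43, m41, m39, m37, m35, m33, m31, m29, m27, m26, m25,
    m23, m22, m21, m20, m19, m18, m17, m16, m15, m14, m13, m11, m9, m7, m5, m3, m1, w4, w5, w6,
    w7, w10, w11, w12, w13, w16, w17, w18, w19, w22, w23, w24, w25, w28, w29, w30, w31, w34, w35,
    w40, w41, w75, w78, w81, w84, w87] :=
  next (i := 54) (j := 54) rfl rfl s49 c50

theorem c48 : Valid [m47, m46, m45, m43, m41, m39, m37, m35, m33, m31, m29, m27, m26, m25, m23,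
    m22, m21, m20, m19, m18, m17, m16, m15, m14, m13, m12, m11, m9, m7, m5, m3, m1, w4, w5, w6,
    w7, w10, w11, w12, w13, w16, w17, w18, w19, w22, w23, w24, w25, w28, w29, w30, w31, w34, w35,
    w40, w41, w75, w78, w81, w84, w87, w90] →
    Concl 40440182 [m47, m46, m45, m43, m41, m39, m37, m35, m33, m31, m29, m27, m26, m25, m23,
    m22, m21, m20, m19, m18, m17, m16, m15, m14, m13, m12, m11, m9, m7, m5, m3, m1, w4, w5, w6,
    w7, w10, w11, w12, w13, w16, w17, w18, w19, w22, w23, w24, w25, w28, w29, w30, w31, w34, w35,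
    w40, w41, w75, w78, w81, w84, w87, w90] :=
  next (i := 61) (j := 25) rfl rfl s48 c49

theorem c47 : Valid [m46, m45, m43, m41, m39, m37, m35, m33, m31, m29, m27, m26, m25, m23, m22,
    m21, m20, m19, m18, m17, m16, m15, m14, m13, m12, m11, m9, m7, m5, m3, m1, w4, w5, w6, w7,
    w10, w11, w12, w13, w16, w17, w18, w19, w22, w23, w24, w25, w28, w29, w30, w31, w34, w35,
    w36, w37, w40, w41, w75, w78, w81, w84, w87, w90] →
    Concl 40440182 [m46, m45, m43, m41, m39, m37, m35, m33, m31, m29, m27, m26, m25, m23, m22,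
    m21, m20, m19, m18, m17, m16, m15, m14, m13, m12, m11, m9, m7, m5, m3, m1, w4, w5, w6, w7,
    w10, w11, w12, w13, w16, w17, w18, w19, w22, w23, w24, w25, w28, w29, w30, w31, w34, w35,
    w36, w37, w40, w41, w75, w78, w81, w84, w87, w90] :=
  next (i := 53) (j := 53) rfl rfl s47 c48

theorem c46 : Valid [m45, m44, m43, m42, m41, m39, m37, m35, m33, m31, m29, m27, m26, m25, m23,
    m22, m21, m20, m19, m18, m17, m16, m15, m14, m13, m12, m11, m9, m7, m5, m3, m1, w4, w5, w6,
    w7, w10, w11, w12, w13, w16, w17, w18, w19, w22, w23, w24, w25, w28, w29, w30, w31, w34, w35,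
    w36, w37, w40, w41, w75, w78, w81, w84, w87, w90] →
    Concl 40440182 [m45, m44, m43, m42, m41, m39, m37, m35, m33, m31, m29, m27, m26, m25, m23,
    m22, m21, m20, m19, m18, m17, m16, m15, m14, m13, m12, m11, m9, m7, m5, m3, m1, w4, w5, w6,
    w7, w10, w11, w12, w13, w16, w17, w18, w19, w22, w23, w24, w25, w28, w29, w30, w31, w34, w35,
    w36, w37, w40, w41, w75, w78, w81, w84, w87, w90] :=
  next (i := 1) (j := 2) rfl rfl s46 c47

theorem c45 : Valid [m44, m43, m42, m41, m39, m37, m35, m33, m31, m29, m27, m26, m25, m23, m22,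
    m21, m20, m19, m18, m17, m16, m15, m14, m13, m12, m11, m9, m7, m5, m3, m1, w4, w5, w6, w7,
    w10, w11, w12, w13, w16, w17, w18, w19, w22, w23, w24, w25, w28, w29, w30, w31, w34, w35,
    w36, w37, w40, w41, w46, w47, w75, w78, w81, w84, w87, w90] →
    Concl 40440182 [m44, m43, m42, m41, m39, m37, m35, m33, m31, m29, m27, m26, m25, m23, m22,
    m21, m20, m19, m18, m17, m16, m15, m14, m13, m12, m11, m9, m7, m5, m3, m1, w4, w5, w6, w7,
    w10, w11, w12, w13, w16, w17, w18, w19, w22, w23, w24, w25, w28, w29, w30, w31, w34, w35,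
    w36, w37, w40, w41, w46, w47, w75, w78, w81, w84, w87, w90] :=
  next (i := 57) (j := 57) rfl rfl s45 c46

theorem c44 : Valid [m43, m42, m41, m39, m37, m35, m33, m31, m29, m27, m26, m25, m23, m22, m21,
    m20, m19, m18, m17, m16, m15, m14, m13, m12, m11, m10, m9, m7, m5, m3, m1, w4, w5, w6, w7,
    w10, w11, w12, w13, w16, w17, w18, w19, w22, w23, w24, w25, w28, w29, w30, w31, w34, w35,
    w36, w37, w40, w41, w46, w47, w75, w78, w81, w84, w87, w90, w93] →
    Concl 40440182 [m43, m42, m41, m39, m37, m35, m33, m31, m29, m27, m26, m25, m23, m22, m21,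
    m20, m19, m18, m17, m16, m15, m14, m13, m12, m11, m10, m9, m7, m5, m3, m1, w4, w5, w6, w7,
    w10, w11, w12, w13, w16, w17, w18, w19, w22, w23, w24, w25, w28, w29, w30, w31, w34, w35,
    w36, w37, w40, w41, w46, w47, w75, w78, w81, w84, w87, w90, w93] :=
  next (i := 65) (j := 25) rfl rfl s44 c45

theorem c43 : Valid [m42, m41, m39, m37, m35, m33, m31, m29, m27, m26, m25, m23, m22, m21, m20,
    m19, m18, m17, m16, m15, m14, m13, m12, m11, m10, m9, m7, m5, m3, m1, w4, w5, w6, w7, w10,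
    w11, w12, w13, w16, w17, w18, w19, w22, w23, w24, w25, w28, w29, w30, w31, w34, w35, w36,
    w37, w40, w41, w42, w43, w46, w47, w75, w78, w81, w84, w87, w90, w93] →
    Concl 40440182 [m42, m41, m39, m37, m35, m33, m31, m29, m27, m26, m25, m23, m22, m21, m20,
    m19, m18, m17, m16, m15, m14, m13, m12, m11, m10, m9, m7, m5, m3, m1, w4, w5, w6, w7, w10,
    w11, w12, w13, w16, w17, w18, w19, w22, w23, w24, w25, w28, w29, w30, w31, w34, w35, w36,
    w37, w40, w41, w42, w43, w46, w47, w75, w78, w81, w84, w87, w90, w93] :=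
  next (i := 56) (j := 56) rfl rfl s43 c44

theorem c42 : Valid [m41, m40, m39, m38, m37, m35, m33, m31, m29, m27, m26, m25, m23, m22, m21,
    m20, m19, m18, m17, m16, m15, m14, m13, m12, m11, m10, m9, m7, m5, m3, m1, w4, w5, w6, w7,
    w10, w11, w12, w13, w16, w17, w18, w19, w22, w23, w24, w25, w28, w29, w30, w31, w34, w35,
    w36, w37, w40, w41, w42, w43, w46, w47, w75, w78, w81, w84, w87, w90, w93] →
    Concl 40440182 [m41, m40, m39, m38, m37, m35, m33, m31, m29, m27, m26, m25, m23, m22, m21,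
    m20, m19, m18, m17, m16, m15, m14, m13, m12, m11, m10, m9, m7, m5, m3, m1, w4, w5, w6, w7,
    w10, w11, w12, w13, w16, w17, w18, w19, w22, w23, w24, w25, w28, w29, w30, w31, w34, w35,
    w36, w37, w40, w41, w42, w43, w46, w47, w75, w78, w81, w84, w87, w90, w93] :=
  next (i := 1) (j := 2) rfl rfl s42 c43

theorem c41 : Valid [m40, m39, m38, m37, m35, m33, m31, m29, m27, m26, m25, m23, m22, m21, m20,
    m19, m18, m17, m16, m15, m14, m13, m12, m11, m10, m9, m7, m5, m3, m1, w4, w5, w6, w7, w10,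
    w11, w12, w13, w16, w17, w18, w19, w22, w23, w24, w25, w28, w29, w30, w31, w34, w35, w36,
    w37, w40, w41, w42, w43, w46, w47, w52, w53, w75, w78, w81, w84, w87, w90, w93] →
    Concl 40440182 [m40, m39, m38, m37, m35, m33, m31, m29, m27, m26, m25, m23, m22, m21, m20,
    m19, m18, m17, m16, m15, m14, m13, m12, m11, m10, m9, m7, m5, m3, m1, w4, w5, w6, w7, w10,
    w11, w12, w13, w16, w17, w18, w19, w22, w23, w24, w25, w28, w29, w30, w31, w34, w35, w36,
    w37, w40, w41, w42, w43, w46, w47, w52, w53, w75, w78, w81, w84, w87, w90, w93] :=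
  next (i := 60) (j := 60) rfl rfl s41 c42

theorem c40 : Valid [m39, m38, m37, m35, m33, m31, m29, m27, m26, m25, m23, m22, m21, m20, m19,
    m18, m17, m16, m15, m14, m13, m12, m11, m10, m9, m8, m7, m5, m3, m1, w4, w5, w6, w7, w10,
    w11, w12, w13, w16, w17, w18, w19, w22, w23, w24, w25, w28, w29, w30, w31, w34, w35, w36,
    w37, w40, w41, w42, w43, w46, w47, w52, w53, w75, w78, w81, w84, w87, w90, w93, w96] →
    Concl 40440182 [m39, m38, m37, m35, m33, m31, m29, m27, m26, m25, m23, m22, m21, m20, m19,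
    m18, m17, m16, m15, m14, m13, m12, m11, m10, m9, m8, m7, m5, m3, m1, w4, w5, w6, w7, w10,
    w11, w12, w13, w16, w17, w18, w19, w22, w23, w24, w25, w28, w29, w30, w31, w34, w35, w36,
    w37, w40, w41, w42, w43, w46, w47, w52, w53, w75, w78, w81, w84, w87, w90, w93, w96] :=
  next (i := 69) (j := 25) rfl rfl s40 c41

theorem c39 : Valid [m38, m37, m35, m33, m31, m29, m27, m26, m25, m23, m22, m21, m20, m19, m18,
    m17, m16, m15, m14, m13, m12, m11, m10, m9, m8, m7, m5, m3, m1, w4, w5, w6, w7, w10, w11,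
    w12, w13, w16, w17, w18, w19, w22, w23, w24, w25, w28, w29, w30, w31, w34, w35, w36, w37,
    w40, w41, w42, w43, w46, w47, w48, w49, w52, w53, w75, w78, w81, w84, w87, w90, w93, w96] →
    Concl 40440182 [m38, m37, m35, m33, m31, m29, m27, m26, m25, m23, m22, m21, m20, m19, m18,
    m17, m16, m15, m14, m13, m12, m11, m10, m9, m8, m7, m5, m3, m1, w4, w5, w6, w7, w10, w11,
    w12, w13, w16, w17, w18, w19, w22, w23, w24, w25, w28, w29, w30, w31, w34, w35, w36, w37,
    w40, w41, w42, w43, w46, w47, w48, w49, w52, w53, w75, w78, w81, w84, w87, w90, w93, w96] :=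
  next (i := 59) (j := 59) rfl rfl s39 c40

theorem c38 : Valid [m37, m36, m35, m34, m33, m31, m29, m27, m26, m25, m23, m22, m21, m20, m19,
    m18, m17, m16, m15, m14, m13, m12, m11, m10, m9, m8, m7, m5, m3, m1, w4, w5, w6, w7, w10,
    w11, w12, w13, w16, w17, w18, w19, w22, w23, w24, w25, w28, w29, w30, w31, w34, w35, w36,
    w37, w40, w41, w42, w43, w46, w47, w48, w49, w52, w53, w75, w78, w81, w84, w87, w90, w93,
    w96] →
    Concl 40440182 [m37, m36, m35, m34, m33, m31, m29, m27, m26, m25, m23, m22, m21, m20, m19,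
    m18, m17, m16, m15, m14, m13, m12, m11, m10, m9, m8, m7, m5, m3, m1, w4, w5, w6, w7, w10,
    w11, w12, w13, w16, w17, w18, w19, w22, w23, w24, w25, w28, w29, w30, w31, w34, w35, w36,
    w37, w40, w41, w42, w43, w46, w47, w48, w49, w52, w53, w75, w78, w81, w84, w87, w90, w93,
    w96] :=
  next (i := 1) (j := 2) rfl rfl s38 c39

theorem c37 : Valid [m36, m35, m34, m33, m31, m29, m27, m26, m25, m23, m22, m21, m20, m19, m18,
    m17, m16, m15, m14, m13, m12, m11, m10, m9, m8, m7, m5, m3, m1, w4, w5, w6, w7, w10, w11,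
    w12, w13, w16, w17, w18, w19, w22, w23, w24, w25, w28, w29, w30, w31, w34, w35, w36, w37,
    w40, w41, w42, w43, w46, w47, w48, w49, w52, w53, w58, w59, w75, w78, w81, w84, w87, w90,
    w93, w96] →
    Concl 40440182 [m36, m35, m34, m33, m31, m29, m27, m26, m25, m23, m22, m21, m20, m19, m18,
    m17, m16, m15, m14, m13, m12, m11, m10, m9, m8, m7, m5, m3, m1, w4, w5, w6, w7, w10, w11,
    w12, w13, w16, w17, w18, w19, w22, w23, w24, w25, w28, w29, w30, w31, w34, w35, w36, w37,
    w40, w41, w42, w43, w46, w47, w48, w49, w52, w53, w58, w59, w75, w78, w81, w84, w87, w90,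
    w93, w96] :=
  next (i := 63) (j := 63) rfl rfl s37 c38

theorem c36 : Valid [m35, m34, m33, m31, m29, m27, m26, m25, m23, m22, m21, m20, m19, m18, m17,
    m16, m15, m14, m13, m12, m11, m10, m9, m8, m7, m6, m5, m3, m1, w4, w5, w6, w7, w10, w11, w12,
    w13, w16, w17, w18, w19, w22, w23, w24, w25, w28, w29, w30, w31, w34, w35, w36, w37, w40,
    w41, w42, w43, w46, w47, w48, w49, w52, w53, w58, w59, w75, w78, w81, w84, w87, w90, w93,
    w96, w99] →
    Concl 40440182 [m35, m34, m33, m31, m29, m27, m26, m25, m23, m22, m21, m20, m19, m18, m17,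
    m16, m15, m14, m13, m12, m11, m10, m9, m8, m7, m6, m5, m3, m1, w4, w5, w6, w7, w10, w11, w12,
    w13, w16, w17, w18, w19, w22, w23, w24, w25, w28, w29, w30, w31, w34, w35, w36, w37, w40,
    w41, w42, w43, w46, w47, w48, w49, w52, w53, w58, w59, w75, w78, w81, w84, w87, w90, w93,
    w96, w99] :=
  next (i := 73) (j := 25) rfl rfl s36 c37

theorem c35 : Valid [m34, m33, m31, m29, m27, m26, m25, m23, m22, m21, m20, m19, m18, m17, m16,
    m15, m14, m13, m12, m11, m10, m9, m8, m7, m6, m5, m3, m1, w4, w5, w6, w7, w10, w11, w12, w13,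
    w16, w17, w18, w19, w22, w23, w24, w25, w28, w29, w30, w31, w34, w35, w36, w37, w40, w41,
    w42, w43, w46, w47, w48, w49, w52, w53, w54, w55, w58, w59, w75, w78, w81, w84, w87, w90,
    w93, w96, w99] →
    Concl 40440182 [m34, m33, m31, m29, m27, m26, m25, m23, m22, m21, m20, m19, m18, m17, m16,
    m15, m14, m13, m12, m11, m10, m9, m8, m7, m6, m5, m3, m1, w4, w5, w6, w7, w10, w11, w12, w13,
    w16, w17, w18, w19, w22, w23, w24, w25, w28, w29, w30, w31, w34, w35, w36, w37, w40, w41,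
    w42, w43, w46, w47, w48, w49, w52, w53, w54, w55, w58, w59, w75, w78, w81, w84, w87, w90,
    w93, w96, w99] :=
  next (i := 62) (j := 62) rfl rfl s35 c36

theorem c34 : Valid [m33, m32, m31, m29, m27, m26, m25, m23, m22, m21, m20, m19, m18, m17, m16,
    m15, m14, m13, m12, m11, m10, m9, m8, m7, m6, m5, m3, m1, w4, w5, w6, w7, w10, w11, w12, w13,
    w16, w17, w18, w19, w22, w23, w24, w25, w28, w29, w30, w31, w34, w35, w36, w37, w40, w41,
    w42, w43, w46, w47, w48, w49, w52, w53, w54, w55, w58, w59, w75, w78, w81, w84, w87, w90,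
    w93, w96, w99, w102] →
    Concl 40440182 [m33, m32, m31, m29, m27, m26, m25, m23, m22, m21, m20, m19, m18, m17, m16,
    m15, m14, m13, m12, m11, m10, m9, m8, m7, m6, m5, m3, m1, w4, w5, w6, w7, w10, w11, w12, w13,
    w16, w17, w18, w19, w22, w23, w24, w25, w28, w29, w30, w31, w34, w35, w36, w37, w40, w41,
    w42, w43, w46, w47, w48, w49, w52, w53, w54, w55, w58, w59, w75, w78, w81, w84, w87, w90,
    w93, w96, w99, w102] :=
  next (i := 75) (j := 1) rfl rfl s34 c35

theorem c33 : Valid [m32, m31, m29, m27, m26, m25, m23, m22, m21, m20, m19, m18, m17, m16, m15,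
    m14, m13, m12, m11, m10, m9, m8, m7, m6, m5, m3, m1, w4, w5, w6, w7, w10, w11, w12, w13, w16,
    w17, w18, w19, w22, w23, w24, w25, w28, w29, w30, w31, w34, w35, w36, w37, w40, w41, w42,
    w43, w46, w47, w48, w49, w52, w53, w54, w55, w58, w59, w60, w61, w75, w78, w81, w84, w87,
    w90, w93, w96, w99, w102] →
    Concl 40440182 [m32, m31, m29, m27, m26, m25, m23, m22, m21, m20, m19, m18, m17, m16, m15,
    m14, m13, m12, m11, m10, m9, m8, m7, m6, m5, m3, m1, w4, w5, w6, w7, w10, w11, w12, w13, w16,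
    w17, w18, w19, w22, w23, w24, w25, w28, w29, w30, w31, w34, w35, w36, w37, w40, w41, w42,
    w43, w46, w47, w48, w49, w52, w53, w54, w55, w58, w59, w60, w61, w75, w78, w81, w84, w87,
    w90, w93, w96, w99, w102] :=
  next (i := 65) (j := 65) rfl rfl s33 c34

theorem c32 : Valid [m31, m30, m29, m27, m26, m25, m23, m22, m21, m20, m19, m18, m17, m16, m15,
    m14, m13, m12, m11, m10, m9, m8, m7, m6, m5, m4, m3, m1, w4, w5, w6, w7, w10, w11, w12, w13,
    w16, w17, w18, w19, w22, w23, w24, w25, w28, w29, w30, w31, w34, w35, w36, w37, w40, w41,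
    w42, w43, w46, w47, w48, w49, w52, w53, w54, w55, w58, w59, w60, w61, w75, w78, w81, w84,
    w87, w90, w93, w96, w99, w102] →
    Concl 40440182 [m31, m30, m29, m27, m26, m25, m23, m22, m21, m20, m19, m18, m17, m16, m15,
    m14, m13, m12, m11, m10, m9, m8, m7, m6, m5, m4, m3, m1, w4, w5, w6, w7, w10, w11, w12, w13,
    w16, w17, w18, w19, w22, w23, w24, w25, w28, w29, w30, w31, w34, w35, w36, w37, w40, w41,
    w42, w43, w46, w47, w48, w49, w52, w53, w54, w55, w58, w59, w60, w61, w75, w78, w81, w84,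
    w87, w90, w93, w96, w99, w102] :=
  next (i := 25) (j := 1) rfl rfl s32 c33

theorem c31 : Valid [m30, m29, m27, m26, m25, m23, m22, m21, m20, m19, m18, m17, m16, m15, m14,
    m13, m12, m11, m10, m9, m8, m7, m6, m5, m4, m3, m1, w4, w5, w6, w7, w10, w11, w12, w13, w16,
    w17, w18, w19, w22, w23, w24, w25, w28, w29, w30, w31, w34, w35, w36, w37, w40, w41, w42,
    w43, w46, w47, w48, w49, w52, w53, w54, w55, w58, w59, w60, w61, w64, w65, w75, w78, w81,
    w84, w87, w90, w93, w96, w99, w102] →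
    Concl 40440182 [m30, m29, m27, m26, m25, m23, m22, m21, m20, m19, m18, m17, m16, m15, m14,
    m13, m12, m11, m10, m9, m8, m7, m6, m5, m4, m3, m1, w4, w5, w6, w7, w10, w11, w12, w13, w16,
    w17, w18, w19, w22, w23, w24, w25, w28, w29, w30, w31, w34, w35, w36, w37, w40, w41, w42,
    w43, w46, w47, w48, w49, w52, w53, w54, w55, w58, w59, w60, w61, w64, w65, w75, w78, w81,
    w84, w87, w90, w93, w96, w99, w102] :=
  next (i := 67) (j := 67) rfl rfl s31 c32

theorem c30 : Valid [m29, m28, m27, m26, m25, m23, m22, m21, m20, m19, m18, m17, m16, m15, m14,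
    m13, m12, m11, m10, m9, m8, m7, m6, m5, m4, m3, m1, w4, w5, w6, w7, w10, w11, w12, w13, w16,
    w17, w18, w19, w22, w23, w24, w25, w28, w29, w30, w31, w34, w35, w36, w37, w40, w41, w42,
    w43, w46, w47, w48, w49, w52, w53, w54, w55, w58, w59, w60, w61, w64, w65, w75, w78, w81,
    w84, w87, w90, w93, w96, w99, w102, w105] →
    Concl 40440182 [m29, m28, m27, m26, m25, m23, m22, m21, m20, m19, m18, m17, m16, m15, m14,
    m13, m12, m11, m10, m9, m8, m7, m6, m5, m4, m3, m1, w4, w5, w6, w7, w10, w11, w12, w13, w16,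
    w17, w18, w19, w22, w23, w24, w25, w28, w29, w30, w31, w34, w35, w36, w37, w40, w41, w42,
    w43, w46, w47, w48, w49, w52, w53, w54, w55, w58, w59, w60, w61, w64, w65, w75, w78, w81,
    w84, w87, w90, w93, w96, w99, w102, w105] :=
  next (i := 79) (j := 1) rfl rfl s30 c31

theorem c29 : Valid [m28, m27, m26, m25, m23, m22, m21, m20, m19, m18, m17, m16, m15, m14, m13,
    m12, m11, m10, m9, m8, m7, m6, m5, m4, m3, m1, w4, w5, w6, w7, w10, w11, w12, w13, w16, w17,
    w18, w19, w22, w23, w24, w25, w28, w29, w30, w31, w34, w35, w36, w37, w40, w41, w42, w43,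
    w46, w47, w48, w49, w52, w53, w54, w55, w58, w59, w60, w61, w64, w65, w66, w67, w75, w78,
    w81, w84, w87, w90, w93, w96, w99, w102, w105] →
    Concl 40440182 [m28, m27, m26, m25, m23, m22, m21, m20, m19, m18, m17, m16, m15, m14, m13,
    m12, m11, m10, m9, m8, m7, m6, m5, m4, m3, m1, w4, w5, w6, w7, w10, w11, w12, w13, w16, w17,
    w18, w19, w22, w23, w24, w25, w28, w29, w30, w31, w34, w35, w36, w37, w40, w41, w42, w43,
    w46, w47, w48, w49, w52, w53, w54, w55, w58, w59, w60, w61, w64, w65, w66, w67, w75, w78,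
    w81, w84, w87, w90, w93, w96, w99, w102, w105] :=
  next (i := 68) (j := 68) rfl rfl s29 c30

theorem c28 : Valid [m27, m26, m25, m23, m22, m21, m20, m19, m18, m17, m16, m15, m14, m13, m12,
    m11, m10, m9, m8, m7, m6, m5, m4, m3, m2, m1, w4, w5, w6, w7, w10, w11, w12, w13, w16, w17,
    w18, w19, w22, w23, w24, w25, w28, w29, w30, w31, w34, w35, w36, w37, w40, w41, w42, w43,
    w46, w47, w48, w49, w52, w53, w54, w55, w58, w59, w60, w61, w64, w65, w66, w67, w75, w78,
    w81, w84, w87, w90, w93, w96, w99, w102, w105, w108] →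
    Concl 40440182 [m27, m26, m25, m23, m22, m21, m20, m19, m18, m17, m16, m15, m14, m13, m12,
    m11, m10, m9, m8, m7, m6, m5, m4, m3, m2, m1, w4, w5, w6, w7, w10, w11, w12, w13, w16, w17,
    w18, w19, w22, w23, w24, w25, w28, w29, w30, w31, w34, w35, w36, w37, w40, w41, w42, w43,
    w46, w47, w48, w49, w52, w53, w54, w55, w58, w59, w60, w61, w64, w65, w66, w67, w75, w78,
    w81, w84, w87, w90, w93, w96, w99, w102, w105, w108] :=
  next (i := 24) (j := 80) rfl rfl s28 c29

theorem c27 : Valid [m26, m25, m23, m22, m21, m20, m19, m18, m17, m16, m15, m14, m13, m12, m11,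
    m10, m9, m8, m7, m6, m5, m4, m3, m2, m1, w4, w5, w6, w7, w10, w11, w12, w13, w16, w17, w18,
    w19, w22, w23, w24, w25, w28, w29, w30, w31, w34, w35, w36, w37, w40, w41, w42, w43, w46,
    w47, w48, w49, w52, w53, w54, w55, w58, w59, w60, w61, w64, w65, w66, w67, w70, w71, w75,
    w78, w81, w84, w87, w90, w93, w96, w99, w102, w105, w108] →
    Concl 40440182 [m26, m25, m23, m22, m21, m20, m19, m18, m17, m16, m15, m14, m13, m12, m11,
    m10, m9, m8, m7, m6, m5, m4, m3, m2, m1, w4, w5, w6, w7, w10, w11, w12, w13, w16, w17, w18,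
    w19, w22, w23, w24, w25, w28, w29, w30, w31, w34, w35, w36, w37, w40, w41, w42, w43, w46,
    w47, w48, w49, w52, w53, w54, w55, w58, w59, w60, w61, w64, w65, w66, w67, w70, w71, w75,
    w78, w81, w84, w87, w90, w93, w96, w99, w102, w105, w108] :=
  next (i := 69) (j := 69) rfl rfl s27 c28

theorem c26 : Valid [m25, m24, m23, m22, m21, m20, m19, m18, m17, m16, m15, m14, m13, m12, m11,
    m10, m9, m8, m7, m6, m5, m4, m3, m2, m1, w4, w5, w6, w7, w10, w11, w12, w13, w16, w17, w18,
    w19, w22, w23, w24, w25, w28, w29, w30, w31, w34, w35, w36, w37, w40, w41, w42, w43, w46,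
    w47, w48, w49, w52, w53, w54, w55, w58, w59, w60, w61, w64, w65, w66, w67, w70, w71, w72,
    w75, w78, w81, w84, w87, w90, w93, w96, w99, w102, w105, w108] →
    Concl 40440182 [m25, m24, m23, m22, m21, m20, m19, m18, m17, m16, m15, m14, m13, m12, m11,
    m10, m9, m8, m7, m6, m5, m4, m3, m2, m1, w4, w5, w6, w7, w10, w11, w12, w13, w16, w17, w18,
    w19, w22, w23, w24, w25, w28, w29, w30, w31, w34, w35, w36, w37, w40, w41, w42, w43, w46,
    w47, w48, w49, w52, w53, w54, w55, w58, w59, w60, w61, w64, w65, w66, w67, w70, w71, w72,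
    w75, w78, w81, w84, w87, w90, w93, w96, w99, w102, w105, w108] :=
  next (i := 71) (j := 1) rfl rfl s26 c27

theorem c25 : Valid [m24, m23, m22, m21, m20, m19, m18, m17, m16, m15, m14, m13, m12, m11, m10,
    m9, m8, m7, m6, m5, m4, m3, m2, m1, w0, w1, w4, w5, w6, w7, w10, w11, w12, w13, w16, w17,
    w18, w19, w22, w23, w24, w25, w28, w29, w30, w31, w34, w35, w36, w37, w40, w41, w42, w43,
    w46, w47, w48, w49, w52, w53, w54, w55, w58, w59, w60, w61, w64, w65, w66, w67, w70, w71,
    w72, w75, w78, w81, w84, w87, w90, w93, w96, w99, w102, w105, w108] →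
    Concl 40440182 [m24, m23, m22, m21, m20, m19, m18, m17, m16, m15, m14, m13, m12, m11, m10,
    m9, m8, m7, m6, m5, m4, m3, m2, m1, w0, w1, w4, w5, w6, w7, w10, w11, w12, w13, w16, w17,
    w18, w19, w22, w23, w24, w25, w28, w29, w30, w31, w34, w35, w36, w37, w40, w41, w42, w43,
    w46, w47, w48, w49, w52, w53, w54, w55, w58, w59, w60, w61, w64, w65, w66, w67, w70, w71,
    w72, w75, w78, w81, w84, w87, w90, w93, w96, w99, w102, w105, w108] :=
  next (i := 24) (j := 24) rfl rfl s25 c26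

theorem c24 : Valid [m23, m22, m21, m20, m19, m18, m17, m16, m15, m14, m13, m12, m11, m10, m9,
    m8, m7, m6, m5, m4, m3, m2, m1, w0, w1, w4, w5, w6, w7, w10, w11, w12, w13, w16, w17, w18,
    w19, w22, w23, w24, w25, w28, w29, w30, w31, w34, w35, w36, w37, w40, w41, w42, w43, w46,
    w47, w48, w49, w52, w53, w54, w55, w58, w59, w60, w61, w64, w65, w66, w67, w70, w71, w72,
    w73, w74, w75, w78, w81, w84, w87, w90, w93, w96, w99, w102, w105, w108] →
    Concl 40440182 [m23, m22, m21, m20, m19, m18, m17, m16, m15, m14, m13, m12, m11, m10, m9, m8,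
    m7, m6, m5, m4, m3, m2, m1, w0, w1, w4, w5, w6, w7, w10, w11, w12, w13, w16, w17, w18, w19,
    w22, w23, w24, w25, w28, w29, w30, w31, w34, w35, w36, w37, w40, w41, w42, w43, w46, w47,
    w48, w49, w52, w53, w54, w55, w58, w59, w60, w61, w64, w65, w66, w67, w70, w71, w72, w73,
    w74, w75, w78, w81, w84, w87, w90, w93, w96, w99, w102, w105, w108] :=
  next (i := 72) (j := 72) rfl rfl s24 c25

theorem c23 : Valid [m22, m21, m20, m19, m18, m17, m16, m15, m14, m13, m12, m11, m10, m9, m8, m7,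
    m6, m5, m4, m3, m2, m1, w0, w1, w2, w3, w4, w5, w6, w7, w10, w11, w12, w13, w16, w17, w18,
    w19, w22, w23, w24, w25, w28, w29, w30, w31, w34, w35, w36, w37, w40, w41, w42, w43, w46,
    w47, w48, w49, w52, w53, w54, w55, w58, w59, w60, w61, w64, w65, w66, w67, w70, w71, w72,
    w73, w74, w75, w78, w81, w84, w87, w90, w93, w96, w99, w102, w105, w108] →
    Concl 40440182 [m22, m21, m20, m19, m18, m17, m16, m15, m14, m13, m12, m11, m10, m9, m8, m7,
    m6, m5, m4, m3, m2, m1, w0, w1, w2, w3, w4, w5, w6, w7, w10, w11, w12, w13, w16, w17, w18,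
    w19, w22, w23, w24, w25, w28, w29, w30, w31, w34, w35, w36, w37, w40, w41, w42, w43, w46,
    w47, w48, w49, w52, w53, w54, w55, w58, w59, w60, w61, w64, w65, w66, w67, w70, w71, w72,
    w73, w74, w75, w78, w81, w84, w87, w90, w93, w96, w99, w102, w105, w108] :=
  next (i := 24) (j := 24) rfl rfl s23 c24

theorem c22 : Valid [m21, m20, m19, m18, m17, m16, m15, m14, m13, m12, m11, m10, m9, m8, m7, m6,
    m5, m4, m3, m2, m1, w0, w1, w2, w3, w4, w5, w6, w7, w10, w11, w12, w13, w16, w17, w18, w19,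
    w22, w23, w24, w25, w28, w29, w30, w31, w34, w35, w36, w37, w40, w41, w42, w43, w46, w47,
    w48, w49, w52, w53, w54, w55, w58, w59, w60, w61, w64, w65, w66, w67, w70, w71, w72, w73,
    w74, w75, w76, w77, w78, w81, w84, w87, w90, w93, w96, w99, w102, w105, w108] →
    Concl 40440182 [m21, m20, m19, m18, m17, m16, m15, m14, m13, m12, m11, m10, m9, m8, m7, m6,
    m5, m4, m3, m2, m1, w0, w1, w2, w3, w4, w5, w6, w7, w10, w11, w12, w13, w16, w17, w18, w19,
    w22, w23, w24, w25, w28, w29, w30, w31, w34, w35, w36, w37, w40, w41, w42, w43, w46, w47,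
    w48, w49, w52, w53, w54, w55, w58, w59, w60, w61, w64, w65, w66, w67, w70, w71, w72, w73,
    w74, w75, w76, w77, w78, w81, w84, w87, w90, w93, w96, w99, w102, w105, w108] :=
  next (i := 75) (j := 75) rfl rfl s22 c23

theorem c21 : Valid [m20, m19, m18, m17, m16, m15, m14, m13, m12, m11, m10, m9, m8, m7, m6, m5,
    m4, m3, m2, m1, w0, w1, w2, w3, w4, w5, w6, w7, w8, w9, w10, w11, w12, w13, w16, w17, w18,
    w19, w22, w23, w24, w25, w28, w29, w30, w31, w34, w35, w36, w37, w40, w41, w42, w43, w46,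
    w47, w48, w49, w52, w53, w54, w55, w58, w59, w60, w61, w64, w65, w66, w67, w70, w71, w72,
    w73, w74, w75, w76, w77, w78, w81, w84, w87, w90, w93, w96, w99, w102, w105, w108] →
    Concl 40440182 [m20, m19, m18, m17, m16, m15, m14, m13, m12, m11, m10, m9, m8, m7, m6, m5,
    m4, m3, m2, m1, w0, w1, w2, w3, w4, w5, w6, w7, w8, w9, w10, w11, w12, w13, w16, w17, w18,
    w19, w22, w23, w24, w25, w28, w29, w30, w31, w34, w35, w36, w37, w40, w41, w42, w43, w46,
    w47, w48, w49, w52, w53, w54, w55, w58, w59, w60, w61, w64, w65, w66, w67, w70, w71, w72,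
    w73, w74, w75, w76, w77, w78, w81, w84, w87, w90, w93, w96, w99, w102, w105, w108] :=
  next (i := 28) (j := 28) rfl rfl s21 c22

theorem c20 : Valid [m19, m18, m17, m16, m15, m14, m13, m12, m11, m10, m9, m8, m7, m6, m5, m4,
    m3, m2, m1, w0, w1, w2, w3, w4, w5, w6, w7, w8, w9, w10, w11, w12, w13, w16, w17, w18, w19,
    w22, w23, w24, w25, w28, w29, w30, w31, w34, w35, w36, w37, w40, w41, w42, w43, w46, w47,
    w48, w49, w52, w53, w54, w55, w58, w59, w60, w61, w64, w65, w66, w67, w70, w71, w72, w73,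
    w74, w75, w76, w77, w78, w79, w80, w81, w84, w87, w90, w93, w96, w99, w102, w105, w108] →
    Concl 40440182 [m19, m18, m17, m16, m15, m14, m13, m12, m11, m10, m9, m8, m7, m6, m5, m4, m3,
    m2, m1, w0, w1, w2, w3, w4, w5, w6, w7, w8, w9, w10, w11, w12, w13, w16, w17, w18, w19, w22,
    w23, w24, w25, w28, w29, w30, w31, w34, w35, w36, w37, w40, w41, w42, w43, w46, w47, w48,
    w49, w52, w53, w54, w55, w58, w59, w60, w61, w64, w65, w66, w67, w70, w71, w72, w73, w74,
    w75, w76, w77, w78, w79, w80, w81, w84, w87, w90, w93, w96, w99, w102, w105, w108] :=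
  next (i := 78) (j := 78) rfl rfl s20 c21

theorem c19 : Valid [m18, m17, m16, m15, m14, m13, m12, m11, m10, m9, m8, m7, m6, m5, m4, m3, m2,
    m1, w0, w1, w2, w3, w4, w5, w6, w7, w8, w9, w10, w11, w12, w13, w14, w15, w16, w17, w18, w19,
    w22, w23, w24, w25, w28, w29, w30, w31, w34, w35, w36, w37, w40, w41, w42, w43, w46, w47,
    w48, w49, w52, w53, w54, w55, w58, w59, w60, w61, w64, w65, w66, w67, w70, w71, w72, w73,
    w74, w75, w76, w77, w78, w79, w80, w81, w84, w87, w90, w93, w96, w99, w102, w105, w108] →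
    Concl 40440182 [m18, m17, m16, m15, m14, m13, m12, m11, m10, m9, m8, m7, m6, m5, m4, m3, m2,
    m1, w0, w1, w2, w3, w4, w5, w6, w7, w8, w9, w10, w11, w12, w13, w14, w15, w16, w17, w18, w19,
    w22, w23, w24, w25, w28, w29, w30, w31, w34, w35, w36, w37, w40, w41, w42, w43, w46, w47,
    w48, w49, w52, w53, w54, w55, w58, w59, w60, w61, w64, w65, w66, w67, w70, w71, w72, w73,
    w74, w75, w76, w77, w78, w79, w80, w81, w84, w87, w90, w93, w96, w99, w102, w105, w108] :=
  next (i := 32) (j := 32) rfl rfl s19 c20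

theorem c18 : Valid [m17, m16, m15, m14, m13, m12, m11, m10, m9, m8, m7, m6, m5, m4, m3, m2, m1,
    w0, w1, w2, w3, w4, w5, w6, w7, w8, w9, w10, w11, w12, w13, w14, w15, w16, w17, w18, w19,
    w22, w23, w24, w25, w28, w29, w30, w31, w34, w35, w36, w37, w40, w41, w42, w43, w46, w47,
    w48, w49, w52, w53, w54, w55, w58, w59, w60, w61, w64, w65, w66, w67, w70, w71, w72, w73,
    w74, w75, w76, w77, w78, w79, w80, w81, w82, w83, w84, w87, w90, w93, w96, w99, w102, w105,
    w108] →
    Concl 40440182 [m17, m16, m15, m14, m13, m12, m11, m10, m9, m8, m7, m6, m5, m4, m3, m2, m1,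
    w0, w1, w2, w3, w4, w5, w6, w7, w8, w9, w10, w11, w12, w13, w14, w15, w16, w17, w18, w19,
    w22, w23, w24, w25, w28, w29, w30, w31, w34, w35, w36, w37, w40, w41, w42, w43, w46, w47,
    w48, w49, w52, w53, w54, w55, w58, w59, w60, w61, w64, w65, w66, w67, w70, w71, w72, w73,
    w74, w75, w76, w77, w78, w79, w80, w81, w82, w83, w84, w87, w90, w93, w96, w99, w102, w105,
    w108] :=
  next (i := 81) (j := 81) rfl rfl s18 c19

theorem c17 : Valid [m16, m15, m14, m13, m12, m11, m10, m9, m8, m7, m6, m5, m4, m3, m2, m1, w0,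
    w1, w2, w3, w4, w5, w6, w7, w8, w9, w10, w11, w12, w13, w14, w15, w16, w17, w18, w19, w20,
    w21, w22, w23, w24, w25, w28, w29, w30, w31, w34, w35, w36, w37, w40, w41, w42, w43, w46,
    w47, w48, w49, w52, w53, w54, w55, w58, w59, w60, w61, w64, w65, w66, w67, w70, w71, w72,
    w73, w74, w75, w76, w77, w78, w79, w80, w81, w82, w83, w84, w87, w90, w93, w96, w99, w102,
    w105, w108] →
    Concl 40440182 [m16, m15, m14, m13, m12, m11, m10, m9, m8, m7, m6, m5, m4, m3, m2, m1, w0,
    w1, w2, w3, w4, w5, w6, w7, w8, w9, w10, w11, w12, w13, w14, w15, w16, w17, w18, w19, w20,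
    w21, w22, w23, w24, w25, w28, w29, w30, w31, w34, w35, w36, w37, w40, w41, w42, w43, w46,
    w47, w48, w49, w52, w53, w54, w55, w58, w59, w60, w61, w64, w65, w66, w67, w70, w71, w72,
    w73, w74, w75, w76, w77, w78, w79, w80, w81, w82, w83, w84, w87, w90, w93, w96, w99, w102,
    w105, w108] :=
  next (i := 36) (j := 36) rfl rfl s17 c18

theorem c16 : Valid [m15, m14, m13, m12, m11, m10, m9, m8, m7, m6, m5, m4, m3, m2, m1, w0, w1,
    w2, w3, w4, w5, w6, w7, w8, w9, w10, w11, w12, w13, w14, w15, w16, w17, w18, w19, w20, w21,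
    w22, w23, w24, w25, w28, w29, w30, w31, w34, w35, w36, w37, w40, w41, w42, w43, w46, w47,
    w48, w49, w52, w53, w54, w55, w58, w59, w60, w61, w64, w65, w66, w67, w70, w71, w72, w73,
    w74, w75, w76, w77, w78, w79, w80, w81, w82, w83, w84, w85, w86, w87, w90, w93, w96, w99,
    w102, w105, w108] →
    Concl 40440182 [m15, m14, m13, m12, m11, m10, m9, m8, m7, m6, m5, m4, m3, m2, m1, w0, w1, w2,
    w3, w4, w5, w6, w7, w8, w9, w10, w11, w12, w13, w14, w15, w16, w17, w18, w19, w20, w21, w22,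
    w23, w24, w25, w28, w29, w30, w31, w34, w35, w36, w37, w40, w41, w42, w43, w46, w47, w48,
    w49, w52, w53, w54, w55, w58, w59, w60, w61, w64, w65, w66, w67, w70, w71, w72, w73, w74,
    w75, w76, w77, w78, w79, w80, w81, w82, w83, w84, w85, w86, w87, w90, w93, w96, w99, w102,
    w105, w108] :=
  next (i := 84) (j := 84) rfl rfl s16 c17

theorem c15 : Valid [m14, m13, m12, m11, m10, m9, m8, m7, m6, m5, m4, m3, m2, m1, w0, w1, w2, w3,
    w4, w5, w6, w7, w8, w9, w10, w11, w12, w13, w14, w15, w16, w17, w18, w19, w20, w21, w22, w23,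
    w24, w25, w26, w27, w28, w29, w30, w31, w34, w35, w36, w37, w40, w41, w42, w43, w46, w47,
    w48, w49, w52, w53, w54, w55, w58, w59, w60, w61, w64, w65, w66, w67, w70, w71, w72, w73,
    w74, w75, w76, w77, w78, w79, w80, w81, w82, w83, w84, w85, w86, w87, w90, w93, w96, w99,
    w102, w105, w108] →
    Concl 40440182 [m14, m13, m12, m11, m10, m9, m8, m7, m6, m5, m4, m3, m2, m1, w0, w1, w2, w3,
    w4, w5, w6, w7, w8, w9, w10, w11, w12, w13, w14, w15, w16, w17, w18, w19, w20, w21, w22, w23,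
    w24, w25, w26, w27, w28, w29, w30, w31, w34, w35, w36, w37, w40, w41, w42, w43, w46, w47,
    w48, w49, w52, w53, w54, w55, w58, w59, w60, w61, w64, w65, w66, w67, w70, w71, w72, w73,
    w74, w75, w76, w77, w78, w79, w80, w81, w82, w83, w84, w85, w86, w87, w90, w93, w96, w99,
    w102, w105, w108] :=
  next (i := 40) (j := 40) rfl rfl s15 c16

theorem c14 : Valid [m13, m12, m11, m10, m9, m8, m7, m6, m5, m4, m3, m2, m1, w0, w1, w2, w3, w4,
    w5, w6, w7, w8, w9, w10, w11, w12, w13, w14, w15, w16, w17, w18, w19, w20, w21, w22, w23,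
    w24, w25, w26, w27, w28, w29, w30, w31, w34, w35, w36, w37, w40, w41, w42, w43, w46, w47,
    w48, w49, w52, w53, w54, w55, w58, w59, w60, w61, w64, w65, w66, w67, w70, w71, w72, w73,
    w74, w75, w76, w77, w78, w79, w80, w81, w82, w83, w84, w85, w86, w87, w88, w89, w90, w93,
    w96, w99, w102, w105, w108] →
    Concl 40440182 [m13, m12, m11, m10, m9, m8, m7, m6, m5, m4, m3, m2, m1, w0, w1, w2, w3, w4,
    w5, w6, w7, w8, w9, w10, w11, w12, w13, w14, w15, w16, w17, w18, w19, w20, w21, w22, w23,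
    w24, w25, w26, w27, w28, w29, w30, w31, w34, w35, w36, w37, w40, w41, w42, w43, w46, w47,
    w48, w49, w52, w53, w54, w55, w58, w59, w60, w61, w64, w65, w66, w67, w70, w71, w72, w73,
    w74, w75, w76, w77, w78, w79, w80, w81, w82, w83, w84, w85, w86, w87, w88, w89, w90, w93,
    w96, w99, w102, w105, w108] :=
  next (i := 87) (j := 87) rfl rfl s14 c15

theorem c13 : Valid [m12, m11, m10, m9, m8, m7, m6, m5, m4, m3, m2, m1, w0, w1, w2, w3, w4, w5,
    w6, w7, w8, w9, w10, w11, w12, w13, w14, w15, w16, w17, w18, w19, w20, w21, w22, w23, w24,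
    w25, w26, w27, w28, w29, w30, w31, w32, w33, w34, w35, w36, w37, w40, w41, w42, w43, w46,
    w47, w48, w49, w52, w53, w54, w55, w58, w59, w60, w61, w64, w65, w66, w67, w70, w71, w72,
    w73, w74, w75, w76, w77, w78, w79, w80, w81, w82, w83, w84, w85, w86, w87, w88, w89, w90,
    w93, w96, w99, w102, w105, w108] →
    Concl 40440182 [m12, m11, m10, m9, m8, m7, m6, m5, m4, m3, m2, m1, w0, w1, w2, w3, w4, w5,
    w6, w7, w8, w9, w10, w11, w12, w13, w14, w15, w16, w17, w18, w19, w20, w21, w22, w23, w24,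
    w25, w26, w27, w28, w29, w30, w31, w32, w33, w34, w35, w36, w37, w40, w41, w42, w43, w46,
    w47, w48, w49, w52, w53, w54, w55, w58, w59, w60, w61, w64, w65, w66, w67, w70, w71, w72,
    w73, w74, w75, w76, w77, w78, w79, w80, w81, w82, w83, w84, w85, w86, w87, w88, w89, w90,
    w93, w96, w99, w102, w105, w108] :=
  next (i := 44) (j := 44) rfl rfl s13 c14

theorem c12 : Valid [m11, m10, m9, m8, m7, m6, m5, m4, m3, m2, m1, w0, w1, w2, w3, w4, w5, w6,
    w7, w8, w9, w10, w11, w12, w13, w14, w15, w16, w17, w18, w19, w20, w21, w22, w23, w24, w25,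
    w26, w27, w28, w29, w30, w31, w32, w33, w34, w35, w36, w37, w40, w41, w42, w43, w46, w47,
    w48, w49, w52, w53, w54, w55, w58, w59, w60, w61, w64, w65, w66, w67, w70, w71, w72, w73,
    w74, w75, w76, w77, w78, w79, w80, w81, w82, w83, w84, w85, w86, w87, w88, w89, w90, w91,
    w92, w93, w96, w99, w102, w105, w108] →
    Concl 40440182 [m11, m10, m9, m8, m7, m6, m5, m4, m3, m2, m1, w0, w1, w2, w3, w4, w5, w6, w7,
    w8, w9, w10, w11, w12, w13, w14, w15, w16, w17, w18, w19, w20, w21, w22, w23, w24, w25, w26,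
    w27, w28, w29, w30, w31, w32, w33, w34, w35, w36, w37, w40, w41, w42, w43, w46, w47, w48,
    w49, w52, w53, w54, w55, w58, w59, w60, w61, w64, w65, w66, w67, w70, w71, w72, w73, w74,
    w75, w76, w77, w78, w79, w80, w81, w82, w83, w84, w85, w86, w87, w88, w89, w90, w91, w92,
    w93, w96, w99, w102, w105, w108] :=
  next (i := 90) (j := 90) rfl rfl s12 c13

theorem c11 : Valid [m10, m9, m8, m7, m6, m5, m4, m3, m2, m1, w0, w1, w2, w3, w4, w5, w6, w7, w8,
    w9, w10, w11, w12, w13, w14, w15, w16, w17, w18, w19, w20, w21, w22, w23, w24, w25, w26, w27,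
    w28, w29, w30, w31, w32, w33, w34, w35, w36, w37, w38, w39, w40, w41, w42, w43, w46, w47,
    w48, w49, w52, w53, w54, w55, w58, w59, w60, w61, w64, w65, w66, w67, w70, w71, w72, w73,
    w74, w75, w76, w77, w78, w79, w80, w81, w82, w83, w84, w85, w86, w87, w88, w89, w90, w91,
    w92, w93, w96, w99, w102, w105, w108] →
    Concl 40440182 [m10, m9, m8, m7, m6, m5, m4, m3, m2, m1, w0, w1, w2, w3, w4, w5, w6, w7, w8,
    w9, w10, w11, w12, w13, w14, w15, w16, w17, w18, w19, w20, w21, w22, w23, w24, w25, w26, w27,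
    w28, w29, w30, w31, w32, w33, w34, w35, w36, w37, w38, w39, w40, w41, w42, w43, w46, w47,
    w48, w49, w52, w53, w54, w55, w58, w59, w60, w61, w64, w65, w66, w67, w70, w71, w72, w73,
    w74, w75, w76, w77, w78, w79, w80, w81, w82, w83, w84, w85, w86, w87, w88, w89, w90, w91,
    w92, w93, w96, w99, w102, w105, w108] :=
  next (i := 48) (j := 48) rfl rfl s11 c12

theorem c10 : Valid [m9, m8, m7, m6, m5, m4, m3, m2, m1, w0, w1, w2, w3, w4, w5, w6, w7, w8, w9,
    w10, w11, w12, w13, w14, w15, w16, w17, w18, w19, w20, w21, w22, w23, w24, w25, w26, w27,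
    w28, w29, w30, w31, w32, w33, w34, w35, w36, w37, w38, w39, w40, w41, w42, w43, w46, w47,
    w48, w49, w52, w53, w54, w55, w58, w59, w60, w61, w64, w65, w66, w67, w70, w71, w72, w73,
    w74, w75, w76, w77, w78, w79, w80, w81, w82, w83, w84, w85, w86, w87, w88, w89, w90, w91,
    w92, w93, w94, w95, w96, w99, w102, w105, w108] →
    Concl 40440182 [m9, m8, m7, m6, m5, m4, m3, m2, m1, w0, w1, w2, w3, w4, w5, w6, w7, w8, w9,
    w10, w11, w12, w13, w14, w15, w16, w17, w18, w19, w20, w21, w22, w23, w24, w25, w26, w27,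
    w28, w29, w30, w31, w32, w33, w34, w35, w36, w37, w38, w39, w40, w41, w42, w43, w46, w47,
    w48, w49, w52, w53, w54, w55, w58, w59, w60, w61, w64, w65, w66, w67, w70, w71, w72, w73,
    w74, w75, w76, w77, w78, w79, w80, w81, w82, w83, w84, w85, w86, w87, w88, w89, w90, w91,
    w92, w93, w94, w95, w96, w99, w102, w105, w108] :=
  next (i := 93) (j := 93) rfl rfl s10 c11

theorem c9 : Valid [m8, m7, m6, m5, m4, m3, m2, m1, w0, w1, w2, w3, w4, w5, w6, w7, w8, w9, w10,
    w11, w12, w13, w14, w15, w16, w17, w18, w19, w20, w21, w22, w23, w24, w25, w26, w27, w28,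
    w29, w30, w31, w32, w33, w34, w35, w36, w37, w38, w39, w40, w41, w42, w43, w44, w45, w46,
    w47, w48, w49, w52, w53, w54, w55, w58, w59, w60, w61, w64, w65, w66, w67, w70, w71, w72,
    w73, w74, w75, w76, w77, w78, w79, w80, w81, w82, w83, w84, w85, w86, w87, w88, w89, w90,
    w91, w92, w93, w94, w95, w96, w99, w102, w105, w108] →
    Concl 40440182 [m8, m7, m6, m5, m4, m3, m2, m1, w0, w1, w2, w3, w4, w5, w6, w7, w8, w9, w10,
    w11, w12, w13, w14, w15, w16, w17, w18, w19, w20, w21, w22, w23, w24, w25, w26, w27, w28,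
    w29, w30, w31, w32, w33, w34, w35, w36, w37, w38, w39, w40, w41, w42, w43, w44, w45, w46,
    w47, w48, w49, w52, w53, w54, w55, w58, w59, w60, w61, w64, w65, w66, w67, w70, w71, w72,
    w73, w74, w75, w76, w77, w78, w79, w80, w81, w82, w83, w84, w85, w86, w87, w88, w89, w90,
    w91, w92, w93, w94, w95, w96, w99, w102, w105, w108] :=
  next (i := 52) (j := 52) rfl rfl s9 c10

theorem c8 : Valid [m7, m6, m5, m4, m3, m2, m1, w0, w1, w2, w3, w4, w5, w6, w7, w8, w9, w10, w11,
    w12, w13, w14, w15, w16, w17, w18, w19, w20, w21, w22, w23, w24, w25, w26, w27, w28, w29,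
    w30, w31, w32, w33, w34, w35, w36, w37, w38, w39, w40, w41, w42, w43, w44, w45, w46, w47,
    w48, w49, w52, w53, w54, w55, w58, w59, w60, w61, w64, w65, w66, w67, w70, w71, w72, w73,
    w74, w75, w76, w77, w78, w79, w80, w81, w82, w83, w84, w85, w86, w87, w88, w89, w90, w91,
    w92, w93, w94, w95, w96, w97, w98, w99, w102, w105, w108] →
    Concl 40440182 [m7, m6, m5, m4, m3, m2, m1, w0, w1, w2, w3, w4, w5, w6, w7, w8, w9, w10, w11,
    w12, w13, w14, w15, w16, w17, w18, w19, w20, w21, w22, w23, w24, w25, w26, w27, w28, w29,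
    w30, w31, w32, w33, w34, w35, w36, w37, w38, w39, w40, w41, w42, w43, w44, w45, w46, w47,
    w48, w49, w52, w53, w54, w55, w58, w59, w60, w61, w64, w65, w66, w67, w70, w71, w72, w73,
    w74, w75, w76, w77, w78, w79, w80, w81, w82, w83, w84, w85, w86, w87, w88, w89, w90, w91,
    w92, w93, w94, w95, w96, w97, w98, w99, w102, w105, w108] :=
  next (i := 96) (j := 96) rfl rfl s8 c9

theorem c7 : Valid [m6, m5, m4, m3, m2, m1, w0, w1, w2, w3, w4, w5, w6, w7, w8, w9, w10, w11,
    w12, w13, w14, w15, w16, w17, w18, w19, w20, w21, w22, w23, w24, w25, w26, w27, w28, w29,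
    w30, w31, w32, w33, w34, w35, w36, w37, w38, w39, w40, w41, w42, w43, w44, w45, w46, w47,
    w48, w49, w50, w51, w52, w53, w54, w55, w58, w59, w60, w61, w64, w65, w66, w67, w70, w71,
    w72, w73, w74, w75, w76, w77, w78, w79, w80, w81, w82, w83, w84, w85, w86, w87, w88, w89,
    w90, w91, w92, w93, w94, w95, w96, w97, w98, w99, w102, w105, w108] →
    Concl 40440182 [m6, m5, m4, m3, m2, m1, w0, w1, w2, w3, w4, w5, w6, w7, w8, w9, w10, w11,
    w12, w13, w14, w15, w16, w17, w18, w19, w20, w21, w22, w23, w24, w25, w26, w27, w28, w29,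
    w30, w31, w32, w33, w34, w35, w36, w37, w38, w39, w40, w41, w42, w43, w44, w45, w46, w47,
    w48, w49, w50, w51, w52, w53, w54, w55, w58, w59, w60, w61, w64, w65, w66, w67, w70, w71,
    w72, w73, w74, w75, w76, w77, w78, w79, w80, w81, w82, w83, w84, w85, w86, w87, w88, w89,
    w90, w91, w92, w93, w94, w95, w96, w97, w98, w99, w102, w105, w108] :=
  next (i := 56) (j := 56) rfl rfl s7 c8

theorem c6 : Valid [m5, m4, m3, m2, m1, w0, w1, w2, w3, w4, w5, w6, w7, w8, w9, w10, w11, w12,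
    w13, w14, w15, w16, w17, w18, w19, w20, w21, w22, w23, w24, w25, w26, w27, w28, w29, w30,
    w31, w32, w33, w34, w35, w36, w37, w38, w39, w40, w41, w42, w43, w44, w45, w46, w47, w48,
    w49, w50, w51, w52, w53, w54, w55, w58, w59, w60, w61, w64, w65, w66, w67, w70, w71, w72,
    w73, w74, w75, w76, w77, w78, w79, w80, w81, w82, w83, w84, w85, w86, w87, w88, w89, w90,
    w91, w92, w93, w94, w95, w96, w97, w98, w99, w100, w101, w102, w105, w108] →
    Concl 40440182 [m5, m4, m3, m2, m1, w0, w1, w2, w3, w4, w5, w6, w7, w8, w9, w10, w11, w12,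
    w13, w14, w15, w16, w17, w18, w19, w20, w21, w22, w23, w24, w25, w26, w27, w28, w29, w30,
    w31, w32, w33, w34, w35, w36, w37, w38, w39, w40, w41, w42, w43, w44, w45, w46, w47, w48,
    w49, w50, w51, w52, w53, w54, w55, w58, w59, w60, w61, w64, w65, w66, w67, w70, w71, w72,
    w73, w74, w75, w76, w77, w78, w79, w80, w81, w82, w83, w84, w85, w86, w87, w88, w89, w90,
    w91, w92, w93, w94, w95, w96, w97, w98, w99, w100, w101, w102, w105, w108] :=
  next (i := 99) (j := 99) rfl rfl s6 c7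

theorem c5 : Valid [m4, m3, m2, m1, w0, w1, w2, w3, w4, w5, w6, w7, w8, w9, w10, w11, w12, w13,
    w14, w15, w16, w17, w18, w19, w20, w21, w22, w23, w24, w25, w26, w27, w28, w29, w30, w31,
    w32, w33, w34, w35, w36, w37, w38, w39, w40, w41, w42, w43, w44, w45, w46, w47, w48, w49,
    w50, w51, w52, w53, w54, w55, w56, w57, w58, w59, w60, w61, w64, w65, w66, w67, w70, w71,
    w72, w73, w74, w75, w76, w77, w78, w79, w80, w81, w82, w83, w84, w85, w86, w87, w88, w89,
    w90, w91, w92, w93, w94, w95, w96, w97, w98, w99, w100, w101, w102, w105, w108] →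
    Concl 40440182 [m4, m3, m2, m1, w0, w1, w2, w3, w4, w5, w6, w7, w8, w9, w10, w11, w12, w13,
    w14, w15, w16, w17, w18, w19, w20, w21, w22, w23, w24, w25, w26, w27, w28, w29, w30, w31,
    w32, w33, w34, w35, w36, w37, w38, w39, w40, w41, w42, w43, w44, w45, w46, w47, w48, w49,
    w50, w51, w52, w53, w54, w55, w56, w57, w58, w59, w60, w61, w64, w65, w66, w67, w70, w71,
    w72, w73, w74, w75, w76, w77, w78, w79, w80, w81, w82, w83, w84, w85, w86, w87, w88, w89,
    w90, w91, w92, w93, w94, w95, w96, w97, w98, w99, w100, w101, w102, w105, w108] :=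
  next (i := 60) (j := 60) rfl rfl s5 c6

theorem c4 : Valid [m3, m2, m1, w0, w1, w2, w3, w4, w5, w6, w7, w8, w9, w10, w11, w12, w13, w14,
    w15, w16, w17, w18, w19, w20, w21, w22, w23, w24, w25, w26, w27, w28, w29, w30, w31, w32,
    w33, w34, w35, w36, w37, w38, w39, w40, w41, w42, w43, w44, w45, w46, w47, w48, w49, w50,
    w51, w52, w53, w54, w55, w56, w57, w58, w59, w60, w61, w64, w65, w66, w67, w70, w71, w72,
    w73, w74, w75, w76, w77, w78, w79, w80, w81, w82, w83, w84, w85, w86, w87, w88, w89, w90,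
    w91, w92, w93, w94, w95, w96, w97, w98, w99, w100, w101, w102, w103, w104, w105, w108] →
    Concl 40440182 [m3, m2, m1, w0, w1, w2, w3, w4, w5, w6, w7, w8, w9, w10, w11, w12, w13, w14,
    w15, w16, w17, w18, w19, w20, w21, w22, w23, w24, w25, w26, w27, w28, w29, w30, w31, w32,
    w33, w34, w35, w36, w37, w38, w39, w40, w41, w42, w43, w44, w45, w46, w47, w48, w49, w50,
    w51, w52, w53, w54, w55, w56, w57, w58, w59, w60, w61, w64, w65, w66, w67, w70, w71, w72,
    w73, w74, w75, w76, w77, w78, w79, w80, w81, w82, w83, w84, w85, w86, w87, w88, w89, w90,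
    w91, w92, w93, w94, w95, w96, w97, w98, w99, w100, w101, w102, w103, w104, w105, w108] :=
  next (i := 102) (j := 102) rfl rfl s4 c5

theorem c3 : Valid [m2, m1, w0, w1, w2, w3, w4, w5, w6, w7, w8, w9, w10, w11, w12, w13, w14, w15,
    w16, w17, w18, w19, w20, w21, w22, w23, w24, w25, w26, w27, w28, w29, w30, w31, w32, w33,
    w34, w35, w36, w37, w38, w39, w40, w41, w42, w43, w44, w45, w46, w47, w48, w49, w50, w51,
    w52, w53, w54, w55, w56, w57, w58, w59, w60, w61, w62, w63, w64, w65, w66, w67, w70, w71,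
    w72, w73, w74, w75, w76, w77, w78, w79, w80, w81, w82, w83, w84, w85, w86, w87, w88, w89,
    w90, w91, w92, w93, w94, w95, w96, w97, w98, w99, w100, w101, w102, w103, w104, w105, w108] →
    Concl 40440182 [m2, m1, w0, w1, w2, w3, w4, w5, w6, w7, w8, w9, w10, w11, w12, w13, w14, w15,
    w16, w17, w18, w19, w20, w21, w22, w23, w24, w25, w26, w27, w28, w29, w30, w31, w32, w33,
    w34, w35, w36, w37, w38, w39, w40, w41, w42, w43, w44, w45, w46, w47, w48, w49, w50, w51,
    w52, w53, w54, w55, w56, w57, w58, w59, w60, w61, w62, w63, w64, w65, w66, w67, w70, w71,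
    w72, w73, w74, w75, w76, w77, w78, w79, w80, w81, w82, w83, w84, w85, w86, w87, w88, w89,
    w90, w91, w92, w93, w94, w95, w96, w97, w98, w99, w100, w101, w102, w103, w104, w105, w108] :=
  next (i := 64) (j := 64) rfl rfl s3 c4

theorem c2 : Valid [m1, w0, w1, w2, w3, w4, w5, w6, w7, w8, w9, w10, w11, w12, w13, w14, w15,
    w16, w17, w18, w19, w20, w21, w22, w23, w24, w25, w26, w27, w28, w29, w30, w31, w32, w33,
    w34, w35, w36, w37, w38, w39, w40, w41, w42, w43, w44, w45, w46, w47, w48, w49, w50, w51,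
    w52, w53, w54, w55, w56, w57, w58, w59, w60, w61, w62, w63, w64, w65, w66, w67, w70, w71,
    w72, w73, w74, w75, w76, w77, w78, w79, w80, w81, w82, w83, w84, w85, w86, w87, w88, w89,
    w90, w91, w92, w93, w94, w95, w96, w97, w98, w99, w100, w101, w102, w103, w104, w105, w106,
    w107, w108] →
    Concl 40440182 [m1, w0, w1, w2, w3, w4, w5, w6, w7, w8, w9, w10, w11, w12, w13, w14, w15,
    w16, w17, w18, w19, w20, w21, w22, w23, w24, w25, w26, w27, w28, w29, w30, w31, w32, w33,
    w34, w35, w36, w37, w38, w39, w40, w41, w42, w43, w44, w45, w46, w47, w48, w49, w50, w51,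
    w52, w53, w54, w55, w56, w57, w58, w59, w60, w61, w62, w63, w64, w65, w66, w67, w70, w71,
    w72, w73, w74, w75, w76, w77, w78, w79, w80, w81, w82, w83, w84, w85, w86, w87, w88, w89,
    w90, w91, w92, w93, w94, w95, w96, w97, w98, w99, w100, w101, w102, w103, w104, w105, w106,
    w107, w108] :=
  next (i := 105) (j := 105) rfl rfl s2 c3

theorem c1 : Valid [w0, w1, w2, w3, w4, w5, w6, w7, w8, w9, w10, w11, w12, w13, w14, w15, w16,
    w17, w18, w19, w20, w21, w22, w23, w24, w25, w26, w27, w28, w29, w30, w31, w32, w33, w34,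
    w35, w36, w37, w38, w39, w40, w41, w42, w43, w44, w45, w46, w47, w48, w49, w50, w51, w52,
    w53, w54, w55, w56, w57, w58, w59, w60, w61, w62, w63, w64, w65, w66, w67, w68, w69, w70,
    w71, w72, w73, w74, w75, w76, w77, w78, w79, w80, w81, w82, w83, w84, w85, w86, w87, w88,
    w89, w90, w91, w92, w93, w94, w95, w96, w97, w98, w99, w100, w101, w102, w103, w104, w105,
    w106, w107, w108] →
    Concl 40440182 [w0, w1, w2, w3, w4, w5, w6, w7, w8, w9, w10, w11, w12, w13, w14, w15, w16,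
    w17, w18, w19, w20, w21, w22, w23, w24, w25, w26, w27, w28, w29, w30, w31, w32, w33, w34,
    w35, w36, w37, w38, w39, w40, w41, w42, w43, w44, w45, w46, w47, w48, w49, w50, w51, w52,
    w53, w54, w55, w56, w57, w58, w59, w60, w61, w62, w63, w64, w65, w66, w67, w68, w69, w70,
    w71, w72, w73, w74, w75, w76, w77, w78, w79, w80, w81, w82, w83, w84, w85, w86, w87, w88,
    w89, w90, w91, w92, w93, w94, w95, w96, w97, w98, w99, w100, w101, w102, w103, w104, w105,
    w106, w107, w108] :=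
  next (i := 68) (j := 68) rfl rfl s1 c2

theorem first : (covers T L P && (ffree L && good L)) = true := by decide +kernel

theorem forced : (∀ s ∈ fam L, s <:+: ex T) ∧
    ∀ G, IsGreedyOutput (fam L) G → 40440182 ≤ G.length :=
  start first c1

theorem len_T : (ex T).length = 18580603 := by
  rw [length_ex]
  decide +kernel

end Vale.Agent.P333.Rle.V12
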