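import Vale.Agent.P333.CE.DataV20

/-!
P333: steps of the forced greedy run.
-/

namespace Vale.Agent.P333.Rle.V20

set_option maxRecDepth 100000

theorem s9 : okS 920442 w92 w93 m9
    [m8, m7, m6, m5, m4, m3, m2, m1, w0, w1, w2, w3, w4, w5, w6, w7, w8, w9, w10, w11, w12, w13,
    w14, w15, w16, w17, w18, w19, w20, w21, w22, w23, w24, w25, w26, w27, w28, w29, w30, w31,
    w32, w33, w34, w35, w36, w37, w38, w39, w40, w41, w42, w43, w44, w45, w46, w47, w48, w49,
    w50, w51, w52, w53, w54, w55, w56, w57, w58, w59, w60, w61, w62, w63, w64, w65, w66, w67,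
    w68, w69, w70, w71, w72, w73, w74, w75, w76, w77, w78, w79, w80, w81, w82, w83, w84, w85,
    w86, w87, w88, w89, w90, w91, w94, w95, w96, w97, w100, w101, w102, w103, w106, w107, w108,
    w109, w112, w113, w114, w115, w118, w119, w120, w121, w122, w123, w124, w125, w126, w127,
    w128, w129, w130, w131, w132, w133, w134, w135, w136, w137, w138, w139, w140, w141, w142,
    w143, w144, w145, w146, w147, w148, w149, w150, w151, w152, w153, w154, w155, w156, w157,
    w158, w159, w160, w161, w162, w163, w164, w165, w166, w167, w168, w171, w174, w177,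
    w180] = true :=
  okS_of (by decide +kernel) (by decide +kernel)

theorem s10 : okS 920440 w166 w167 m10
    [m9, m8, m7, m6, m5, m4, m3, m2, m1, w0, w1, w2, w3, w4, w5, w6, w7, w8, w9, w10, w11, w12,
    w13, w14, w15, w16, w17, w18, w19, w20, w21, w22, w23, w24, w25, w26, w27, w28, w29, w30,
    w31, w32, w33, w34, w35, w36, w37, w38, w39, w40, w41, w42, w43, w44, w45, w46, w47, w48,
    w49, w50, w51, w52, w53, w54, w55, w56, w57, w58, w59, w60, w61, w62, w63, w64, w65, w66,
    w67, w68, w69, w70, w71, w72, w73, w74, w75, w76, w77, w78, w79, w80, w81, w82, w83, w84,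
    w85, w86, w87, w88, w89, w90, w91, w94, w95, w96, w97, w100, w101, w102, w103, w106, w107,
    w108, w109, w112, w113, w114, w115, w118, w119, w120, w121, w122, w123, w124, w125, w126,
    w127, w128, w129, w130, w131, w132, w133, w134, w135, w136, w137, w138, w139, w140, w141,
    w142, w143, w144, w145, w146, w147, w148, w149, w150, w151, w152, w153, w154, w155, w156,
    w157, w158, w159, w160, w161, w162, w163, w164, w165, w168, w171, w174, w177, w180] = true :=
  okS_of (by decide +kernel) (by decide +kernel)

theorem s11 : okS 919163 w86 w87 m11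
    [m10, m9, m8, m7, m6, m5, m4, m3, m2, m1, w0, w1, w2, w3, w4, w5, w6, w7, w8, w9, w10, w11,
    w12, w13, w14, w15, w16, w17, w18, w19, w20, w21, w22, w23, w24, w25, w26, w27, w28, w29,
    w30, w31, w32, w33, w34, w35, w36, w37, w38, w39, w40, w41, w42, w43, w44, w45, w46, w47,
    w48, w49, w50, w51, w52, w53, w54, w55, w56, w57, w58, w59, w60, w61, w62, w63, w64, w65,
    w66, w67, w68, w69, w70, w71, w72, w73, w74, w75, w76, w77, w78, w79, w80, w81, w82, w83,
    w84, w85, w88, w89, w90, w91, w94, w95, w96, w97, w100, w101, w102, w103, w106, w107, w108,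
    w109, w112, w113, w114, w115, w118, w119, w120, w121, w122, w123, w124, w125, w126, w127,
    w128, w129, w130, w131, w132, w133, w134, w135, w136, w137, w138, w139, w140, w141, w142,
    w143, w144, w145, w146, w147, w148, w149, w150, w151, w152, w153, w154, w155, w156, w157,
    w158, w159, w160, w161, w162, w163, w164, w165, w168, w171, w174, w177, w180] = true :=
  okS_of (by decide +kernel) (by decide +kernel)

theorem s12 : okS 919161 w163 w164 m12
    [m11, m10, m9, m8, m7, m6, m5, m4, m3, m2, m1, w0, w1, w2, w3, w4, w5, w6, w7, w8, w9, w10,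
    w11, w12, w13, w14, w15, w16, w17, w18, w19, w20, w21, w22, w23, w24, w25, w26, w27, w28,
    w29, w30, w31, w32, w33, w34, w35, w36, w37, w38, w39, w40, w41, w42, w43, w44, w45, w46,
    w47, w48, w49, w50, w51, w52, w53, w54, w55, w56, w57, w58, w59, w60, w61, w62, w63, w64,
    w65, w66, w67, w68, w69, w70, w71, w72, w73, w74, w75, w76, w77, w78, w79, w80, w81, w82,
    w83, w84, w85, w88, w89, w90, w91, w94, w95, w96, w97, w100, w101, w102, w103, w106, w107,
    w108, w109, w112, w113, w114, w115, w118, w119, w120, w121, w122, w123, w124, w125, w126,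
    w127, w128, w129, w130, w131, w132, w133, w134, w135, w136, w137, w138, w139, w140, w141,
    w142, w143, w144, w145, w146, w147, w148, w149, w150, w151, w152, w153, w154, w155, w156,
    w157, w158, w159, w160, w161, w162, w165, w168, w171, w174, w177, w180] = true :=
  okS_of (by decide +kernel) (by decide +kernel)

theorem s13 : okS 917884 w80 w81 m13
    [m12, m11, m10, m9, m8, m7, m6, m5, m4, m3, m2, m1, w0, w1, w2, w3, w4, w5, w6, w7, w8, w9,
    w10, w11, w12, w13, w14, w15, w16, w17, w18, w19, w20, w21, w22, w23, w24, w25, w26, w27,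
    w28, w29, w30, w31, w32, w33, w34, w35, w36, w37, w38, w39, w40, w41, w42, w43, w44, w45,
    w46, w47, w48, w49, w50, w51, w52, w53, w54, w55, w56, w57, w58, w59, w60, w61, w62, w63,
    w64, w65, w66, w67, w68, w69, w70, w71, w72, w73, w74, w75, w76, w77, w78, w79, w82, w83,
    w84, w85, w88, w89, w90, w91, w94, w95, w96, w97, w100, w101, w102, w103, w106, w107, w108,
    w109, w112, w113, w114, w115, w118, w119, w120, w121, w122, w123, w124, w125, w126, w127,
    w128, w129, w130, w131, w132, w133, w134, w135, w136, w137, w138, w139, w140, w141, w142,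
    w143, w144, w145, w146, w147, w148, w149, w150, w151, w152, w153, w154, w155, w156, w157,
    w158, w159, w160, w161, w162, w165, w168, w171, w174, w177, w180] = true :=
  okS_of (by decide +kernel) (by decide +kernel)

theorem s14 : okS 917882 w160 w161 m14
    [m13, m12, m11, m10, m9, m8, m7, m6, m5, m4, m3, m2, m1, w0, w1, w2, w3, w4, w5, w6, w7, w8,
    w9, w10, w11, w12, w13, w14, w15, w16, w17, w18, w19, w20, w21, w22, w23, w24, w25, w26, w27,
    w28, w29, w30, w31, w32, w33, w34, w35, w36, w37, w38, w39, w40, w41, w42, w43, w44, w45,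
    w46, w47, w48, w49, w50, w51, w52, w53, w54, w55, w56, w57, w58, w59, w60, w61, w62, w63,
    w64, w65, w66, w67, w68, w69, w70, w71, w72, w73, w74, w75, w76, w77, w78, w79, w82, w83,
    w84, w85, w88, w89, w90, w91, w94, w95, w96, w97, w100, w101, w102, w103, w106, w107, w108,
    w109, w112, w113, w114, w115, w118, w119, w120, w121, w122, w123, w124, w125, w126, w127,
    w128, w129, w130, w131, w132, w133, w134, w135, w136, w137, w138, w139, w140, w141, w142,
    w143, w144, w145, w146, w147, w148, w149, w150, w151, w152, w153, w154, w155, w156, w157,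
    w158, w159, w162, w165, w168, w171, w174, w177, w180] = true :=
  okS_of (by decide +kernel) (by decide +kernel)

theorem s15 : okS 916605 w74 w75 m15
    [m14, m13, m12, m11, m10, m9, m8, m7, m6, m5, m4, m3, m2, m1, w0, w1, w2, w3, w4, w5, w6, w7,
    w8, w9, w10, w11, w12, w13, w14, w15, w16, w17, w18, w19, w20, w21, w22, w23, w24, w25, w26,
    w27, w28, w29, w30, w31, w32, w33, w34, w35, w36, w37, w38, w39, w40, w41, w42, w43, w44,
    w45, w46, w47, w48, w49, w50, w51, w52, w53, w54, w55, w56, w57, w58, w59, w60, w61, w62,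
    w63, w64, w65, w66, w67, w68, w69, w70, w71, w72, w73, w76, w77, w78, w79, w82, w83, w84,
    w85, w88, w89, w90, w91, w94, w95, w96, w97, w100, w101, w102, w103, w106, w107, w108, w109,
    w112, w113, w114, w115, w118, w119, w120, w121, w122, w123, w124, w125, w126, w127, w128,
    w129, w130, w131, w132, w133, w134, w135, w136, w137, w138, w139, w140, w141, w142, w143,
    w144, w145, w146, w147, w148, w149, w150, w151, w152, w153, w154, w155, w156, w157, w158,
    w159, w162, w165, w168, w171, w174, w177, w180] = true :=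
  okS_of (by decide +kernel) (by decide +kernel)

theorem s16 : okS 916603 w157 w158 m16
    [m15, m14, m13, m12, m11, m10, m9, m8, m7, m6, m5, m4, m3, m2, m1, w0, w1, w2, w3, w4, w5,
    w6, w7, w8, w9, w10, w11, w12, w13, w14, w15, w16, w17, w18, w19, w20, w21, w22, w23, w24,
    w25, w26, w27, w28, w29, w30, w31, w32, w33, w34, w35, w36, w37, w38, w39, w40, w41, w42,
    w43, w44, w45, w46, w47, w48, w49, w50, w51, w52, w53, w54, w55, w56, w57, w58, w59, w60,
    w61, w62, w63, w64, w65, w66, w67, w68, w69, w70, w71, w72, w73, w76, w77, w78, w79, w82,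
    w83, w84, w85, w88, w89, w90, w91, w94, w95, w96, w97, w100, w101, w102, w103, w106, w107,
    w108, w109, w112, w113, w114, w115, w118, w119, w120, w121, w122, w123, w124, w125, w126,
    w127, w128, w129, w130, w131, w132, w133, w134, w135, w136, w137, w138, w139, w140, w141,
    w142, w143, w144, w145, w146, w147, w148, w149, w150, w151, w152, w153, w154, w155, w156,
    w159, w162, w165, w168, w171, w174, w177, w180] = true :=
  okS_of (by decide +kernel) (by decide +kernel)

theorem s17 : okS 915326 w68 w69 m17
    [m16, m15, m14, m13, m12, m11, m10, m9, m8, m7, m6, m5, m4, m3, m2, m1, w0, w1, w2, w3, w4,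
    w5, w6, w7, w8, w9, w10, w11, w12, w13, w14, w15, w16, w17, w18, w19, w20, w21, w22, w23,
    w24, w25, w26, w27, w28, w29, w30, w31, w32, w33, w34, w35, w36, w37, w38, w39, w40, w41,
    w42, w43, w44, w45, w46, w47, w48, w49, w50, w51, w52, w53, w54, w55, w56, w57, w58, w59,
    w60, w61, w62, w63, w64, w65, w66, w67, w70, w71, w72, w73, w76, w77, w78, w79, w82, w83,
    w84, w85, w88, w89, w90, w91, w94, w95, w96, w97, w100, w101, w102, w103, w106, w107, w108,
    w109, w112, w113, w114, w115, w118, w119, w120, w121, w122, w123, w124, w125, w126, w127,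
    w128, w129, w130, w131, w132, w133, w134, w135, w136, w137, w138, w139, w140, w141, w142,
    w143, w144, w145, w146, w147, w148, w149, w150, w151, w152, w153, w154, w155, w156, w159,
    w162, w165, w168, w171, w174, w177, w180] = true :=
  okS_of (by decide +kernel) (by decide +kernel)

end Vale.Agent.P333.Rle.V20
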