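import Vale.Agent.P333.CE.DataV20

/-!
P333: steps of the forced greedy run.
-/

namespace Vale.Agent.P333.Rle.V20

set_option maxRecDepth 100000

theorem s18 : okS 915324 w154 w155 m18
    [m17, m16, m15, m14, m13, m12, m11, m10, m9, m8, m7, m6, m5, m4, m3, m2, m1, w0, w1, w2, w3,
    w4, w5, w6, w7, w8, w9, w10, w11, w12, w13, w14, w15, w16, w17, w18, w19, w20, w21, w22, w23,
    w24, w25, w26, w27, w28, w29, w30, w31, w32, w33, w34, w35, w36, w37, w38, w39, w40, w41,
    w42, w43, w44, w45, w46, w47, w48, w49, w50, w51, w52, w53, w54, w55, w56, w57, w58, w59,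
    w60, w61, w62, w63, w64, w65, w66, w67, w70, w71, w72, w73, w76, w77, w78, w79, w82, w83,
    w84, w85, w88, w89, w90, w91, w94, w95, w96, w97, w100, w101, w102, w103, w106, w107, w108,
    w109, w112, w113, w114, w115, w118, w119, w120, w121, w122, w123, w124, w125, w126, w127,
    w128, w129, w130, w131, w132, w133, w134, w135, w136, w137, w138, w139, w140, w141, w142,
    w143, w144, w145, w146, w147, w148, w149, w150, w151, w152, w153, w156, w159, w162, w165,
    w168, w171, w174, w177, w180] = true :=
  okS_of (by decide +kernel) (by decide +kernel)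

theorem s19 : okS 914047 w62 w63 m19
    [m18, m17, m16, m15, m14, m13, m12, m11, m10, m9, m8, m7, m6, m5, m4, m3, m2, m1, w0, w1, w2,
    w3, w4, w5, w6, w7, w8, w9, w10, w11, w12, w13, w14, w15, w16, w17, w18, w19, w20, w21, w22,
    w23, w24, w25, w26, w27, w28, w29, w30, w31, w32, w33, w34, w35, w36, w37, w38, w39, w40,
    w41, w42, w43, w44, w45, w46, w47, w48, w49, w50, w51, w52, w53, w54, w55, w56, w57, w58,
    w59, w60, w61, w64, w65, w66, w67, w70, w71, w72, w73, w76, w77, w78, w79, w82, w83, w84,
    w85, w88, w89, w90, w91, w94, w95, w96, w97, w100, w101, w102, w103, w106, w107, w108, w109,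
    w112, w113, w114, w115, w118, w119, w120, w121, w122, w123, w124, w125, w126, w127, w128,
    w129, w130, w131, w132, w133, w134, w135, w136, w137, w138, w139, w140, w141, w142, w143,
    w144, w145, w146, w147, w148, w149, w150, w151, w152, w153, w156, w159, w162, w165, w168,
    w171, w174, w177, w180] = true :=
  okS_of (by decide +kernel) (by decide +kernel)

theorem s20 : okS 914045 w151 w152 m20
    [m19, m18, m17, m16, m15, m14, m13, m12, m11, m10, m9, m8, m7, m6, m5, m4, m3, m2, m1, w0,
    w1, w2, w3, w4, w5, w6, w7, w8, w9, w10, w11, w12, w13, w14, w15, w16, w17, w18, w19, w20,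
    w21, w22, w23, w24, w25, w26, w27, w28, w29, w30, w31, w32, w33, w34, w35, w36, w37, w38,
    w39, w40, w41, w42, w43, w44, w45, w46, w47, w48, w49, w50, w51, w52, w53, w54, w55, w56,
    w57, w58, w59, w60, w61, w64, w65, w66, w67, w70, w71, w72, w73, w76, w77, w78, w79, w82,
    w83, w84, w85, w88, w89, w90, w91, w94, w95, w96, w97, w100, w101, w102, w103, w106, w107,
    w108, w109, w112, w113, w114, w115, w118, w119, w120, w121, w122, w123, w124, w125, w126,
    w127, w128, w129, w130, w131, w132, w133, w134, w135, w136, w137, w138, w139, w140, w141,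
    w142, w143, w144, w145, w146, w147, w148, w149, w150, w153, w156, w159, w162, w165, w168,
    w171, w174, w177, w180] = true :=
  okS_of (by decide +kernel) (by decide +kernel)

theorem s21 : okS 912768 w56 w57 m21
    [m20, m19, m18, m17, m16, m15, m14, m13, m12, m11, m10, m9, m8, m7, m6, m5, m4, m3, m2, m1,
    w0, w1, w2, w3, w4, w5, w6, w7, w8, w9, w10, w11, w12, w13, w14, w15, w16, w17, w18, w19,
    w20, w21, w22, w23, w24, w25, w26, w27, w28, w29, w30, w31, w32, w33, w34, w35, w36, w37,
    w38, w39, w40, w41, w42, w43, w44, w45, w46, w47, w48, w49, w50, w51, w52, w53, w54, w55,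
    w58, w59, w60, w61, w64, w65, w66, w67, w70, w71, w72, w73, w76, w77, w78, w79, w82, w83,
    w84, w85, w88, w89, w90, w91, w94, w95, w96, w97, w100, w101, w102, w103, w106, w107, w108,
    w109, w112, w113, w114, w115, w118, w119, w120, w121, w122, w123, w124, w125, w126, w127,
    w128, w129, w130, w131, w132, w133, w134, w135, w136, w137, w138, w139, w140, w141, w142,
    w143, w144, w145, w146, w147, w148, w149, w150, w153, w156, w159, w162, w165, w168, w171,
    w174, w177, w180] = true :=
  okS_of (by decide +kernel) (by decide +kernel)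

theorem s22 : okS 912766 w148 w149 m22
    [m21, m20, m19, m18, m17, m16, m15, m14, m13, m12, m11, m10, m9, m8, m7, m6, m5, m4, m3, m2,
    m1, w0, w1, w2, w3, w4, w5, w6, w7, w8, w9, w10, w11, w12, w13, w14, w15, w16, w17, w18, w19,
    w20, w21, w22, w23, w24, w25, w26, w27, w28, w29, w30, w31, w32, w33, w34, w35, w36, w37,
    w38, w39, w40, w41, w42, w43, w44, w45, w46, w47, w48, w49, w50, w51, w52, w53, w54, w55,
    w58, w59, w60, w61, w64, w65, w66, w67, w70, w71, w72, w73, w76, w77, w78, w79, w82, w83,
    w84, w85, w88, w89, w90, w91, w94, w95, w96, w97, w100, w101, w102, w103, w106, w107, w108,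
    w109, w112, w113, w114, w115, w118, w119, w120, w121, w122, w123, w124, w125, w126, w127,
    w128, w129, w130, w131, w132, w133, w134, w135, w136, w137, w138, w139, w140, w141, w142,
    w143, w144, w145, w146, w147, w150, w153, w156, w159, w162, w165, w168, w171, w174, w177,
    w180] = true :=
  okS_of (by decide +kernel) (by decide +kernel)

theorem s23 : okS 911489 w50 w51 m23
    [m22, m21, m20, m19, m18, m17, m16, m15, m14, m13, m12, m11, m10, m9, m8, m7, m6, m5, m4, m3,
    m2, m1, w0, w1, w2, w3, w4, w5, w6, w7, w8, w9, w10, w11, w12, w13, w14, w15, w16, w17, w18,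
    w19, w20, w21, w22, w23, w24, w25, w26, w27, w28, w29, w30, w31, w32, w33, w34, w35, w36,
    w37, w38, w39, w40, w41, w42, w43, w44, w45, w46, w47, w48, w49, w52, w53, w54, w55, w58,
    w59, w60, w61, w64, w65, w66, w67, w70, w71, w72, w73, w76, w77, w78, w79, w82, w83, w84,
    w85, w88, w89, w90, w91, w94, w95, w96, w97, w100, w101, w102, w103, w106, w107, w108, w109,
    w112, w113, w114, w115, w118, w119, w120, w121, w122, w123, w124, w125, w126, w127, w128,
    w129, w130, w131, w132, w133, w134, w135, w136, w137, w138, w139, w140, w141, w142, w143,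
    w144, w145, w146, w147, w150, w153, w156, w159, w162, w165, w168, w171, w174, w177,
    w180] = true :=
  okS_of (by decide +kernel) (by decide +kernel)

theorem s24 : okS 911487 w145 w146 m24
    [m23, m22, m21, m20, m19, m18, m17, m16, m15, m14, m13, m12, m11, m10, m9, m8, m7, m6, m5,
    m4, m3, m2, m1, w0, w1, w2, w3, w4, w5, w6, w7, w8, w9, w10, w11, w12, w13, w14, w15, w16,
    w17, w18, w19, w20, w21, w22, w23, w24, w25, w26, w27, w28, w29, w30, w31, w32, w33, w34,
    w35, w36, w37, w38, w39, w40, w41, w42, w43, w44, w45, w46, w47, w48, w49, w52, w53, w54,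
    w55, w58, w59, w60, w61, w64, w65, w66, w67, w70, w71, w72, w73, w76, w77, w78, w79, w82,
    w83, w84, w85, w88, w89, w90, w91, w94, w95, w96, w97, w100, w101, w102, w103, w106, w107,
    w108, w109, w112, w113, w114, w115, w118, w119, w120, w121, w122, w123, w124, w125, w126,
    w127, w128, w129, w130, w131, w132, w133, w134, w135, w136, w137, w138, w139, w140, w141,
    w142, w143, w144, w147, w150, w153, w156, w159, w162, w165, w168, w171, w174, w177,
    w180] = true :=
  okS_of (by decide +kernel) (by decide +kernel)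

theorem s25 : okS 910210 w44 w45 m25
    [m24, m23, m22, m21, m20, m19, m18, m17, m16, m15, m14, m13, m12, m11, m10, m9, m8, m7, m6,
    m5, m4, m3, m2, m1, w0, w1, w2, w3, w4, w5, w6, w7, w8, w9, w10, w11, w12, w13, w14, w15,
    w16, w17, w18, w19, w20, w21, w22, w23, w24, w25, w26, w27, w28, w29, w30, w31, w32, w33,
    w34, w35, w36, w37, w38, w39, w40, w41, w42, w43, w46, w47, w48, w49, w52, w53, w54, w55,
    w58, w59, w60, w61, w64, w65, w66, w67, w70, w71, w72, w73, w76, w77, w78, w79, w82, w83,
    w84, w85, w88, w89, w90, w91, w94, w95, w96, w97, w100, w101, w102, w103, w106, w107, w108,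
    w109, w112, w113, w114, w115, w118, w119, w120, w121, w122, w123, w124, w125, w126, w127,
    w128, w129, w130, w131, w132, w133, w134, w135, w136, w137, w138, w139, w140, w141, w142,
    w143, w144, w147, w150, w153, w156, w159, w162, w165, w168, w171, w174, w177, w180] = true :=
  okS_of (by decide +kernel) (by decide +kernel)

theorem s26 : okS 910208 w142 w143 m26
    [m25, m24, m23, m22, m21, m20, m19, m18, m17, m16, m15, m14, m13, m12, m11, m10, m9, m8, m7,
    m6, m5, m4, m3, m2, m1, w0, w1, w2, w3, w4, w5, w6, w7, w8, w9, w10, w11, w12, w13, w14, w15,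
    w16, w17, w18, w19, w20, w21, w22, w23, w24, w25, w26, w27, w28, w29, w30, w31, w32, w33,
    w34, w35, w36, w37, w38, w39, w40, w41, w42, w43, w46, w47, w48, w49, w52, w53, w54, w55,
    w58, w59, w60, w61, w64, w65, w66, w67, w70, w71, w72, w73, w76, w77, w78, w79, w82, w83,
    w84, w85, w88, w89, w90, w91, w94, w95, w96, w97, w100, w101, w102, w103, w106, w107, w108,
    w109, w112, w113, w114, w115, w118, w119, w120, w121, w122, w123, w124, w125, w126, w127,
    w128, w129, w130, w131, w132, w133, w134, w135, w136, w137, w138, w139, w140, w141, w144,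
    w147, w150, w153, w156, w159, w162, w165, w168, w171, w174, w177, w180] = true :=
  okS_of (by decide +kernel) (by decide +kernel)

end Vale.Agent.P333.Rle.V20
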