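import Vale.Agent.P333.CE.DataV20

/-!
P333: steps of the forced greedy run.
-/

namespace Vale.Agent.P333.Rle.V20

set_option maxRecDepth 100000

theorem s27 : okS 908931 w38 w39 m27
    [m26, m25, m24, m23, m22, m21, m20, m19, m18, m17, m16, m15, m14, m13, m12, m11, m10, m9, m8,
    m7, m6, m5, m4, m3, m2, m1, w0, w1, w2, w3, w4, w5, w6, w7, w8, w9, w10, w11, w12, w13, w14,
    w15, w16, w17, w18, w19, w20, w21, w22, w23, w24, w25, w26, w27, w28, w29, w30, w31, w32,
    w33, w34, w35, w36, w37, w40, w41, w42, w43, w46, w47, w48, w49, w52, w53, w54, w55, w58,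
    w59, w60, w61, w64, w65, w66, w67, w70, w71, w72, w73, w76, w77, w78, w79, w82, w83, w84,
    w85, w88, w89, w90, w91, w94, w95, w96, w97, w100, w101, w102, w103, w106, w107, w108, w109,
    w112, w113, w114, w115, w118, w119, w120, w121, w122, w123, w124, w125, w126, w127, w128,
    w129, w130, w131, w132, w133, w134, w135, w136, w137, w138, w139, w140, w141, w144, w147,
    w150, w153, w156, w159, w162, w165, w168, w171, w174, w177, w180] = true :=
  okS_of (by decide +kernel) (by decide +kernel)

theorem s28 : okS 908929 w139 w140 m28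
    [m27, m26, m25, m24, m23, m22, m21, m20, m19, m18, m17, m16, m15, m14, m13, m12, m11, m10,
    m9, m8, m7, m6, m5, m4, m3, m2, m1, w0, w1, w2, w3, w4, w5, w6, w7, w8, w9, w10, w11, w12,
    w13, w14, w15, w16, w17, w18, w19, w20, w21, w22, w23, w24, w25, w26, w27, w28, w29, w30,
    w31, w32, w33, w34, w35, w36, w37, w40, w41, w42, w43, w46, w47, w48, w49, w52, w53, w54,
    w55, w58, w59, w60, w61, w64, w65, w66, w67, w70, w71, w72, w73, w76, w77, w78, w79, w82,
    w83, w84, w85, w88, w89, w90, w91, w94, w95, w96, w97, w100, w101, w102, w103, w106, w107,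
    w108, w109, w112, w113, w114, w115, w118, w119, w120, w121, w122, w123, w124, w125, w126,
    w127, w128, w129, w130, w131, w132, w133, w134, w135, w136, w137, w138, w141, w144, w147,
    w150, w153, w156, w159, w162, w165, w168, w171, w174, w177, w180] = true :=
  okS_of (by decide +kernel) (by decide +kernel)

theorem s29 : okS 907652 w32 w33 m29
    [m28, m27, m26, m25, m24, m23, m22, m21, m20, m19, m18, m17, m16, m15, m14, m13, m12, m11,
    m10, m9, m8, m7, m6, m5, m4, m3, m2, m1, w0, w1, w2, w3, w4, w5, w6, w7, w8, w9, w10, w11,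
    w12, w13, w14, w15, w16, w17, w18, w19, w20, w21, w22, w23, w24, w25, w26, w27, w28, w29,
    w30, w31, w34, w35, w36, w37, w40, w41, w42, w43, w46, w47, w48, w49, w52, w53, w54, w55,
    w58, w59, w60, w61, w64, w65, w66, w67, w70, w71, w72, w73, w76, w77, w78, w79, w82, w83,
    w84, w85, w88, w89, w90, w91, w94, w95, w96, w97, w100, w101, w102, w103, w106, w107, w108,
    w109, w112, w113, w114, w115, w118, w119, w120, w121, w122, w123, w124, w125, w126, w127,
    w128, w129, w130, w131, w132, w133, w134, w135, w136, w137, w138, w141, w144, w147, w150,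
    w153, w156, w159, w162, w165, w168, w171, w174, w177, w180] = true :=
  okS_of (by decide +kernel) (by decide +kernel)

theorem s30 : okS 907650 w136 w137 m30
    [m29, m28, m27, m26, m25, m24, m23, m22, m21, m20, m19, m18, m17, m16, m15, m14, m13, m12,
    m11, m10, m9, m8, m7, m6, m5, m4, m3, m2, m1, w0, w1, w2, w3, w4, w5, w6, w7, w8, w9, w10,
    w11, w12, w13, w14, w15, w16, w17, w18, w19, w20, w21, w22, w23, w24, w25, w26, w27, w28,
    w29, w30, w31, w34, w35, w36, w37, w40, w41, w42, w43, w46, w47, w48, w49, w52, w53, w54,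
    w55, w58, w59, w60, w61, w64, w65, w66, w67, w70, w71, w72, w73, w76, w77, w78, w79, w82,
    w83, w84, w85, w88, w89, w90, w91, w94, w95, w96, w97, w100, w101, w102, w103, w106, w107,
    w108, w109, w112, w113, w114, w115, w118, w119, w120, w121, w122, w123, w124, w125, w126,
    w127, w128, w129, w130, w131, w132, w133, w134, w135, w138, w141, w144, w147, w150, w153,
    w156, w159, w162, w165, w168, w171, w174, w177, w180] = true :=
  okS_of (by decide +kernel) (by decide +kernel)

theorem s31 : okS 906373 w26 w27 m31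
    [m30, m29, m28, m27, m26, m25, m24, m23, m22, m21, m20, m19, m18, m17, m16, m15, m14, m13,
    m12, m11, m10, m9, m8, m7, m6, m5, m4, m3, m2, m1, w0, w1, w2, w3, w4, w5, w6, w7, w8, w9,
    w10, w11, w12, w13, w14, w15, w16, w17, w18, w19, w20, w21, w22, w23, w24, w25, w28, w29,
    w30, w31, w34, w35, w36, w37, w40, w41, w42, w43, w46, w47, w48, w49, w52, w53, w54, w55,
    w58, w59, w60, w61, w64, w65, w66, w67, w70, w71, w72, w73, w76, w77, w78, w79, w82, w83,
    w84, w85, w88, w89, w90, w91, w94, w95, w96, w97, w100, w101, w102, w103, w106, w107, w108,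
    w109, w112, w113, w114, w115, w118, w119, w120, w121, w122, w123, w124, w125, w126, w127,
    w128, w129, w130, w131, w132, w133, w134, w135, w138, w141, w144, w147, w150, w153, w156,
    w159, w162, w165, w168, w171, w174, w177, w180] = true :=
  okS_of (by decide +kernel) (by decide +kernel)

theorem s32 : okS 906371 w133 w134 m32
    [m31, m30, m29, m28, m27, m26, m25, m24, m23, m22, m21, m20, m19, m18, m17, m16, m15, m14,
    m13, m12, m11, m10, m9, m8, m7, m6, m5, m4, m3, m2, m1, w0, w1, w2, w3, w4, w5, w6, w7, w8,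
    w9, w10, w11, w12, w13, w14, w15, w16, w17, w18, w19, w20, w21, w22, w23, w24, w25, w28, w29,
    w30, w31, w34, w35, w36, w37, w40, w41, w42, w43, w46, w47, w48, w49, w52, w53, w54, w55,
    w58, w59, w60, w61, w64, w65, w66, w67, w70, w71, w72, w73, w76, w77, w78, w79, w82, w83,
    w84, w85, w88, w89, w90, w91, w94, w95, w96, w97, w100, w101, w102, w103, w106, w107, w108,
    w109, w112, w113, w114, w115, w118, w119, w120, w121, w122, w123, w124, w125, w126, w127,
    w128, w129, w130, w131, w132, w135, w138, w141, w144, w147, w150, w153, w156, w159, w162,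
    w165, w168, w171, w174, w177, w180] = true :=
  okS_of (by decide +kernel) (by decide +kernel)

theorem s33 : okS 905094 w20 w21 m33
    [m32, m31, m30, m29, m28, m27, m26, m25, m24, m23, m22, m21, m20, m19, m18, m17, m16, m15,
    m14, m13, m12, m11, m10, m9, m8, m7, m6, m5, m4, m3, m2, m1, w0, w1, w2, w3, w4, w5, w6, w7,
    w8, w9, w10, w11, w12, w13, w14, w15, w16, w17, w18, w19, w22, w23, w24, w25, w28, w29, w30,
    w31, w34, w35, w36, w37, w40, w41, w42, w43, w46, w47, w48, w49, w52, w53, w54, w55, w58,
    w59, w60, w61, w64, w65, w66, w67, w70, w71, w72, w73, w76, w77, w78, w79, w82, w83, w84,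
    w85, w88, w89, w90, w91, w94, w95, w96, w97, w100, w101, w102, w103, w106, w107, w108, w109,
    w112, w113, w114, w115, w118, w119, w120, w121, w122, w123, w124, w125, w126, w127, w128,
    w129, w130, w131, w132, w135, w138, w141, w144, w147, w150, w153, w156, w159, w162, w165,
    w168, w171, w174, w177, w180] = true :=
  okS_of (by decide +kernel) (by decide +kernel)

theorem s34 : okS 905092 w130 w131 m34
    [m33, m32, m31, m30, m29, m28, m27, m26, m25, m24, m23, m22, m21, m20, m19, m18, m17, m16,
    m15, m14, m13, m12, m11, m10, m9, m8, m7, m6, m5, m4, m3, m2, m1, w0, w1, w2, w3, w4, w5, w6,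
    w7, w8, w9, w10, w11, w12, w13, w14, w15, w16, w17, w18, w19, w22, w23, w24, w25, w28, w29,
    w30, w31, w34, w35, w36, w37, w40, w41, w42, w43, w46, w47, w48, w49, w52, w53, w54, w55,
    w58, w59, w60, w61, w64, w65, w66, w67, w70, w71, w72, w73, w76, w77, w78, w79, w82, w83,
    w84, w85, w88, w89, w90, w91, w94, w95, w96, w97, w100, w101, w102, w103, w106, w107, w108,
    w109, w112, w113, w114, w115, w118, w119, w120, w121, w122, w123, w124, w125, w126, w127,
    w128, w129, w132, w135, w138, w141, w144, w147, w150, w153, w156, w159, w162, w165, w168,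
    w171, w174, w177, w180] = true :=
  okS_of (by decide +kernel) (by decide +kernel)

theorem s35 : okS 903815 w14 w15 m35
    [m34, m33, m32, m31, m30, m29, m28, m27, m26, m25, m24, m23, m22, m21, m20, m19, m18, m17,
    m16, m15, m14, m13, m12, m11, m10, m9, m8, m7, m6, m5, m4, m3, m2, m1, w0, w1, w2, w3, w4,
    w5, w6, w7, w8, w9, w10, w11, w12, w13, w16, w17, w18, w19, w22, w23, w24, w25, w28, w29,
    w30, w31, w34, w35, w36, w37, w40, w41, w42, w43, w46, w47, w48, w49, w52, w53, w54, w55,
    w58, w59, w60, w61, w64, w65, w66, w67, w70, w71, w72, w73, w76, w77, w78, w79, w82, w83,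
    w84, w85, w88, w89, w90, w91, w94, w95, w96, w97, w100, w101, w102, w103, w106, w107, w108,
    w109, w112, w113, w114, w115, w118, w119, w120, w121, w122, w123, w124, w125, w126, w127,
    w128, w129, w132, w135, w138, w141, w144, w147, w150, w153, w156, w159, w162, w165, w168,
    w171, w174, w177, w180] = true :=
  okS_of (by decide +kernel) (by decide +kernel)

theorem s36 : okS 903813 w127 w128 m36
    [m35, m34, m33, m32, m31, m30, m29, m28, m27, m26, m25, m24, m23, m22, m21, m20, m19, m18,
    m17, m16, m15, m14, m13, m12, m11, m10, m9, m8, m7, m6, m5, m4, m3, m2, m1, w0, w1, w2, w3,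
    w4, w5, w6, w7, w8, w9, w10, w11, w12, w13, w16, w17, w18, w19, w22, w23, w24, w25, w28, w29,
    w30, w31, w34, w35, w36, w37, w40, w41, w42, w43, w46, w47, w48, w49, w52, w53, w54, w55,
    w58, w59, w60, w61, w64, w65, w66, w67, w70, w71, w72, w73, w76, w77, w78, w79, w82, w83,
    w84, w85, w88, w89, w90, w91, w94, w95, w96, w97, w100, w101, w102, w103, w106, w107, w108,
    w109, w112, w113, w114, w115, w118, w119, w120, w121, w122, w123, w124, w125, w126, w129,
    w132, w135, w138, w141, w144, w147, w150, w153, w156, w159, w162, w165, w168, w171, w174,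
    w177, w180] = true :=
  okS_of (by decide +kernel) (by decide +kernel)

theorem s37 : okS 902536 w8 w9 m37
    [m36, m35, m34, m33, m32, m31, m30, m29, m28, m27, m26, m25, m24, m23, m22, m21, m20, m19,
    m18, m17, m16, m15, m14, m13, m12, m11, m10, m9, m8, m7, m6, m5, m4, m3, m2, m1, w0, w1, w2,
    w3, w4, w5, w6, w7, w10, w11, w12, w13, w16, w17, w18, w19, w22, w23, w24, w25, w28, w29,
    w30, w31, w34, w35, w36, w37, w40, w41, w42, w43, w46, w47, w48, w49, w52, w53, w54, w55,
    w58, w59, w60, w61, w64, w65, w66, w67, w70, w71, w72, w73, w76, w77, w78, w79, w82, w83,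
    w84, w85, w88, w89, w90, w91, w94, w95, w96, w97, w100, w101, w102, w103, w106, w107, w108,
    w109, w112, w113, w114, w115, w118, w119, w120, w121, w122, w123, w124, w125, w126, w129,
    w132, w135, w138, w141, w144, w147, w150, w153, w156, w159, w162, w165, w168, w171, w174,
    w177, w180] = true :=
  okS_of (by decide +kernel) (by decide +kernel)

end Vale.Agent.P333.Rle.V20
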