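import Vale.Agent.P333.CE.DataV20

/-!
P333: steps of the forced greedy run.
-/

namespace Vale.Agent.P333.Rle.V20

set_option maxRecDepth 100000

theorem s38 : okS 902534 w124 w125 m38
    [m37, m36, m35, m34, m33, m32, m31, m30, m29, m28, m27, m26, m25, m24, m23, m22, m21, m20,
    m19, m18, m17, m16, m15, m14, m13, m12, m11, m10, m9, m8, m7, m6, m5, m4, m3, m2, m1, w0, w1,
    w2, w3, w4, w5, w6, w7, w10, w11, w12, w13, w16, w17, w18, w19, w22, w23, w24, w25, w28, w29,
    w30, w31, w34, w35, w36, w37, w40, w41, w42, w43, w46, w47, w48, w49, w52, w53, w54, w55,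
    w58, w59, w60, w61, w64, w65, w66, w67, w70, w71, w72, w73, w76, w77, w78, w79, w82, w83,
    w84, w85, w88, w89, w90, w91, w94, w95, w96, w97, w100, w101, w102, w103, w106, w107, w108,
    w109, w112, w113, w114, w115, w118, w119, w120, w121, w122, w123, w126, w129, w132, w135,
    w138, w141, w144, w147, w150, w153, w156, w159, w162, w165, w168, w171, w174, w177,
    w180] = true :=
  okS_of (by decide +kernel) (by decide +kernel)

theorem s39 : okS 901257 w2 w3 m39
    [m38, m37, m36, m35, m34, m33, m32, m31, m30, m29, m28, m27, m26, m25, m24, m23, m22, m21,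
    m20, m19, m18, m17, m16, m15, m14, m13, m12, m11, m10, m9, m8, m7, m6, m5, m4, m3, m2, m1,
    w0, w1, w4, w5, w6, w7, w10, w11, w12, w13, w16, w17, w18, w19, w22, w23, w24, w25, w28, w29,
    w30, w31, w34, w35, w36, w37, w40, w41, w42, w43, w46, w47, w48, w49, w52, w53, w54, w55,
    w58, w59, w60, w61, w64, w65, w66, w67, w70, w71, w72, w73, w76, w77, w78, w79, w82, w83,
    w84, w85, w88, w89, w90, w91, w94, w95, w96, w97, w100, w101, w102, w103, w106, w107, w108,
    w109, w112, w113, w114, w115, w118, w119, w120, w121, w122, w123, w126, w129, w132, w135,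
    w138, w141, w144, w147, w150, w153, w156, w159, w162, w165, w168, w171, w174, w177,
    w180] = true :=
  okS_of (by decide +kernel) (by decide +kernel)

theorem s40 : okS 901255 w121 w122 m40
    [m39, m38, m37, m36, m35, m34, m33, m32, m31, m30, m29, m28, m27, m26, m25, m24, m23, m22,
    m21, m20, m19, m18, m17, m16, m15, m14, m13, m12, m11, m10, m9, m8, m7, m6, m5, m4, m3, m2,
    m1, w0, w1, w4, w5, w6, w7, w10, w11, w12, w13, w16, w17, w18, w19, w22, w23, w24, w25, w28,
    w29, w30, w31, w34, w35, w36, w37, w40, w41, w42, w43, w46, w47, w48, w49, w52, w53, w54,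
    w55, w58, w59, w60, w61, w64, w65, w66, w67, w70, w71, w72, w73, w76, w77, w78, w79, w82,
    w83, w84, w85, w88, w89, w90, w91, w94, w95, w96, w97, w100, w101, w102, w103, w106, w107,
    w108, w109, w112, w113, w114, w115, w118, w119, w120, w123, w126, w129, w132, w135, w138,
    w141, w144, w147, w150, w153, w156, w159, w162, w165, w168, w171, w174, w177, w180] = true :=
  okS_of (by decide +kernel) (by decide +kernel)

theorem s41 : okS 706799 w0 w1 m41
    [m40, m39, m38, m37, m36, m35, m34, m33, m32, m31, m30, m29, m28, m27, m26, m25, m24, m23,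
    m22, m21, m20, m19, m18, m17, m16, m15, m14, m13, m12, m11, m10, m9, m8, m7, m6, m5, m4, m3,
    m2, m1, w4, w5, w6, w7, w10, w11, w12, w13, w16, w17, w18, w19, w22, w23, w24, w25, w28, w29,
    w30, w31, w34, w35, w36, w37, w40, w41, w42, w43, w46, w47, w48, w49, w52, w53, w54, w55,
    w58, w59, w60, w61, w64, w65, w66, w67, w70, w71, w72, w73, w76, w77, w78, w79, w82, w83,
    w84, w85, w88, w89, w90, w91, w94, w95, w96, w97, w100, w101, w102, w103, w106, w107, w108,
    w109, w112, w113, w114, w115, w118, w119, w120, w123, w126, w129, w132, w135, w138, w141,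
    w144, w147, w150, w153, w156, w159, w162, w165, w168, w171, w174, w177, w180] = true :=
  okS_of (by decide +kernel) (by decide +kernel)

theorem s42 : okS 706797 w120 m40 m42
    [m41, m39, m38, m37, m36, m35, m34, m33, m32, m31, m30, m29, m28, m27, m26, m25, m24, m23,
    m22, m21, m20, m19, m18, m17, m16, m15, m14, m13, m12, m11, m10, m9, m8, m7, m6, m5, m4, m3,
    m2, m1, w4, w5, w6, w7, w10, w11, w12, w13, w16, w17, w18, w19, w22, w23, w24, w25, w28, w29,
    w30, w31, w34, w35, w36, w37, w40, w41, w42, w43, w46, w47, w48, w49, w52, w53, w54, w55,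
    w58, w59, w60, w61, w64, w65, w66, w67, w70, w71, w72, w73, w76, w77, w78, w79, w82, w83,
    w84, w85, w88, w89, w90, w91, w94, w95, w96, w97, w100, w101, w102, w103, w106, w107, w108,
    w109, w112, w113, w114, w115, w118, w119, w123, w126, w129, w132, w135, w138, w141, w144,
    w147, w150, w153, w156, w159, w162, w165, w168, w171, w174, w177, w180] = true :=
  okS_of (by decide +kernel) (by decide +kernel)

theorem s43 : okS 648279 w118 w119 m43
    [m42, m41, m39, m38, m37, m36, m35, m34, m33, m32, m31, m30, m29, m28, m27, m26, m25, m24,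
    m23, m22, m21, m20, m19, m18, m17, m16, m15, m14, m13, m12, m11, m10, m9, m8, m7, m6, m5, m4,
    m3, m2, m1, w4, w5, w6, w7, w10, w11, w12, w13, w16, w17, w18, w19, w22, w23, w24, w25, w28,
    w29, w30, w31, w34, w35, w36, w37, w40, w41, w42, w43, w46, w47, w48, w49, w52, w53, w54,
    w55, w58, w59, w60, w61, w64, w65, w66, w67, w70, w71, w72, w73, w76, w77, w78, w79, w82,
    w83, w84, w85, w88, w89, w90, w91, w94, w95, w96, w97, w100, w101, w102, w103, w106, w107,
    w108, w109, w112, w113, w114, w115, w123, w126, w129, w132, w135, w138, w141, w144, w147,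
    w150, w153, w156, w159, w162, w165, w168, w171, w174, w177, w180] = true :=
  okS_of (by decide +kernel) (by decide +kernel)

theorem s44 : okS 648277 m2 w180 m44
    [m43, m42, m41, m39, m38, m37, m36, m35, m34, m33, m32, m31, m30, m29, m28, m27, m26, m25,
    m24, m23, m22, m21, m20, m19, m18, m17, m16, m15, m14, m13, m12, m11, m10, m9, m8, m7, m6,
    m5, m4, m3, m1, w4, w5, w6, w7, w10, w11, w12, w13, w16, w17, w18, w19, w22, w23, w24, w25,
    w28, w29, w30, w31, w34, w35, w36, w37, w40, w41, w42, w43, w46, w47, w48, w49, w52, w53,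
    w54, w55, w58, w59, w60, w61, w64, w65, w66, w67, w70, w71, w72, w73, w76, w77, w78, w79,
    w82, w83, w84, w85, w88, w89, w90, w91, w94, w95, w96, w97, w100, w101, w102, w103, w106,
    w107, w108, w109, w112, w113, w114, w115, w123, w126, w129, w132, w135, w138, w141, w144,
    w147, w150, w153, w156, w159, w162, w165, w168, w171, w174, w177] = true :=
  okS_of (by decide +kernel) (by decide +kernel)

theorem s45 : okS 616686 w114 w115 m45
    [m44, m43, m42, m41, m39, m38, m37, m36, m35, m34, m33, m32, m31, m30, m29, m28, m27, m26,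
    m25, m24, m23, m22, m21, m20, m19, m18, m17, m16, m15, m14, m13, m12, m11, m10, m9, m8, m7,
    m6, m5, m4, m3, m1, w4, w5, w6, w7, w10, w11, w12, w13, w16, w17, w18, w19, w22, w23, w24,
    w25, w28, w29, w30, w31, w34, w35, w36, w37, w40, w41, w42, w43, w46, w47, w48, w49, w52,
    w53, w54, w55, w58, w59, w60, w61, w64, w65, w66, w67, w70, w71, w72, w73, w76, w77, w78,
    w79, w82, w83, w84, w85, w88, w89, w90, w91, w94, w95, w96, w97, w100, w101, w102, w103,
    w106, w107, w108, w109, w112, w113, w123, w126, w129, w132, w135, w138, w141, w144, w147,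
    w150, w153, w156, w159, w162, w165, w168, w171, w174, w177] = true :=
  okS_of (by decide +kernel) (by decide +kernel)

theorem s46 : okS 616684 w177 m44 m46
    [m45, m43, m42, m41, m39, m38, m37, m36, m35, m34, m33, m32, m31, m30, m29, m28, m27, m26,
    m25, m24, m23, m22, m21, m20, m19, m18, m17, m16, m15, m14, m13, m12, m11, m10, m9, m8, m7,
    m6, m5, m4, m3, m1, w4, w5, w6, w7, w10, w11, w12, w13, w16, w17, w18, w19, w22, w23, w24,
    w25, w28, w29, w30, w31, w34, w35, w36, w37, w40, w41, w42, w43, w46, w47, w48, w49, w52,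
    w53, w54, w55, w58, w59, w60, w61, w64, w65, w66, w67, w70, w71, w72, w73, w76, w77, w78,
    w79, w82, w83, w84, w85, w88, w89, w90, w91, w94, w95, w96, w97, w100, w101, w102, w103,
    w106, w107, w108, w109, w112, w113, w123, w126, w129, w132, w135, w138, w141, w144, w147,
    w150, w153, w156, w159, w162, w165, w168, w171, w174] = true :=
  okS_of (by decide +kernel) (by decide +kernel)

theorem s47 : okS 616498 w112 w113 m47
    [m46, m45, m43, m42, m41, m39, m38, m37, m36, m35, m34, m33, m32, m31, m30, m29, m28, m27,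
    m26, m25, m24, m23, m22, m21, m20, m19, m18, m17, m16, m15, m14, m13, m12, m11, m10, m9, m8,
    m7, m6, m5, m4, m3, m1, w4, w5, w6, w7, w10, w11, w12, w13, w16, w17, w18, w19, w22, w23,
    w24, w25, w28, w29, w30, w31, w34, w35, w36, w37, w40, w41, w42, w43, w46, w47, w48, w49,
    w52, w53, w54, w55, w58, w59, w60, w61, w64, w65, w66, w67, w70, w71, w72, w73, w76, w77,
    w78, w79, w82, w83, w84, w85, w88, w89, w90, w91, w94, w95, w96, w97, w100, w101, w102, w103,
    w106, w107, w108, w109, w123, w126, w129, w132, w135, w138, w141, w144, w147, w150, w153,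
    w156, w159, w162, w165, w168, w171, w174] = true :=
  okS_of (by decide +kernel) (by decide +kernel)

theorem s48 : okS 616496 m4 m46 m48
    [m47, m45, m43, m42, m41, m39, m38, m37, m36, m35, m34, m33, m32, m31, m30, m29, m28, m27,
    m26, m25, m24, m23, m22, m21, m20, m19, m18, m17, m16, m15, m14, m13, m12, m11, m10, m9, m8,
    m7, m6, m5, m3, m1, w4, w5, w6, w7, w10, w11, w12, w13, w16, w17, w18, w19, w22, w23, w24,
    w25, w28, w29, w30, w31, w34, w35, w36, w37, w40, w41, w42, w43, w46, w47, w48, w49, w52,
    w53, w54, w55, w58, w59, w60, w61, w64, w65, w66, w67, w70, w71, w72, w73, w76, w77, w78,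
    w79, w82, w83, w84, w85, w88, w89, w90, w91, w94, w95, w96, w97, w100, w101, w102, w103,
    w106, w107, w108, w109, w123, w126, w129, w132, w135, w138, w141, w144, w147, w150, w153,
    w156, w159, w162, w165, w168, w171, w174] = true :=
  okS_of (by decide +kernel) (by decide +kernel)

theorem s49 : okS 615832 w108 w109 m49
    [m48, m47, m45, m43, m42, m41, m39, m38, m37, m36, m35, m34, m33, m32, m31, m30, m29, m28,
    m27, m26, m25, m24, m23, m22, m21, m20, m19, m18, m17, m16, m15, m14, m13, m12, m11, m10, m9,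
    m8, m7, m6, m5, m3, m1, w4, w5, w6, w7, w10, w11, w12, w13, w16, w17, w18, w19, w22, w23,
    w24, w25, w28, w29, w30, w31, w34, w35, w36, w37, w40, w41, w42, w43, w46, w47, w48, w49,
    w52, w53, w54, w55, w58, w59, w60, w61, w64, w65, w66, w67, w70, w71, w72, w73, w76, w77,
    w78, w79, w82, w83, w84, w85, w88, w89, w90, w91, w94, w95, w96, w97, w100, w101, w102, w103,
    w106, w107, w123, w126, w129, w132, w135, w138, w141, w144, w147, w150, w153, w156, w159,
    w162, w165, w168, w171, w174] = true :=
  okS_of (by decide +kernel) (by decide +kernel)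

theorem s50 : okS 615830 w174 m48 m50
    [m49, m47, m45, m43, m42, m41, m39, m38, m37, m36, m35, m34, m33, m32, m31, m30, m29, m28,
    m27, m26, m25, m24, m23, m22, m21, m20, m19, m18, m17, m16, m15, m14, m13, m12, m11, m10, m9,
    m8, m7, m6, m5, m3, m1, w4, w5, w6, w7, w10, w11, w12, w13, w16, w17, w18, w19, w22, w23,
    w24, w25, w28, w29, w30, w31, w34, w35, w36, w37, w40, w41, w42, w43, w46, w47, w48, w49,
    w52, w53, w54, w55, w58, w59, w60, w61, w64, w65, w66, w67, w70, w71, w72, w73, w76, w77,
    w78, w79, w82, w83, w84, w85, w88, w89, w90, w91, w94, w95, w96, w97, w100, w101, w102, w103,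
    w106, w107, w123, w126, w129, w132, w135, w138, w141, w144, w147, w150, w153, w156, w159,
    w162, w165, w168, w171] = true :=
  okS_of (by decide +kernel) (by decide +kernel)

end Vale.Agent.P333.Rle.V20
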