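import Vale.Agent.P333.CE.DataV20

/-!
P333: steps of the forced greedy run.
-/

namespace Vale.Agent.P333.Rle.V20

set_option maxRecDepth 100000

theorem s51 : okS 615644 w106 w107 m51
    [m50, m49, m47, m45, m43, m42, m41, m39, m38, m37, m36, m35, m34, m33, m32, m31, m30, m29,
    m28, m27, m26, m25, m24, m23, m22, m21, m20, m19, m18, m17, m16, m15, m14, m13, m12, m11,
    m10, m9, m8, m7, m6, m5, m3, m1, w4, w5, w6, w7, w10, w11, w12, w13, w16, w17, w18, w19, w22,
    w23, w24, w25, w28, w29, w30, w31, w34, w35, w36, w37, w40, w41, w42, w43, w46, w47, w48,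
    w49, w52, w53, w54, w55, w58, w59, w60, w61, w64, w65, w66, w67, w70, w71, w72, w73, w76,
    w77, w78, w79, w82, w83, w84, w85, w88, w89, w90, w91, w94, w95, w96, w97, w100, w101, w102,
    w103, w123, w126, w129, w132, w135, w138, w141, w144, w147, w150, w153, w156, w159, w162,
    w165, w168, w171] = true :=
  okS_of (by decide +kernel) (by decide +kernel)

theorem s52 : okS 615642 m6 m50 m52
    [m51, m49, m47, m45, m43, m42, m41, m39, m38, m37, m36, m35, m34, m33, m32, m31, m30, m29,
    m28, m27, m26, m25, m24, m23, m22, m21, m20, m19, m18, m17, m16, m15, m14, m13, m12, m11,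
    m10, m9, m8, m7, m5, m3, m1, w4, w5, w6, w7, w10, w11, w12, w13, w16, w17, w18, w19, w22,
    w23, w24, w25, w28, w29, w30, w31, w34, w35, w36, w37, w40, w41, w42, w43, w46, w47, w48,
    w49, w52, w53, w54, w55, w58, w59, w60, w61, w64, w65, w66, w67, w70, w71, w72, w73, w76,
    w77, w78, w79, w82, w83, w84, w85, w88, w89, w90, w91, w94, w95, w96, w97, w100, w101, w102,
    w103, w123, w126, w129, w132, w135, w138, w141, w144, w147, w150, w153, w156, w159, w162,
    w165, w168, w171] = true :=
  okS_of (by decide +kernel) (by decide +kernel)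

theorem s53 : okS 614978 w102 w103 m53
    [m52, m51, m49, m47, m45, m43, m42, m41, m39, m38, m37, m36, m35, m34, m33, m32, m31, m30,
    m29, m28, m27, m26, m25, m24, m23, m22, m21, m20, m19, m18, m17, m16, m15, m14, m13, m12,
    m11, m10, m9, m8, m7, m5, m3, m1, w4, w5, w6, w7, w10, w11, w12, w13, w16, w17, w18, w19,
    w22, w23, w24, w25, w28, w29, w30, w31, w34, w35, w36, w37, w40, w41, w42, w43, w46, w47,
    w48, w49, w52, w53, w54, w55, w58, w59, w60, w61, w64, w65, w66, w67, w70, w71, w72, w73,
    w76, w77, w78, w79, w82, w83, w84, w85, w88, w89, w90, w91, w94, w95, w96, w97, w100, w101,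
    w123, w126, w129, w132, w135, w138, w141, w144, w147, w150, w153, w156, w159, w162, w165,
    w168, w171] = true :=
  okS_of (by decide +kernel) (by decide +kernel)

theorem s54 : okS 614976 w171 m52 m54
    [m53, m51, m49, m47, m45, m43, m42, m41, m39, m38, m37, m36, m35, m34, m33, m32, m31, m30,
    m29, m28, m27, m26, m25, m24, m23, m22, m21, m20, m19, m18, m17, m16, m15, m14, m13, m12,
    m11, m10, m9, m8, m7, m5, m3, m1, w4, w5, w6, w7, w10, w11, w12, w13, w16, w17, w18, w19,
    w22, w23, w24, w25, w28, w29, w30, w31, w34, w35, w36, w37, w40, w41, w42, w43, w46, w47,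
    w48, w49, w52, w53, w54, w55, w58, w59, w60, w61, w64, w65, w66, w67, w70, w71, w72, w73,
    w76, w77, w78, w79, w82, w83, w84, w85, w88, w89, w90, w91, w94, w95, w96, w97, w100, w101,
    w123, w126, w129, w132, w135, w138, w141, w144, w147, w150, w153, w156, w159, w162, w165,
    w168] = true :=
  okS_of (by decide +kernel) (by decide +kernel)

theorem s55 : okS 614790 w100 w101 m55
    [m54, m53, m51, m49, m47, m45, m43, m42, m41, m39, m38, m37, m36, m35, m34, m33, m32, m31,
    m30, m29, m28, m27, m26, m25, m24, m23, m22, m21, m20, m19, m18, m17, m16, m15, m14, m13,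
    m12, m11, m10, m9, m8, m7, m5, m3, m1, w4, w5, w6, w7, w10, w11, w12, w13, w16, w17, w18,
    w19, w22, w23, w24, w25, w28, w29, w30, w31, w34, w35, w36, w37, w40, w41, w42, w43, w46,
    w47, w48, w49, w52, w53, w54, w55, w58, w59, w60, w61, w64, w65, w66, w67, w70, w71, w72,
    w73, w76, w77, w78, w79, w82, w83, w84, w85, w88, w89, w90, w91, w94, w95, w96, w97, w123,
    w126, w129, w132, w135, w138, w141, w144, w147, w150, w153, w156, w159, w162, w165,
    w168] = true :=
  okS_of (by decide +kernel) (by decide +kernel)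

theorem s56 : okS 614788 m8 m54 m56
    [m55, m53, m51, m49, m47, m45, m43, m42, m41, m39, m38, m37, m36, m35, m34, m33, m32, m31,
    m30, m29, m28, m27, m26, m25, m24, m23, m22, m21, m20, m19, m18, m17, m16, m15, m14, m13,
    m12, m11, m10, m9, m7, m5, m3, m1, w4, w5, w6, w7, w10, w11, w12, w13, w16, w17, w18, w19,
    w22, w23, w24, w25, w28, w29, w30, w31, w34, w35, w36, w37, w40, w41, w42, w43, w46, w47,
    w48, w49, w52, w53, w54, w55, w58, w59, w60, w61, w64, w65, w66, w67, w70, w71, w72, w73,
    w76, w77, w78, w79, w82, w83, w84, w85, w88, w89, w90, w91, w94, w95, w96, w97, w123, w126,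
    w129, w132, w135, w138, w141, w144, w147, w150, w153, w156, w159, w162, w165, w168] = true :=
  okS_of (by decide +kernel) (by decide +kernel)

theorem s57 : okS 614124 w96 w97 m57
    [m56, m55, m53, m51, m49, m47, m45, m43, m42, m41, m39, m38, m37, m36, m35, m34, m33, m32,
    m31, m30, m29, m28, m27, m26, m25, m24, m23, m22, m21, m20, m19, m18, m17, m16, m15, m14,
    m13, m12, m11, m10, m9, m7, m5, m3, m1, w4, w5, w6, w7, w10, w11, w12, w13, w16, w17, w18,
    w19, w22, w23, w24, w25, w28, w29, w30, w31, w34, w35, w36, w37, w40, w41, w42, w43, w46,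
    w47, w48, w49, w52, w53, w54, w55, w58, w59, w60, w61, w64, w65, w66, w67, w70, w71, w72,
    w73, w76, w77, w78, w79, w82, w83, w84, w85, w88, w89, w90, w91, w94, w95, w123, w126, w129,
    w132, w135, w138, w141, w144, w147, w150, w153, w156, w159, w162, w165, w168] = true :=
  okS_of (by decide +kernel) (by decide +kernel)

theorem s58 : okS 614122 w168 m56 m58
    [m57, m55, m53, m51, m49, m47, m45, m43, m42, m41, m39, m38, m37, m36, m35, m34, m33, m32,
    m31, m30, m29, m28, m27, m26, m25, m24, m23, m22, m21, m20, m19, m18, m17, m16, m15, m14,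
    m13, m12, m11, m10, m9, m7, m5, m3, m1, w4, w5, w6, w7, w10, w11, w12, w13, w16, w17, w18,
    w19, w22, w23, w24, w25, w28, w29, w30, w31, w34, w35, w36, w37, w40, w41, w42, w43, w46,
    w47, w48, w49, w52, w53, w54, w55, w58, w59, w60, w61, w64, w65, w66, w67, w70, w71, w72,
    w73, w76, w77, w78, w79, w82, w83, w84, w85, w88, w89, w90, w91, w94, w95, w123, w126, w129,
    w132, w135, w138, w141, w144, w147, w150, w153, w156, w159, w162, w165] = true :=
  okS_of (by decide +kernel) (by decide +kernel)

theorem s59 : okS 613936 w94 w95 m59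
    [m58, m57, m55, m53, m51, m49, m47, m45, m43, m42, m41, m39, m38, m37, m36, m35, m34, m33,
    m32, m31, m30, m29, m28, m27, m26, m25, m24, m23, m22, m21, m20, m19, m18, m17, m16, m15,
    m14, m13, m12, m11, m10, m9, m7, m5, m3, m1, w4, w5, w6, w7, w10, w11, w12, w13, w16, w17,
    w18, w19, w22, w23, w24, w25, w28, w29, w30, w31, w34, w35, w36, w37, w40, w41, w42, w43,
    w46, w47, w48, w49, w52, w53, w54, w55, w58, w59, w60, w61, w64, w65, w66, w67, w70, w71,
    w72, w73, w76, w77, w78, w79, w82, w83, w84, w85, w88, w89, w90, w91, w123, w126, w129, w132,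
    w135, w138, w141, w144, w147, w150, w153, w156, w159, w162, w165] = true :=
  okS_of (by decide +kernel) (by decide +kernel)

theorem s60 : okS 613934 m10 m58 m60
    [m59, m57, m55, m53, m51, m49, m47, m45, m43, m42, m41, m39, m38, m37, m36, m35, m34, m33,
    m32, m31, m30, m29, m28, m27, m26, m25, m24, m23, m22, m21, m20, m19, m18, m17, m16, m15,
    m14, m13, m12, m11, m9, m7, m5, m3, m1, w4, w5, w6, w7, w10, w11, w12, w13, w16, w17, w18,
    w19, w22, w23, w24, w25, w28, w29, w30, w31, w34, w35, w36, w37, w40, w41, w42, w43, w46,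
    w47, w48, w49, w52, w53, w54, w55, w58, w59, w60, w61, w64, w65, w66, w67, w70, w71, w72,
    w73, w76, w77, w78, w79, w82, w83, w84, w85, w88, w89, w90, w91, w123, w126, w129, w132,
    w135, w138, w141, w144, w147, w150, w153, w156, w159, w162, w165] = true :=
  okS_of (by decide +kernel) (by decide +kernel)

theorem s61 : okS 613270 w90 w91 m61
    [m60, m59, m57, m55, m53, m51, m49, m47, m45, m43, m42, m41, m39, m38, m37, m36, m35, m34,
    m33, m32, m31, m30, m29, m28, m27, m26, m25, m24, m23, m22, m21, m20, m19, m18, m17, m16,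
    m15, m14, m13, m12, m11, m9, m7, m5, m3, m1, w4, w5, w6, w7, w10, w11, w12, w13, w16, w17,
    w18, w19, w22, w23, w24, w25, w28, w29, w30, w31, w34, w35, w36, w37, w40, w41, w42, w43,
    w46, w47, w48, w49, w52, w53, w54, w55, w58, w59, w60, w61, w64, w65, w66, w67, w70, w71,
    w72, w73, w76, w77, w78, w79, w82, w83, w84, w85, w88, w89, w123, w126, w129, w132, w135,
    w138, w141, w144, w147, w150, w153, w156, w159, w162, w165] = true :=
  okS_of (by decide +kernel) (by decide +kernel)

theorem s62 : okS 613268 w165 m60 m62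
    [m61, m59, m57, m55, m53, m51, m49, m47, m45, m43, m42, m41, m39, m38, m37, m36, m35, m34,
    m33, m32, m31, m30, m29, m28, m27, m26, m25, m24, m23, m22, m21, m20, m19, m18, m17, m16,
    m15, m14, m13, m12, m11, m9, m7, m5, m3, m1, w4, w5, w6, w7, w10, w11, w12, w13, w16, w17,
    w18, w19, w22, w23, w24, w25, w28, w29, w30, w31, w34, w35, w36, w37, w40, w41, w42, w43,
    w46, w47, w48, w49, w52, w53, w54, w55, w58, w59, w60, w61, w64, w65, w66, w67, w70, w71,
    w72, w73, w76, w77, w78, w79, w82, w83, w84, w85, w88, w89, w123, w126, w129, w132, w135,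
    w138, w141, w144, w147, w150, w153, w156, w159, w162] = true :=
  okS_of (by decide +kernel) (by decide +kernel)

theorem s63 : okS 613082 w88 w89 m63
    [m62, m61, m59, m57, m55, m53, m51, m49, m47, m45, m43, m42, m41, m39, m38, m37, m36, m35,
    m34, m33, m32, m31, m30, m29, m28, m27, m26, m25, m24, m23, m22, m21, m20, m19, m18, m17,
    m16, m15, m14, m13, m12, m11, m9, m7, m5, m3, m1, w4, w5, w6, w7, w10, w11, w12, w13, w16,
    w17, w18, w19, w22, w23, w24, w25, w28, w29, w30, w31, w34, w35, w36, w37, w40, w41, w42,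
    w43, w46, w47, w48, w49, w52, w53, w54, w55, w58, w59, w60, w61, w64, w65, w66, w67, w70,
    w71, w72, w73, w76, w77, w78, w79, w82, w83, w84, w85, w123, w126, w129, w132, w135, w138,
    w141, w144, w147, w150, w153, w156, w159, w162] = true :=
  okS_of (by decide +kernel) (by decide +kernel)

theorem s64 : okS 613080 m12 m62 m64
    [m63, m61, m59, m57, m55, m53, m51, m49, m47, m45, m43, m42, m41, m39, m38, m37, m36, m35,
    m34, m33, m32, m31, m30, m29, m28, m27, m26, m25, m24, m23, m22, m21, m20, m19, m18, m17,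
    m16, m15, m14, m13, m11, m9, m7, m5, m3, m1, w4, w5, w6, w7, w10, w11, w12, w13, w16, w17,
    w18, w19, w22, w23, w24, w25, w28, w29, w30, w31, w34, w35, w36, w37, w40, w41, w42, w43,
    w46, w47, w48, w49, w52, w53, w54, w55, w58, w59, w60, w61, w64, w65, w66, w67, w70, w71,
    w72, w73, w76, w77, w78, w79, w82, w83, w84, w85, w123, w126, w129, w132, w135, w138, w141,
    w144, w147, w150, w153, w156, w159, w162] = true :=
  okS_of (by decide +kernel) (by decide +kernel)

theorem s65 : okS 612416 w84 w85 m65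
    [m64, m63, m61, m59, m57, m55, m53, m51, m49, m47, m45, m43, m42, m41, m39, m38, m37, m36,
    m35, m34, m33, m32, m31, m30, m29, m28, m27, m26, m25, m24, m23, m22, m21, m20, m19, m18,
    m17, m16, m15, m14, m13, m11, m9, m7, m5, m3, m1, w4, w5, w6, w7, w10, w11, w12, w13, w16,
    w17, w18, w19, w22, w23, w24, w25, w28, w29, w30, w31, w34, w35, w36, w37, w40, w41, w42,
    w43, w46, w47, w48, w49, w52, w53, w54, w55, w58, w59, w60, w61, w64, w65, w66, w67, w70,
    w71, w72, w73, w76, w77, w78, w79, w82, w83, w123, w126, w129, w132, w135, w138, w141, w144,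
    w147, w150, w153, w156, w159, w162] = true :=
  okS_of (by decide +kernel) (by decide +kernel)

theorem s66 : okS 612414 w162 m64 m66
    [m65, m63, m61, m59, m57, m55, m53, m51, m49, m47, m45, m43, m42, m41, m39, m38, m37, m36,
    m35, m34, m33, m32, m31, m30, m29, m28, m27, m26, m25, m24, m23, m22, m21, m20, m19, m18,
    m17, m16, m15, m14, m13, m11, m9, m7, m5, m3, m1, w4, w5, w6, w7, w10, w11, w12, w13, w16,
    w17, w18, w19, w22, w23, w24, w25, w28, w29, w30, w31, w34, w35, w36, w37, w40, w41, w42,
    w43, w46, w47, w48, w49, w52, w53, w54, w55, w58, w59, w60, w61, w64, w65, w66, w67, w70,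
    w71, w72, w73, w76, w77, w78, w79, w82, w83, w123, w126, w129, w132, w135, w138, w141, w144,
    w147, w150, w153, w156, w159] = true :=
  okS_of (by decide +kernel) (by decide +kernel)

end Vale.Agent.P333.Rle.V20
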