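import Vale.Agent.P333.CE.DataV20

/-!
P333: steps of the forced greedy run.
-/

namespace Vale.Agent.P333.Rle.V20

set_option maxRecDepth 100000

theorem s67 : okS 612228 w82 w83 m67
    [m66, m65, m63, m61, m59, m57, m55, m53, m51, m49, m47, m45, m43, m42, m41, m39, m38, m37,
    m36, m35, m34, m33, m32, m31, m30, m29, m28, m27, m26, m25, m24, m23, m22, m21, m20, m19,
    m18, m17, m16, m15, m14, m13, m11, m9, m7, m5, m3, m1, w4, w5, w6, w7, w10, w11, w12, w13,
    w16, w17, w18, w19, w22, w23, w24, w25, w28, w29, w30, w31, w34, w35, w36, w37, w40, w41,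
    w42, w43, w46, w47, w48, w49, w52, w53, w54, w55, w58, w59, w60, w61, w64, w65, w66, w67,
    w70, w71, w72, w73, w76, w77, w78, w79, w123, w126, w129, w132, w135, w138, w141, w144, w147,
    w150, w153, w156, w159] = true :=
  okS_of (by decide +kernel) (by decide +kernel)

theorem s68 : okS 612226 m14 m66 m68
    [m67, m65, m63, m61, m59, m57, m55, m53, m51, m49, m47, m45, m43, m42, m41, m39, m38, m37,
    m36, m35, m34, m33, m32, m31, m30, m29, m28, m27, m26, m25, m24, m23, m22, m21, m20, m19,
    m18, m17, m16, m15, m13, m11, m9, m7, m5, m3, m1, w4, w5, w6, w7, w10, w11, w12, w13, w16,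
    w17, w18, w19, w22, w23, w24, w25, w28, w29, w30, w31, w34, w35, w36, w37, w40, w41, w42,
    w43, w46, w47, w48, w49, w52, w53, w54, w55, w58, w59, w60, w61, w64, w65, w66, w67, w70,
    w71, w72, w73, w76, w77, w78, w79, w123, w126, w129, w132, w135, w138, w141, w144, w147,
    w150, w153, w156, w159] = true :=
  okS_of (by decide +kernel) (by decide +kernel)

theorem s69 : okS 611562 w78 w79 m69
    [m68, m67, m65, m63, m61, m59, m57, m55, m53, m51, m49, m47, m45, m43, m42, m41, m39, m38,
    m37, m36, m35, m34, m33, m32, m31, m30, m29, m28, m27, m26, m25, m24, m23, m22, m21, m20,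
    m19, m18, m17, m16, m15, m13, m11, m9, m7, m5, m3, m1, w4, w5, w6, w7, w10, w11, w12, w13,
    w16, w17, w18, w19, w22, w23, w24, w25, w28, w29, w30, w31, w34, w35, w36, w37, w40, w41,
    w42, w43, w46, w47, w48, w49, w52, w53, w54, w55, w58, w59, w60, w61, w64, w65, w66, w67,
    w70, w71, w72, w73, w76, w77, w123, w126, w129, w132, w135, w138, w141, w144, w147, w150,
    w153, w156, w159] = true :=
  okS_of (by decide +kernel) (by decide +kernel)

theorem s70 : okS 611560 w159 m68 m70
    [m69, m67, m65, m63, m61, m59, m57, m55, m53, m51, m49, m47, m45, m43, m42, m41, m39, m38,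
    m37, m36, m35, m34, m33, m32, m31, m30, m29, m28, m27, m26, m25, m24, m23, m22, m21, m20,
    m19, m18, m17, m16, m15, m13, m11, m9, m7, m5, m3, m1, w4, w5, w6, w7, w10, w11, w12, w13,
    w16, w17, w18, w19, w22, w23, w24, w25, w28, w29, w30, w31, w34, w35, w36, w37, w40, w41,
    w42, w43, w46, w47, w48, w49, w52, w53, w54, w55, w58, w59, w60, w61, w64, w65, w66, w67,
    w70, w71, w72, w73, w76, w77, w123, w126, w129, w132, w135, w138, w141, w144, w147, w150,
    w153, w156] = true :=
  okS_of (by decide +kernel) (by decide +kernel)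

theorem s71 : okS 611374 w76 w77 m71
    [m70, m69, m67, m65, m63, m61, m59, m57, m55, m53, m51, m49, m47, m45, m43, m42, m41, m39,
    m38, m37, m36, m35, m34, m33, m32, m31, m30, m29, m28, m27, m26, m25, m24, m23, m22, m21,
    m20, m19, m18, m17, m16, m15, m13, m11, m9, m7, m5, m3, m1, w4, w5, w6, w7, w10, w11, w12,
    w13, w16, w17, w18, w19, w22, w23, w24, w25, w28, w29, w30, w31, w34, w35, w36, w37, w40,
    w41, w42, w43, w46, w47, w48, w49, w52, w53, w54, w55, w58, w59, w60, w61, w64, w65, w66,
    w67, w70, w71, w72, w73, w123, w126, w129, w132, w135, w138, w141, w144, w147, w150, w153,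
    w156] = true :=
  okS_of (by decide +kernel) (by decide +kernel)

theorem s72 : okS 611372 m16 m70 m72
    [m71, m69, m67, m65, m63, m61, m59, m57, m55, m53, m51, m49, m47, m45, m43, m42, m41, m39,
    m38, m37, m36, m35, m34, m33, m32, m31, m30, m29, m28, m27, m26, m25, m24, m23, m22, m21,
    m20, m19, m18, m17, m15, m13, m11, m9, m7, m5, m3, m1, w4, w5, w6, w7, w10, w11, w12, w13,
    w16, w17, w18, w19, w22, w23, w24, w25, w28, w29, w30, w31, w34, w35, w36, w37, w40, w41,
    w42, w43, w46, w47, w48, w49, w52, w53, w54, w55, w58, w59, w60, w61, w64, w65, w66, w67,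
    w70, w71, w72, w73, w123, w126, w129, w132, w135, w138, w141, w144, w147, w150, w153,
    w156] = true :=
  okS_of (by decide +kernel) (by decide +kernel)

theorem s73 : okS 610708 w72 w73 m73
    [m72, m71, m69, m67, m65, m63, m61, m59, m57, m55, m53, m51, m49, m47, m45, m43, m42, m41,
    m39, m38, m37, m36, m35, m34, m33, m32, m31, m30, m29, m28, m27, m26, m25, m24, m23, m22,
    m21, m20, m19, m18, m17, m15, m13, m11, m9, m7, m5, m3, m1, w4, w5, w6, w7, w10, w11, w12,
    w13, w16, w17, w18, w19, w22, w23, w24, w25, w28, w29, w30, w31, w34, w35, w36, w37, w40,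
    w41, w42, w43, w46, w47, w48, w49, w52, w53, w54, w55, w58, w59, w60, w61, w64, w65, w66,
    w67, w70, w71, w123, w126, w129, w132, w135, w138, w141, w144, w147, w150, w153,
    w156] = true :=
  okS_of (by decide +kernel) (by decide +kernel)

theorem s74 : okS 610706 w156 m72 m74
    [m73, m71, m69, m67, m65, m63, m61, m59, m57, m55, m53, m51, m49, m47, m45, m43, m42, m41,
    m39, m38, m37, m36, m35, m34, m33, m32, m31, m30, m29, m28, m27, m26, m25, m24, m23, m22,
    m21, m20, m19, m18, m17, m15, m13, m11, m9, m7, m5, m3, m1, w4, w5, w6, w7, w10, w11, w12,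
    w13, w16, w17, w18, w19, w22, w23, w24, w25, w28, w29, w30, w31, w34, w35, w36, w37, w40,
    w41, w42, w43, w46, w47, w48, w49, w52, w53, w54, w55, w58, w59, w60, w61, w64, w65, w66,
    w67, w70, w71, w123, w126, w129, w132, w135, w138, w141, w144, w147, w150, w153] = true :=
  okS_of (by decide +kernel) (by decide +kernel)

theorem s75 : okS 610520 w70 w71 m75
    [m74, m73, m71, m69, m67, m65, m63, m61, m59, m57, m55, m53, m51, m49, m47, m45, m43, m42,
    m41, m39, m38, m37, m36, m35, m34, m33, m32, m31, m30, m29, m28, m27, m26, m25, m24, m23,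
    m22, m21, m20, m19, m18, m17, m15, m13, m11, m9, m7, m5, m3, m1, w4, w5, w6, w7, w10, w11,
    w12, w13, w16, w17, w18, w19, w22, w23, w24, w25, w28, w29, w30, w31, w34, w35, w36, w37,
    w40, w41, w42, w43, w46, w47, w48, w49, w52, w53, w54, w55, w58, w59, w60, w61, w64, w65,
    w66, w67, w123, w126, w129, w132, w135, w138, w141, w144, w147, w150, w153] = true :=
  okS_of (by decide +kernel) (by decide +kernel)

theorem s76 : okS 610518 m18 m74 m76
    [m75, m73, m71, m69, m67, m65, m63, m61, m59, m57, m55, m53, m51, m49, m47, m45, m43, m42,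
    m41, m39, m38, m37, m36, m35, m34, m33, m32, m31, m30, m29, m28, m27, m26, m25, m24, m23,
    m22, m21, m20, m19, m17, m15, m13, m11, m9, m7, m5, m3, m1, w4, w5, w6, w7, w10, w11, w12,
    w13, w16, w17, w18, w19, w22, w23, w24, w25, w28, w29, w30, w31, w34, w35, w36, w37, w40,
    w41, w42, w43, w46, w47, w48, w49, w52, w53, w54, w55, w58, w59, w60, w61, w64, w65, w66,
    w67, w123, w126, w129, w132, w135, w138, w141, w144, w147, w150, w153] = true :=
  okS_of (by decide +kernel) (by decide +kernel)

theorem s77 : okS 609854 w66 w67 m77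
    [m76, m75, m73, m71, m69, m67, m65, m63, m61, m59, m57, m55, m53, m51, m49, m47, m45, m43,
    m42, m41, m39, m38, m37, m36, m35, m34, m33, m32, m31, m30, m29, m28, m27, m26, m25, m24,
    m23, m22, m21, m20, m19, m17, m15, m13, m11, m9, m7, m5, m3, m1, w4, w5, w6, w7, w10, w11,
    w12, w13, w16, w17, w18, w19, w22, w23, w24, w25, w28, w29, w30, w31, w34, w35, w36, w37,
    w40, w41, w42, w43, w46, w47, w48, w49, w52, w53, w54, w55, w58, w59, w60, w61, w64, w65,
    w123, w126, w129, w132, w135, w138, w141, w144, w147, w150, w153] = true :=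
  okS_of (by decide +kernel) (by decide +kernel)

theorem s78 : okS 609852 w153 m76 m78
    [m77, m75, m73, m71, m69, m67, m65, m63, m61, m59, m57, m55, m53, m51, m49, m47, m45, m43,
    m42, m41, m39, m38, m37, m36, m35, m34, m33, m32, m31, m30, m29, m28, m27, m26, m25, m24,
    m23, m22, m21, m20, m19, m17, m15, m13, m11, m9, m7, m5, m3, m1, w4, w5, w6, w7, w10, w11,
    w12, w13, w16, w17, w18, w19, w22, w23, w24, w25, w28, w29, w30, w31, w34, w35, w36, w37,
    w40, w41, w42, w43, w46, w47, w48, w49, w52, w53, w54, w55, w58, w59, w60, w61, w64, w65,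
    w123, w126, w129, w132, w135, w138, w141, w144, w147, w150] = true :=
  okS_of (by decide +kernel) (by decide +kernel)

theorem s79 : okS 609666 w64 w65 m79
    [m78, m77, m75, m73, m71, m69, m67, m65, m63, m61, m59, m57, m55, m53, m51, m49, m47, m45,
    m43, m42, m41, m39, m38, m37, m36, m35, m34, m33, m32, m31, m30, m29, m28, m27, m26, m25,
    m24, m23, m22, m21, m20, m19, m17, m15, m13, m11, m9, m7, m5, m3, m1, w4, w5, w6, w7, w10,
    w11, w12, w13, w16, w17, w18, w19, w22, w23, w24, w25, w28, w29, w30, w31, w34, w35, w36,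
    w37, w40, w41, w42, w43, w46, w47, w48, w49, w52, w53, w54, w55, w58, w59, w60, w61, w123,
    w126, w129, w132, w135, w138, w141, w144, w147, w150] = true :=
  okS_of (by decide +kernel) (by decide +kernel)

theorem s80 : okS 609664 m20 m78 m80
    [m79, m77, m75, m73, m71, m69, m67, m65, m63, m61, m59, m57, m55, m53, m51, m49, m47, m45,
    m43, m42, m41, m39, m38, m37, m36, m35, m34, m33, m32, m31, m30, m29, m28, m27, m26, m25,
    m24, m23, m22, m21, m19, m17, m15, m13, m11, m9, m7, m5, m3, m1, w4, w5, w6, w7, w10, w11,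
    w12, w13, w16, w17, w18, w19, w22, w23, w24, w25, w28, w29, w30, w31, w34, w35, w36, w37,
    w40, w41, w42, w43, w46, w47, w48, w49, w52, w53, w54, w55, w58, w59, w60, w61, w123, w126,
    w129, w132, w135, w138, w141, w144, w147, w150] = true :=
  okS_of (by decide +kernel) (by decide +kernel)

theorem s81 : okS 609000 w60 w61 m81
    [m80, m79, m77, m75, m73, m71, m69, m67, m65, m63, m61, m59, m57, m55, m53, m51, m49, m47,
    m45, m43, m42, m41, m39, m38, m37, m36, m35, m34, m33, m32, m31, m30, m29, m28, m27, m26,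
    m25, m24, m23, m22, m21, m19, m17, m15, m13, m11, m9, m7, m5, m3, m1, w4, w5, w6, w7, w10,
    w11, w12, w13, w16, w17, w18, w19, w22, w23, w24, w25, w28, w29, w30, w31, w34, w35, w36,
    w37, w40, w41, w42, w43, w46, w47, w48, w49, w52, w53, w54, w55, w58, w59, w123, w126, w129,
    w132, w135, w138, w141, w144, w147, w150] = true :=
  okS_of (by decide +kernel) (by decide +kernel)

theorem s82 : okS 608998 w150 m80 m82
    [m81, m79, m77, m75, m73, m71, m69, m67, m65, m63, m61, m59, m57, m55, m53, m51, m49, m47,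
    m45, m43, m42, m41, m39, m38, m37, m36, m35, m34, m33, m32, m31, m30, m29, m28, m27, m26,
    m25, m24, m23, m22, m21, m19, m17, m15, m13, m11, m9, m7, m5, m3, m1, w4, w5, w6, w7, w10,
    w11, w12, w13, w16, w17, w18, w19, w22, w23, w24, w25, w28, w29, w30, w31, w34, w35, w36,
    w37, w40, w41, w42, w43, w46, w47, w48, w49, w52, w53, w54, w55, w58, w59, w123, w126, w129,
    w132, w135, w138, w141, w144, w147] = true :=
  okS_of (by decide +kernel) (by decide +kernel)

theorem s83 : okS 608812 w58 w59 m83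
    [m82, m81, m79, m77, m75, m73, m71, m69, m67, m65, m63, m61, m59, m57, m55, m53, m51, m49,
    m47, m45, m43, m42, m41, m39, m38, m37, m36, m35, m34, m33, m32, m31, m30, m29, m28, m27,
    m26, m25, m24, m23, m22, m21, m19, m17, m15, m13, m11, m9, m7, m5, m3, m1, w4, w5, w6, w7,
    w10, w11, w12, w13, w16, w17, w18, w19, w22, w23, w24, w25, w28, w29, w30, w31, w34, w35,
    w36, w37, w40, w41, w42, w43, w46, w47, w48, w49, w52, w53, w54, w55, w123, w126, w129, w132,
    w135, w138, w141, w144, w147] = true :=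
  okS_of (by decide +kernel) (by decide +kernel)

theorem s84 : okS 608810 m22 m82 m84
    [m83, m81, m79, m77, m75, m73, m71, m69, m67, m65, m63, m61, m59, m57, m55, m53, m51, m49,
    m47, m45, m43, m42, m41, m39, m38, m37, m36, m35, m34, m33, m32, m31, m30, m29, m28, m27,
    m26, m25, m24, m23, m21, m19, m17, m15, m13, m11, m9, m7, m5, m3, m1, w4, w5, w6, w7, w10,
    w11, w12, w13, w16, w17, w18, w19, w22, w23, w24, w25, w28, w29, w30, w31, w34, w35, w36,
    w37, w40, w41, w42, w43, w46, w47, w48, w49, w52, w53, w54, w55, w123, w126, w129, w132,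
    w135, w138, w141, w144, w147] = true :=
  okS_of (by decide +kernel) (by decide +kernel)

theorem s85 : okS 608146 w54 w55 m85
    [m84, m83, m81, m79, m77, m75, m73, m71, m69, m67, m65, m63, m61, m59, m57, m55, m53, m51,
    m49, m47, m45, m43, m42, m41, m39, m38, m37, m36, m35, m34, m33, m32, m31, m30, m29, m28,
    m27, m26, m25, m24, m23, m21, m19, m17, m15, m13, m11, m9, m7, m5, m3, m1, w4, w5, w6, w7,
    w10, w11, w12, w13, w16, w17, w18, w19, w22, w23, w24, w25, w28, w29, w30, w31, w34, w35,
    w36, w37, w40, w41, w42, w43, w46, w47, w48, w49, w52, w53, w123, w126, w129, w132, w135,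
    w138, w141, w144, w147] = true :=
  okS_of (by decide +kernel) (by decide +kernel)

theorem s86 : okS 608144 w147 m84 m86
    [m85, m83, m81, m79, m77, m75, m73, m71, m69, m67, m65, m63, m61, m59, m57, m55, m53, m51,
    m49, m47, m45, m43, m42, m41, m39, m38, m37, m36, m35, m34, m33, m32, m31, m30, m29, m28,
    m27, m26, m25, m24, m23, m21, m19, m17, m15, m13, m11, m9, m7, m5, m3, m1, w4, w5, w6, w7,
    w10, w11, w12, w13, w16, w17, w18, w19, w22, w23, w24, w25, w28, w29, w30, w31, w34, w35,
    w36, w37, w40, w41, w42, w43, w46, w47, w48, w49, w52, w53, w123, w126, w129, w132, w135,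
    w138, w141, w144] = true :=
  okS_of (by decide +kernel) (by decide +kernel)

theorem s87 : okS 607958 w52 w53 m87
    [m86, m85, m83, m81, m79, m77, m75, m73, m71, m69, m67, m65, m63, m61, m59, m57, m55, m53,
    m51, m49, m47, m45, m43, m42, m41, m39, m38, m37, m36, m35, m34, m33, m32, m31, m30, m29,
    m28, m27, m26, m25, m24, m23, m21, m19, m17, m15, m13, m11, m9, m7, m5, m3, m1, w4, w5, w6,
    w7, w10, w11, w12, w13, w16, w17, w18, w19, w22, w23, w24, w25, w28, w29, w30, w31, w34, w35,
    w36, w37, w40, w41, w42, w43, w46, w47, w48, w49, w123, w126, w129, w132, w135, w138, w141,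
    w144] = true :=
  okS_of (by decide +kernel) (by decide +kernel)

theorem s88 : okS 607956 m24 m86 m88
    [m87, m85, m83, m81, m79, m77, m75, m73, m71, m69, m67, m65, m63, m61, m59, m57, m55, m53,
    m51, m49, m47, m45, m43, m42, m41, m39, m38, m37, m36, m35, m34, m33, m32, m31, m30, m29,
    m28, m27, m26, m25, m23, m21, m19, m17, m15, m13, m11, m9, m7, m5, m3, m1, w4, w5, w6, w7,
    w10, w11, w12, w13, w16, w17, w18, w19, w22, w23, w24, w25, w28, w29, w30, w31, w34, w35,
    w36, w37, w40, w41, w42, w43, w46, w47, w48, w49, w123, w126, w129, w132, w135, w138, w141,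
    w144] = true :=
  okS_of (by decide +kernel) (by decide +kernel)

theorem s89 : okS 607292 w48 w49 m89
    [m88, m87, m85, m83, m81, m79, m77, m75, m73, m71, m69, m67, m65, m63, m61, m59, m57, m55,
    m53, m51, m49, m47, m45, m43, m42, m41, m39, m38, m37, m36, m35, m34, m33, m32, m31, m30,
    m29, m28, m27, m26, m25, m23, m21, m19, m17, m15, m13, m11, m9, m7, m5, m3, m1, w4, w5, w6,
    w7, w10, w11, w12, w13, w16, w17, w18, w19, w22, w23, w24, w25, w28, w29, w30, w31, w34, w35,
    w36, w37, w40, w41, w42, w43, w46, w47, w123, w126, w129, w132, w135, w138, w141,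
    w144] = true :=
  okS_of (by decide +kernel) (by decide +kernel)

end Vale.Agent.P333.Rle.V20
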