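import Vale.Agent.P333.CE.DataV20

/-!
P333: steps of the forced greedy run.
-/

namespace Vale.Agent.P333.Rle.V20

set_option maxRecDepth 100000

theorem s90 : okS 607290 w144 m88 m90
    [m89, m87, m85, m83, m81, m79, m77, m75, m73, m71, m69, m67, m65, m63, m61, m59, m57, m55,
    m53, m51, m49, m47, m45, m43, m42, m41, m39, m38, m37, m36, m35, m34, m33, m32, m31, m30,
    m29, m28, m27, m26, m25, m23, m21, m19, m17, m15, m13, m11, m9, m7, m5, m3, m1, w4, w5, w6,
    w7, w10, w11, w12, w13, w16, w17, w18, w19, w22, w23, w24, w25, w28, w29, w30, w31, w34, w35,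
    w36, w37, w40, w41, w42, w43, w46, w47, w123, w126, w129, w132, w135, w138, w141] = true :=
  okS_of (by decide +kernel) (by decide +kernel)

theorem s91 : okS 607104 w46 w47 m91
    [m90, m89, m87, m85, m83, m81, m79, m77, m75, m73, m71, m69, m67, m65, m63, m61, m59, m57,
    m55, m53, m51, m49, m47, m45, m43, m42, m41, m39, m38, m37, m36, m35, m34, m33, m32, m31,
    m30, m29, m28, m27, m26, m25, m23, m21, m19, m17, m15, m13, m11, m9, m7, m5, m3, m1, w4, w5,
    w6, w7, w10, w11, w12, w13, w16, w17, w18, w19, w22, w23, w24, w25, w28, w29, w30, w31, w34,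
    w35, w36, w37, w40, w41, w42, w43, w123, w126, w129, w132, w135, w138, w141] = true :=
  okS_of (by decide +kernel) (by decide +kernel)

theorem s92 : okS 607102 m26 m90 m92
    [m91, m89, m87, m85, m83, m81, m79, m77, m75, m73, m71, m69, m67, m65, m63, m61, m59, m57,
    m55, m53, m51, m49, m47, m45, m43, m42, m41, m39, m38, m37, m36, m35, m34, m33, m32, m31,
    m30, m29, m28, m27, m25, m23, m21, m19, m17, m15, m13, m11, m9, m7, m5, m3, m1, w4, w5, w6,
    w7, w10, w11, w12, w13, w16, w17, w18, w19, w22, w23, w24, w25, w28, w29, w30, w31, w34, w35,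
    w36, w37, w40, w41, w42, w43, w123, w126, w129, w132, w135, w138, w141] = true :=
  okS_of (by decide +kernel) (by decide +kernel)

theorem s93 : okS 606438 w42 w43 m93
    [m92, m91, m89, m87, m85, m83, m81, m79, m77, m75, m73, m71, m69, m67, m65, m63, m61, m59,
    m57, m55, m53, m51, m49, m47, m45, m43, m42, m41, m39, m38, m37, m36, m35, m34, m33, m32,
    m31, m30, m29, m28, m27, m25, m23, m21, m19, m17, m15, m13, m11, m9, m7, m5, m3, m1, w4, w5,
    w6, w7, w10, w11, w12, w13, w16, w17, w18, w19, w22, w23, w24, w25, w28, w29, w30, w31, w34,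
    w35, w36, w37, w40, w41, w123, w126, w129, w132, w135, w138, w141] = true :=
  okS_of (by decide +kernel) (by decide +kernel)

theorem s94 : okS 606436 w141 m92 m94
    [m93, m91, m89, m87, m85, m83, m81, m79, m77, m75, m73, m71, m69, m67, m65, m63, m61, m59,
    m57, m55, m53, m51, m49, m47, m45, m43, m42, m41, m39, m38, m37, m36, m35, m34, m33, m32,
    m31, m30, m29, m28, m27, m25, m23, m21, m19, m17, m15, m13, m11, m9, m7, m5, m3, m1, w4, w5,
    w6, w7, w10, w11, w12, w13, w16, w17, w18, w19, w22, w23, w24, w25, w28, w29, w30, w31, w34,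
    w35, w36, w37, w40, w41, w123, w126, w129, w132, w135, w138] = true :=
  okS_of (by decide +kernel) (by decide +kernel)

theorem s95 : okS 606250 w40 w41 m95
    [m94, m93, m91, m89, m87, m85, m83, m81, m79, m77, m75, m73, m71, m69, m67, m65, m63, m61,
    m59, m57, m55, m53, m51, m49, m47, m45, m43, m42, m41, m39, m38, m37, m36, m35, m34, m33,
    m32, m31, m30, m29, m28, m27, m25, m23, m21, m19, m17, m15, m13, m11, m9, m7, m5, m3, m1, w4,
    w5, w6, w7, w10, w11, w12, w13, w16, w17, w18, w19, w22, w23, w24, w25, w28, w29, w30, w31,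
    w34, w35, w36, w37, w123, w126, w129, w132, w135, w138] = true :=
  okS_of (by decide +kernel) (by decide +kernel)

theorem s96 : okS 606248 m28 m94 m96
    [m95, m93, m91, m89, m87, m85, m83, m81, m79, m77, m75, m73, m71, m69, m67, m65, m63, m61,
    m59, m57, m55, m53, m51, m49, m47, m45, m43, m42, m41, m39, m38, m37, m36, m35, m34, m33,
    m32, m31, m30, m29, m27, m25, m23, m21, m19, m17, m15, m13, m11, m9, m7, m5, m3, m1, w4, w5,
    w6, w7, w10, w11, w12, w13, w16, w17, w18, w19, w22, w23, w24, w25, w28, w29, w30, w31, w34,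
    w35, w36, w37, w123, w126, w129, w132, w135, w138] = true :=
  okS_of (by decide +kernel) (by decide +kernel)

theorem s97 : okS 605584 w36 w37 m97
    [m96, m95, m93, m91, m89, m87, m85, m83, m81, m79, m77, m75, m73, m71, m69, m67, m65, m63,
    m61, m59, m57, m55, m53, m51, m49, m47, m45, m43, m42, m41, m39, m38, m37, m36, m35, m34,
    m33, m32, m31, m30, m29, m27, m25, m23, m21, m19, m17, m15, m13, m11, m9, m7, m5, m3, m1, w4,
    w5, w6, w7, w10, w11, w12, w13, w16, w17, w18, w19, w22, w23, w24, w25, w28, w29, w30, w31,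
    w34, w35, w123, w126, w129, w132, w135, w138] = true :=
  okS_of (by decide +kernel) (by decide +kernel)

theorem s98 : okS 605582 w138 m96 m98
    [m97, m95, m93, m91, m89, m87, m85, m83, m81, m79, m77, m75, m73, m71, m69, m67, m65, m63,
    m61, m59, m57, m55, m53, m51, m49, m47, m45, m43, m42, m41, m39, m38, m37, m36, m35, m34,
    m33, m32, m31, m30, m29, m27, m25, m23, m21, m19, m17, m15, m13, m11, m9, m7, m5, m3, m1, w4,
    w5, w6, w7, w10, w11, w12, w13, w16, w17, w18, w19, w22, w23, w24, w25, w28, w29, w30, w31,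
    w34, w35, w123, w126, w129, w132, w135] = true :=
  okS_of (by decide +kernel) (by decide +kernel)

theorem s99 : okS 605396 w34 w35 m99
    [m98, m97, m95, m93, m91, m89, m87, m85, m83, m81, m79, m77, m75, m73, m71, m69, m67, m65,
    m63, m61, m59, m57, m55, m53, m51, m49, m47, m45, m43, m42, m41, m39, m38, m37, m36, m35,
    m34, m33, m32, m31, m30, m29, m27, m25, m23, m21, m19, m17, m15, m13, m11, m9, m7, m5, m3,
    m1, w4, w5, w6, w7, w10, w11, w12, w13, w16, w17, w18, w19, w22, w23, w24, w25, w28, w29,
    w30, w31, w123, w126, w129, w132, w135] = true :=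
  okS_of (by decide +kernel) (by decide +kernel)

theorem s100 : okS 605394 m30 m98 m100
    [m99, m97, m95, m93, m91, m89, m87, m85, m83, m81, m79, m77, m75, m73, m71, m69, m67, m65,
    m63, m61, m59, m57, m55, m53, m51, m49, m47, m45, m43, m42, m41, m39, m38, m37, m36, m35,
    m34, m33, m32, m31, m29, m27, m25, m23, m21, m19, m17, m15, m13, m11, m9, m7, m5, m3, m1, w4,
    w5, w6, w7, w10, w11, w12, w13, w16, w17, w18, w19, w22, w23, w24, w25, w28, w29, w30, w31,
    w123, w126, w129, w132, w135] = true :=
  okS_of (by decide +kernel) (by decide +kernel)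

theorem s101 : okS 604730 w30 w31 m101
    [m100, m99, m97, m95, m93, m91, m89, m87, m85, m83, m81, m79, m77, m75, m73, m71, m69, m67,
    m65, m63, m61, m59, m57, m55, m53, m51, m49, m47, m45, m43, m42, m41, m39, m38, m37, m36,
    m35, m34, m33, m32, m31, m29, m27, m25, m23, m21, m19, m17, m15, m13, m11, m9, m7, m5, m3,
    m1, w4, w5, w6, w7, w10, w11, w12, w13, w16, w17, w18, w19, w22, w23, w24, w25, w28, w29,
    w123, w126, w129, w132, w135] = true :=
  okS_of (by decide +kernel) (by decide +kernel)

theorem s102 : okS 604728 w135 m100 m102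
    [m101, m99, m97, m95, m93, m91, m89, m87, m85, m83, m81, m79, m77, m75, m73, m71, m69, m67,
    m65, m63, m61, m59, m57, m55, m53, m51, m49, m47, m45, m43, m42, m41, m39, m38, m37, m36,
    m35, m34, m33, m32, m31, m29, m27, m25, m23, m21, m19, m17, m15, m13, m11, m9, m7, m5, m3,
    m1, w4, w5, w6, w7, w10, w11, w12, w13, w16, w17, w18, w19, w22, w23, w24, w25, w28, w29,
    w123, w126, w129, w132] = true :=
  okS_of (by decide +kernel) (by decide +kernel)

theorem s103 : okS 604542 w28 w29 m103
    [m102, m101, m99, m97, m95, m93, m91, m89, m87, m85, m83, m81, m79, m77, m75, m73, m71, m69,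
    m67, m65, m63, m61, m59, m57, m55, m53, m51, m49, m47, m45, m43, m42, m41, m39, m38, m37,
    m36, m35, m34, m33, m32, m31, m29, m27, m25, m23, m21, m19, m17, m15, m13, m11, m9, m7, m5,
    m3, m1, w4, w5, w6, w7, w10, w11, w12, w13, w16, w17, w18, w19, w22, w23, w24, w25, w123,
    w126, w129, w132] = true :=
  okS_of (by decide +kernel) (by decide +kernel)

theorem s104 : okS 604540 m32 m102 m104
    [m103, m101, m99, m97, m95, m93, m91, m89, m87, m85, m83, m81, m79, m77, m75, m73, m71, m69,
    m67, m65, m63, m61, m59, m57, m55, m53, m51, m49, m47, m45, m43, m42, m41, m39, m38, m37,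
    m36, m35, m34, m33, m31, m29, m27, m25, m23, m21, m19, m17, m15, m13, m11, m9, m7, m5, m3,
    m1, w4, w5, w6, w7, w10, w11, w12, w13, w16, w17, w18, w19, w22, w23, w24, w25, w123, w126,
    w129, w132] = true :=
  okS_of (by decide +kernel) (by decide +kernel)

theorem s105 : okS 603876 w24 w25 m105
    [m104, m103, m101, m99, m97, m95, m93, m91, m89, m87, m85, m83, m81, m79, m77, m75, m73, m71,
    m69, m67, m65, m63, m61, m59, m57, m55, m53, m51, m49, m47, m45, m43, m42, m41, m39, m38,
    m37, m36, m35, m34, m33, m31, m29, m27, m25, m23, m21, m19, m17, m15, m13, m11, m9, m7, m5,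
    m3, m1, w4, w5, w6, w7, w10, w11, w12, w13, w16, w17, w18, w19, w22, w23, w123, w126, w129,
    w132] = true :=
  okS_of (by decide +kernel) (by decide +kernel)

theorem s106 : okS 603874 w132 m104 m106
    [m105, m103, m101, m99, m97, m95, m93, m91, m89, m87, m85, m83, m81, m79, m77, m75, m73, m71,
    m69, m67, m65, m63, m61, m59, m57, m55, m53, m51, m49, m47, m45, m43, m42, m41, m39, m38,
    m37, m36, m35, m34, m33, m31, m29, m27, m25, m23, m21, m19, m17, m15, m13, m11, m9, m7, m5,
    m3, m1, w4, w5, w6, w7, w10, w11, w12, w13, w16, w17, w18, w19, w22, w23, w123, w126,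
    w129] = true :=
  okS_of (by decide +kernel) (by decide +kernel)

theorem s107 : okS 603688 w22 w23 m107
    [m106, m105, m103, m101, m99, m97, m95, m93, m91, m89, m87, m85, m83, m81, m79, m77, m75,
    m73, m71, m69, m67, m65, m63, m61, m59, m57, m55, m53, m51, m49, m47, m45, m43, m42, m41,
    m39, m38, m37, m36, m35, m34, m33, m31, m29, m27, m25, m23, m21, m19, m17, m15, m13, m11, m9,
    m7, m5, m3, m1, w4, w5, w6, w7, w10, w11, w12, w13, w16, w17, w18, w19, w123, w126,
    w129] = true :=
  okS_of (by decide +kernel) (by decide +kernel)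

theorem s108 : okS 603686 m34 m106 m108
    [m107, m105, m103, m101, m99, m97, m95, m93, m91, m89, m87, m85, m83, m81, m79, m77, m75,
    m73, m71, m69, m67, m65, m63, m61, m59, m57, m55, m53, m51, m49, m47, m45, m43, m42, m41,
    m39, m38, m37, m36, m35, m33, m31, m29, m27, m25, m23, m21, m19, m17, m15, m13, m11, m9, m7,
    m5, m3, m1, w4, w5, w6, w7, w10, w11, w12, w13, w16, w17, w18, w19, w123, w126,
    w129] = true :=
  okS_of (by decide +kernel) (by decide +kernel)

theorem s109 : okS 603022 w18 w19 m109
    [m108, m107, m105, m103, m101, m99, m97, m95, m93, m91, m89, m87, m85, m83, m81, m79, m77,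
    m75, m73, m71, m69, m67, m65, m63, m61, m59, m57, m55, m53, m51, m49, m47, m45, m43, m42,
    m41, m39, m38, m37, m36, m35, m33, m31, m29, m27, m25, m23, m21, m19, m17, m15, m13, m11, m9,
    m7, m5, m3, m1, w4, w5, w6, w7, w10, w11, w12, w13, w16, w17, w123, w126, w129] = true :=
  okS_of (by decide +kernel) (by decide +kernel)

theorem s110 : okS 603017 w129 m108 m110
    [m109, m107, m105, m103, m101, m99, m97, m95, m93, m91, m89, m87, m85, m83, m81, m79, m77,
    m75, m73, m71, m69, m67, m65, m63, m61, m59, m57, m55, m53, m51, m49, m47, m45, m43, m42,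
    m41, m39, m38, m37, m36, m35, m33, m31, m29, m27, m25, m23, m21, m19, m17, m15, m13, m11, m9,
    m7, m5, m3, m1, w4, w5, w6, w7, w10, w11, w12, w13, w16, w17, w123, w126] = true :=
  okS_of (by decide +kernel) (by decide +kernel)

theorem s111 : okS 602834 w16 w17 m111
    [m110, m109, m107, m105, m103, m101, m99, m97, m95, m93, m91, m89, m87, m85, m83, m81, m79,
    m77, m75, m73, m71, m69, m67, m65, m63, m61, m59, m57, m55, m53, m51, m49, m47, m45, m43,
    m42, m41, m39, m38, m37, m36, m35, m33, m31, m29, m27, m25, m23, m21, m19, m17, m15, m13,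
    m11, m9, m7, m5, m3, m1, w4, w5, w6, w7, w10, w11, w12, w13, w123, w126] = true :=
  okS_of (by decide +kernel) (by decide +kernel)

theorem s112 : okS 602832 m36 m110 m112
    [m111, m109, m107, m105, m103, m101, m99, m97, m95, m93, m91, m89, m87, m85, m83, m81, m79,
    m77, m75, m73, m71, m69, m67, m65, m63, m61, m59, m57, m55, m53, m51, m49, m47, m45, m43,
    m42, m41, m39, m38, m37, m35, m33, m31, m29, m27, m25, m23, m21, m19, m17, m15, m13, m11, m9,
    m7, m5, m3, m1, w4, w5, w6, w7, w10, w11, w12, w13, w123, w126] = true :=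
  okS_of (by decide +kernel) (by decide +kernel)

theorem s113 : okS 602168 w12 w13 m113
    [m112, m111, m109, m107, m105, m103, m101, m99, m97, m95, m93, m91, m89, m87, m85, m83, m81,
    m79, m77, m75, m73, m71, m69, m67, m65, m63, m61, m59, m57, m55, m53, m51, m49, m47, m45,
    m43, m42, m41, m39, m38, m37, m35, m33, m31, m29, m27, m25, m23, m21, m19, m17, m15, m13,
    m11, m9, m7, m5, m3, m1, w4, w5, w6, w7, w10, w11, w123, w126] = true :=
  okS_of (by decide +kernel) (by decide +kernel)

theorem s114 : okS 602166 w126 m112 m114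
    [m113, m111, m109, m107, m105, m103, m101, m99, m97, m95, m93, m91, m89, m87, m85, m83, m81,
    m79, m77, m75, m73, m71, m69, m67, m65, m63, m61, m59, m57, m55, m53, m51, m49, m47, m45,
    m43, m42, m41, m39, m38, m37, m35, m33, m31, m29, m27, m25, m23, m21, m19, m17, m15, m13,
    m11, m9, m7, m5, m3, m1, w4, w5, w6, w7, w10, w11, w123] = true :=
  okS_of (by decide +kernel) (by decide +kernel)

theorem s115 : okS 601980 w10 w11 m115
    [m114, m113, m111, m109, m107, m105, m103, m101, m99, m97, m95, m93, m91, m89, m87, m85, m83,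
    m81, m79, m77, m75, m73, m71, m69, m67, m65, m63, m61, m59, m57, m55, m53, m51, m49, m47,
    m45, m43, m42, m41, m39, m38, m37, m35, m33, m31, m29, m27, m25, m23, m21, m19, m17, m15,
    m13, m11, m9, m7, m5, m3, m1, w4, w5, w6, w7, w123] = true :=
  okS_of (by decide +kernel) (by decide +kernel)

theorem s116 : okS 601978 m38 m114 m116
    [m115, m113, m111, m109, m107, m105, m103, m101, m99, m97, m95, m93, m91, m89, m87, m85, m83,
    m81, m79, m77, m75, m73, m71, m69, m67, m65, m63, m61, m59, m57, m55, m53, m51, m49, m47,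
    m45, m43, m42, m41, m39, m37, m35, m33, m31, m29, m27, m25, m23, m21, m19, m17, m15, m13,
    m11, m9, m7, m5, m3, m1, w4, w5, w6, w7, w123] = true :=
  okS_of (by decide +kernel) (by decide +kernel)

theorem s117 : okS 601314 w6 w7 m117
    [m116, m115, m113, m111, m109, m107, m105, m103, m101, m99, m97, m95, m93, m91, m89, m87,
    m85, m83, m81, m79, m77, m75, m73, m71, m69, m67, m65, m63, m61, m59, m57, m55, m53, m51,
    m49, m47, m45, m43, m42, m41, m39, m37, m35, m33, m31, m29, m27, m25, m23, m21, m19, m17,
    m15, m13, m11, m9, m7, m5, m3, m1, w4, w5, w123] = true :=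
  okS_of (by decide +kernel) (by decide +kernel)

theorem s118 : okS 601312 w123 m116 m118
    [m117, m115, m113, m111, m109, m107, m105, m103, m101, m99, m97, m95, m93, m91, m89, m87,
    m85, m83, m81, m79, m77, m75, m73, m71, m69, m67, m65, m63, m61, m59, m57, m55, m53, m51,
    m49, m47, m45, m43, m42, m41, m39, m37, m35, m33, m31, m29, m27, m25, m23, m21, m19, m17,
    m15, m13, m11, m9, m7, m5, m3, m1, w4, w5] = true :=
  okS_of (by decide +kernel) (by decide +kernel)

theorem s119 : okS 601126 w4 w5 m119
    [m118, m117, m115, m113, m111, m109, m107, m105, m103, m101, m99, m97, m95, m93, m91, m89,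
    m87, m85, m83, m81, m79, m77, m75, m73, m71, m69, m67, m65, m63, m61, m59, m57, m55, m53,
    m51, m49, m47, m45, m43, m42, m41, m39, m37, m35, m33, m31, m29, m27, m25, m23, m21, m19,
    m17, m15, m13, m11, m9, m7, m5, m3, m1] = true :=
  okS_of (by decide +kernel) (by decide +kernel)

theorem s120 : okS 601124 m42 m118 m120
    [m119, m117, m115, m113, m111, m109, m107, m105, m103, m101, m99, m97, m95, m93, m91, m89,
    m87, m85, m83, m81, m79, m77, m75, m73, m71, m69, m67, m65, m63, m61, m59, m57, m55, m53,
    m51, m49, m47, m45, m43, m41, m39, m37, m35, m33, m31, m29, m27, m25, m23, m21, m19, m17,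
    m15, m13, m11, m9, m7, m5, m3, m1] = true :=
  okS_of (by decide +kernel) (by decide +kernel)

theorem s121 : okS 339301 m43 m1 m121
    [m120, m119, m117, m115, m113, m111, m109, m107, m105, m103, m101, m99, m97, m95, m93, m91,
    m89, m87, m85, m83, m81, m79, m77, m75, m73, m71, m69, m67, m65, m63, m61, m59, m57, m55,
    m53, m51, m49, m47, m45, m41, m39, m37, m35, m33, m31, m29, m27, m25, m23, m21, m19, m17,
    m15, m13, m11, m9, m7, m5, m3] = true :=
  okS_of (by decide +kernel) (by decide +kernel)

theorem s122 : okS 307946 m47 m3 m122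
    [m121, m120, m119, m117, m115, m113, m111, m109, m107, m105, m103, m101, m99, m97, m95, m93,
    m91, m89, m87, m85, m83, m81, m79, m77, m75, m73, m71, m69, m67, m65, m63, m61, m59, m57,
    m55, m53, m51, m49, m45, m41, m39, m37, m35, m33, m31, m29, m27, m25, m23, m21, m19, m17,
    m15, m13, m11, m9, m7, m5] = true :=
  okS_of (by decide +kernel) (by decide +kernel)

theorem s123 : okS 307519 m51 m5 m123
    [m122, m121, m120, m119, m117, m115, m113, m111, m109, m107, m105, m103, m101, m99, m97, m95,
    m93, m91, m89, m87, m85, m83, m81, m79, m77, m75, m73, m71, m69, m67, m65, m63, m61, m59,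
    m57, m55, m53, m49, m45, m41, m39, m37, m35, m33, m31, m29, m27, m25, m23, m21, m19, m17,
    m15, m13, m11, m9, m7] = true :=
  okS_of (by decide +kernel) (by decide +kernel)

theorem s124 : okS 307092 m55 m7 m124
    [m123, m122, m121, m120, m119, m117, m115, m113, m111, m109, m107, m105, m103, m101, m99,
    m97, m95, m93, m91, m89, m87, m85, m83, m81, m79, m77, m75, m73, m71, m69, m67, m65, m63,
    m61, m59, m57, m53, m49, m45, m41, m39, m37, m35, m33, m31, m29, m27, m25, m23, m21, m19,
    m17, m15, m13, m11, m9] = true :=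
  okS_of (by decide +kernel) (by decide +kernel)

theorem s125 : okS 306665 m59 m9 m125
    [m124, m123, m122, m121, m120, m119, m117, m115, m113, m111, m109, m107, m105, m103, m101,
    m99, m97, m95, m93, m91, m89, m87, m85, m83, m81, m79, m77, m75, m73, m71, m69, m67, m65,
    m63, m61, m57, m53, m49, m45, m41, m39, m37, m35, m33, m31, m29, m27, m25, m23, m21, m19,
    m17, m15, m13, m11] = true :=
  okS_of (by decide +kernel) (by decide +kernel)

theorem s126 : okS 306238 m63 m11 m126
    [m125, m124, m123, m122, m121, m120, m119, m117, m115, m113, m111, m109, m107, m105, m103,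
    m101, m99, m97, m95, m93, m91, m89, m87, m85, m83, m81, m79, m77, m75, m73, m71, m69, m67,
    m65, m61, m57, m53, m49, m45, m41, m39, m37, m35, m33, m31, m29, m27, m25, m23, m21, m19,
    m17, m15, m13] = true :=
  okS_of (by decide +kernel) (by decide +kernel)

theorem s127 : okS 305811 m67 m13 m127
    [m126, m125, m124, m123, m122, m121, m120, m119, m117, m115, m113, m111, m109, m107, m105,
    m103, m101, m99, m97, m95, m93, m91, m89, m87, m85, m83, m81, m79, m77, m75, m73, m71, m69,
    m65, m61, m57, m53, m49, m45, m41, m39, m37, m35, m33, m31, m29, m27, m25, m23, m21, m19,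
    m17, m15] = true :=
  okS_of (by decide +kernel) (by decide +kernel)

theorem s128 : okS 305384 m71 m15 m128
    [m127, m126, m125, m124, m123, m122, m121, m120, m119, m117, m115, m113, m111, m109, m107,
    m105, m103, m101, m99, m97, m95, m93, m91, m89, m87, m85, m83, m81, m79, m77, m75, m73, m69,
    m65, m61, m57, m53, m49, m45, m41, m39, m37, m35, m33, m31, m29, m27, m25, m23, m21, m19,
    m17] = true :=
  okS_of (by decide +kernel) (by decide +kernel)

theorem s129 : okS 304957 m75 m17 m129
    [m128, m127, m126, m125, m124, m123, m122, m121, m120, m119, m117, m115, m113, m111, m109,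
    m107, m105, m103, m101, m99, m97, m95, m93, m91, m89, m87, m85, m83, m81, m79, m77, m73, m69,
    m65, m61, m57, m53, m49, m45, m41, m39, m37, m35, m33, m31, m29, m27, m25, m23, m21,
    m19] = true :=
  okS_of (by decide +kernel) (by decide +kernel)

theorem s130 : okS 304531 m79 m19 m130
    [m129, m128, m127, m126, m125, m124, m123, m122, m121, m120, m119, m117, m115, m113, m111,
    m109, m107, m105, m103, m101, m99, m97, m95, m93, m91, m89, m87, m85, m83, m81, m77, m73,
    m69, m65, m61, m57, m53, m49, m45, m41, m39, m37, m35, m33, m31, m29, m27, m25, m23,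
    m21] = true :=
  okS_of (by decide +kernel) (by decide +kernel)

theorem s131 : okS 304103 m83 m21 m131
    [m130, m129, m128, m127, m126, m125, m124, m123, m122, m121, m120, m119, m117, m115, m113,
    m111, m109, m107, m105, m103, m101, m99, m97, m95, m93, m91, m89, m87, m85, m81, m77, m73,
    m69, m65, m61, m57, m53, m49, m45, m41, m39, m37, m35, m33, m31, m29, m27, m25, m23] = true :=
  okS_of (by decide +kernel) (by decide +kernel)

theorem s132 : okS 303676 m87 m23 m132
    [m131, m130, m129, m128, m127, m126, m125, m124, m123, m122, m121, m120, m119, m117, m115,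
    m113, m111, m109, m107, m105, m103, m101, m99, m97, m95, m93, m91, m89, m85, m81, m77, m73,
    m69, m65, m61, m57, m53, m49, m45, m41, m39, m37, m35, m33, m31, m29, m27, m25] = true :=
  okS_of (by decide +kernel) (by decide +kernel)

theorem s133 : okS 303249 m91 m25 m133
    [m132, m131, m130, m129, m128, m127, m126, m125, m124, m123, m122, m121, m120, m119, m117,
    m115, m113, m111, m109, m107, m105, m103, m101, m99, m97, m95, m93, m89, m85, m81, m77, m73,
    m69, m65, m61, m57, m53, m49, m45, m41, m39, m37, m35, m33, m31, m29, m27] = true :=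
  okS_of (by decide +kernel) (by decide +kernel)

theorem s134 : okS 302852 m95 m27 m134
    [m133, m132, m131, m130, m129, m128, m127, m126, m125, m124, m123, m122, m121, m120, m119,
    m117, m115, m113, m111, m109, m107, m105, m103, m101, m99, m97, m93, m89, m85, m81, m77, m73,
    m69, m65, m61, m57, m53, m49, m45, m41, m39, m37, m35, m33, m31, m29] = true :=
  okS_of (by decide +kernel) (by decide +kernel)

theorem s135 : okS 302394 m99 m29 m135
    [m134, m133, m132, m131, m130, m129, m128, m127, m126, m125, m124, m123, m122, m121, m120,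
    m119, m117, m115, m113, m111, m109, m107, m105, m103, m101, m97, m93, m89, m85, m81, m77,
    m73, m69, m65, m61, m57, m53, m49, m45, m41, m39, m37, m35, m33, m31] = true :=
  okS_of (by decide +kernel) (by decide +kernel)

theorem s136 : okS 301968 m103 m31 m136
    [m135, m134, m133, m132, m131, m130, m129, m128, m127, m126, m125, m124, m123, m122, m121,
    m120, m119, m117, m115, m113, m111, m109, m107, m105, m101, m97, m93, m89, m85, m81, m77,
    m73, m69, m65, m61, m57, m53, m49, m45, m41, m39, m37, m35, m33] = true :=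
  okS_of (by decide +kernel) (by decide +kernel)

theorem s137 : okS 301541 m107 m33 m137
    [m136, m135, m134, m133, m132, m131, m130, m129, m128, m127, m126, m125, m124, m123, m122,
    m121, m120, m119, m117, m115, m113, m111, m109, m105, m101, m97, m93, m89, m85, m81, m77,
    m73, m69, m65, m61, m57, m53, m49, m45, m41, m39, m37, m35] = true :=
  okS_of (by decide +kernel) (by decide +kernel)

theorem s138 : okS 301114 m111 m35 m138
    [m137, m136, m135, m134, m133, m132, m131, m130, m129, m128, m127, m126, m125, m124, m123,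
    m122, m121, m120, m119, m117, m115, m113, m109, m105, m101, m97, m93, m89, m85, m81, m77,
    m73, m69, m65, m61, m57, m53, m49, m45, m41, m39, m37] = true :=
  okS_of (by decide +kernel) (by decide +kernel)

theorem s139 : okS 300687 m115 m37 m139
    [m138, m137, m136, m135, m134, m133, m132, m131, m130, m129, m128, m127, m126, m125, m124,
    m123, m122, m121, m120, m119, m117, m113, m109, m105, m101, m97, m93, m89, m85, m81, m77,
    m73, m69, m65, m61, m57, m53, m49, m45, m41, m39] = true :=
  okS_of (by decide +kernel) (by decide +kernel)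

theorem s140 : okS 300262 m119 m39 m140
    [m139, m138, m137, m136, m135, m134, m133, m132, m131, m130, m129, m128, m127, m126, m125,
    m124, m123, m122, m121, m120, m117, m113, m109, m105, m101, m97, m93, m89, m85, m81, m77,
    m73, m69, m65, m61, m57, m53, m49, m45, m41] = true :=
  okS_of (by decide +kernel) (by decide +kernel)

theorem s141 : okS 106224 m140 m41 m141
    [m139, m138, m137, m136, m135, m134, m133, m132, m131, m130, m129, m128, m127, m126, m125,
    m124, m123, m122, m121, m120, m117, m113, m109, m105, m101, m97, m93, m89, m85, m81, m77,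
    m73, m69, m65, m61, m57, m53, m49, m45] = true :=
  okS_of (by decide +kernel) (by decide +kernel)

end Vale.Agent.P333.Rle.V20
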