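import Vale.Agent.P333.CE.StV20A
import Vale.Agent.P333.CE.StV20B
import Vale.Agent.P333.CE.StV20C
import Vale.Agent.P333.CE.StV20D
import Vale.Agent.P333.CE.StV20E
import Vale.Agent.P333.CE.StV20F
import Vale.Agent.P333.CE.StV20G
import Vale.Agent.P333.CE.StV20H

/-!
P333: the forced greedy run.
-/

namespace Vale.Agent.P333.Rle.V20

set_option maxRecDepth 100000

theorem last : okE 67435722 42 [m141, m139, m138, m137, m136, m135, m134, m133, m132, m131, m130,
    m129, m128, m127, m126, m125, m124, m123, m122, m121, m120, m117, m113, m109, m105, m101,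
    m97, m93, m89, m85, m81, m77, m73, m69, m65, m61, m57, m53, m49,
    m45] = true := by decide +kernel

theorem c142 : Valid [m141, m139, m138, m137, m136, m135, m134, m133, m132, m131, m130, m129,
    m128, m127, m126, m125, m124, m123, m122, m121, m120, m117, m113, m109, m105, m101, m97, m93,
    m89, m85, m81, m77, m73, m69, m65, m61, m57, m53, m49, m45] → Concl 67435722 [m141, m139,
    m138, m137, m136, m135, m134, m133, m132, m131, m130, m129, m128, m127, m126, m125, m124,
    m123, m122, m121, m120, m117, m113, m109, m105, m101, m97, m93, m89, m85, m81, m77, m73, m69,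
    m65, m61, m57, m53, m49, m45] := finish last

theorem c141 : Valid [m140, m139, m138, m137, m136, m135, m134, m133, m132, m131, m130, m129,
    m128, m127, m126, m125, m124, m123, m122, m121, m120, m117, m113, m109, m105, m101, m97, m93,
    m89, m85, m81, m77, m73, m69, m65, m61, m57, m53, m49, m45, m41] →
    Concl 67435722 [m140, m139, m138, m137, m136, m135, m134, m133, m132, m131, m130, m129, m128,
    m127, m126, m125, m124, m123, m122, m121, m120, m117, m113, m109, m105, m101, m97, m93, m89,
    m85, m81, m77, m73, m69, m65, m61, m57, m53, m49, m45, m41] :=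
  next (i := 0) (j := 39) rfl rfl s141 c142

theorem c140 : Valid [m139, m138, m137, m136, m135, m134, m133, m132, m131, m130, m129, m128,
    m127, m126, m125, m124, m123, m122, m121, m120, m119, m117, m113, m109, m105, m101, m97, m93,
    m89, m85, m81, m77, m73, m69, m65, m61, m57, m53, m49, m45, m41, m39] →
    Concl 67435722 [m139, m138, m137, m136, m135, m134, m133, m132, m131, m130, m129, m128, m127,
    m126, m125, m124, m123, m122, m121, m120, m119, m117, m113, m109, m105, m101, m97, m93, m89,
    m85, m81, m77, m73, m69, m65, m61, m57, m53, m49, m45, m41, m39] :=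
  next (i := 20) (j := 40) rfl rfl s140 c141

theorem c139 : Valid [m138, m137, m136, m135, m134, m133, m132, m131, m130, m129, m128, m127,
    m126, m125, m124, m123, m122, m121, m120, m119, m117, m115, m113, m109, m105, m101, m97, m93,
    m89, m85, m81, m77, m73, m69, m65, m61, m57, m53, m49, m45, m41, m39, m37] →
    Concl 67435722 [m138, m137, m136, m135, m134, m133, m132, m131, m130, m129, m128, m127, m126,
    m125, m124, m123, m122, m121, m120, m119, m117, m115, m113, m109, m105, m101, m97, m93, m89,
    m85, m81, m77, m73, m69, m65, m61, m57, m53, m49, m45, m41, m39, m37] :=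
  next (i := 21) (j := 41) rfl rfl s139 c140

theorem c138 : Valid [m137, m136, m135, m134, m133, m132, m131, m130, m129, m128, m127, m126,
    m125, m124, m123, m122, m121, m120, m119, m117, m115, m113, m111, m109, m105, m101, m97, m93,
    m89, m85, m81, m77, m73, m69, m65, m61, m57, m53, m49, m45, m41, m39, m37, m35] →
    Concl 67435722 [m137, m136, m135, m134, m133, m132, m131, m130, m129, m128, m127, m126, m125,
    m124, m123, m122, m121, m120, m119, m117, m115, m113, m111, m109, m105, m101, m97, m93, m89,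
    m85, m81, m77, m73, m69, m65, m61, m57, m53, m49, m45, m41, m39, m37, m35] :=
  next (i := 22) (j := 42) rfl rfl s138 c139

theorem c137 : Valid [m136, m135, m134, m133, m132, m131, m130, m129, m128, m127, m126, m125,
    m124, m123, m122, m121, m120, m119, m117, m115, m113, m111, m109, m107, m105, m101, m97, m93,
    m89, m85, m81, m77, m73, m69, m65, m61, m57, m53, m49, m45, m41, m39, m37, m35, m33] →
    Concl 67435722 [m136, m135, m134, m133, m132, m131, m130, m129, m128, m127, m126, m125, m124,
    m123, m122, m121, m120, m119, m117, m115, m113, m111, m109, m107, m105, m101, m97, m93, m89,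
    m85, m81, m77, m73, m69, m65, m61, m57, m53, m49, m45, m41, m39, m37, m35, m33] :=
  next (i := 23) (j := 43) rfl rfl s137 c138

theorem c136 : Valid [m135, m134, m133, m132, m131, m130, m129, m128, m127, m126, m125, m124,
    m123, m122, m121, m120, m119, m117, m115, m113, m111, m109, m107, m105, m103, m101, m97, m93,
    m89, m85, m81, m77, m73, m69, m65, m61, m57, m53, m49, m45, m41, m39, m37, m35, m33, m31] →
    Concl 67435722 [m135, m134, m133, m132, m131, m130, m129, m128, m127, m126, m125, m124, m123,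
    m122, m121, m120, m119, m117, m115, m113, m111, m109, m107, m105, m103, m101, m97, m93, m89,
    m85, m81, m77, m73, m69, m65, m61, m57, m53, m49, m45, m41, m39, m37, m35, m33, m31] :=
  next (i := 24) (j := 44) rfl rfl s136 c137

theorem c135 : Valid [m134, m133, m132, m131, m130, m129, m128, m127, m126, m125, m124, m123,
    m122, m121, m120, m119, m117, m115, m113, m111, m109, m107, m105, m103, m101, m99, m97, m93,
    m89, m85, m81, m77, m73, m69, m65, m61, m57, m53, m49, m45, m41, m39, m37, m35, m33, m31,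
    m29] →
    Concl 67435722 [m134, m133, m132, m131, m130, m129, m128, m127, m126, m125, m124, m123, m122,
    m121, m120, m119, m117, m115, m113, m111, m109, m107, m105, m103, m101, m99, m97, m93, m89,
    m85, m81, m77, m73, m69, m65, m61, m57, m53, m49, m45, m41, m39, m37, m35, m33, m31, m29] :=
  next (i := 25) (j := 45) rfl rfl s135 c136

theorem c134 : Valid [m133, m132, m131, m130, m129, m128, m127, m126, m125, m124, m123, m122,
    m121, m120, m119, m117, m115, m113, m111, m109, m107, m105, m103, m101, m99, m97, m95, m93,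
    m89, m85, m81, m77, m73, m69, m65, m61, m57, m53, m49, m45, m41, m39, m37, m35, m33, m31,
    m29, m27] →
    Concl 67435722 [m133, m132, m131, m130, m129, m128, m127, m126, m125, m124, m123, m122, m121,
    m120, m119, m117, m115, m113, m111, m109, m107, m105, m103, m101, m99, m97, m95, m93, m89,
    m85, m81, m77, m73, m69, m65, m61, m57, m53, m49, m45, m41, m39, m37, m35, m33, m31, m29,
    m27] :=
  next (i := 26) (j := 46) rfl rfl s134 c135

theorem c133 : Valid [m132, m131, m130, m129, m128, m127, m126, m125, m124, m123, m122, m121,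
    m120, m119, m117, m115, m113, m111, m109, m107, m105, m103, m101, m99, m97, m95, m93, m91,
    m89, m85, m81, m77, m73, m69, m65, m61, m57, m53, m49, m45, m41, m39, m37, m35, m33, m31,
    m29, m27, m25] →
    Concl 67435722 [m132, m131, m130, m129, m128, m127, m126, m125, m124, m123, m122, m121, m120,
    m119, m117, m115, m113, m111, m109, m107, m105, m103, m101, m99, m97, m95, m93, m91, m89,
    m85, m81, m77, m73, m69, m65, m61, m57, m53, m49, m45, m41, m39, m37, m35, m33, m31, m29,
    m27, m25] :=
  next (i := 27) (j := 47) rfl rfl s133 c134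

theorem c132 : Valid [m131, m130, m129, m128, m127, m126, m125, m124, m123, m122, m121, m120,
    m119, m117, m115, m113, m111, m109, m107, m105, m103, m101, m99, m97, m95, m93, m91, m89,
    m87, m85, m81, m77, m73, m69, m65, m61, m57, m53, m49, m45, m41, m39, m37, m35, m33, m31,
    m29, m27, m25, m23] →
    Concl 67435722 [m131, m130, m129, m128, m127, m126, m125, m124, m123, m122, m121, m120, m119,
    m117, m115, m113, m111, m109, m107, m105, m103, m101, m99, m97, m95, m93, m91, m89, m87, m85,
    m81, m77, m73, m69, m65, m61, m57, m53, m49, m45, m41, m39, m37, m35, m33, m31, m29, m27,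
    m25, m23] :=
  next (i := 28) (j := 48) rfl rfl s132 c133

theorem c131 : Valid [m130, m129, m128, m127, m126, m125, m124, m123, m122, m121, m120, m119,
    m117, m115, m113, m111, m109, m107, m105, m103, m101, m99, m97, m95, m93, m91, m89, m87, m85,
    m83, m81, m77, m73, m69, m65, m61, m57, m53, m49, m45, m41, m39, m37, m35, m33, m31, m29,
    m27, m25, m23, m21] →
    Concl 67435722 [m130, m129, m128, m127, m126, m125, m124, m123, m122, m121, m120, m119, m117,
    m115, m113, m111, m109, m107, m105, m103, m101, m99, m97, m95, m93, m91, m89, m87, m85, m83,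
    m81, m77, m73, m69, m65, m61, m57, m53, m49, m45, m41, m39, m37, m35, m33, m31, m29, m27,
    m25, m23, m21] :=
  next (i := 29) (j := 49) rfl rfl s131 c132

theorem c130 : Valid [m129, m128, m127, m126, m125, m124, m123, m122, m121, m120, m119, m117,
    m115, m113, m111, m109, m107, m105, m103, m101, m99, m97, m95, m93, m91, m89, m87, m85, m83,
    m81, m79, m77, m73, m69, m65, m61, m57, m53, m49, m45, m41, m39, m37, m35, m33, m31, m29,
    m27, m25, m23, m21, m19] →
    Concl 67435722 [m129, m128, m127, m126, m125, m124, m123, m122, m121, m120, m119, m117, m115,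
    m113, m111, m109, m107, m105, m103, m101, m99, m97, m95, m93, m91, m89, m87, m85, m83, m81,
    m79, m77, m73, m69, m65, m61, m57, m53, m49, m45, m41, m39, m37, m35, m33, m31, m29, m27,
    m25, m23, m21, m19] :=
  next (i := 30) (j := 50) rfl rfl s130 c131

theorem c129 : Valid [m128, m127, m126, m125, m124, m123, m122, m121, m120, m119, m117, m115,
    m113, m111, m109, m107, m105, m103, m101, m99, m97, m95, m93, m91, m89, m87, m85, m83, m81,
    m79, m77, m75, m73, m69, m65, m61, m57, m53, m49, m45, m41, m39, m37, m35, m33, m31, m29,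
    m27, m25, m23, m21, m19, m17] →
    Concl 67435722 [m128, m127, m126, m125, m124, m123, m122, m121, m120, m119, m117, m115, m113,
    m111, m109, m107, m105, m103, m101, m99, m97, m95, m93, m91, m89, m87, m85, m83, m81, m79,
    m77, m75, m73, m69, m65, m61, m57, m53, m49, m45, m41, m39, m37, m35, m33, m31, m29, m27,
    m25, m23, m21, m19, m17] :=
  next (i := 31) (j := 51) rfl rfl s129 c130

theorem c128 : Valid [m127, m126, m125, m124, m123, m122, m121, m120, m119, m117, m115, m113,
    m111, m109, m107, m105, m103, m101, m99, m97, m95, m93, m91, m89, m87, m85, m83, m81, m79,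
    m77, m75, m73, m71, m69, m65, m61, m57, m53, m49, m45, m41, m39, m37, m35, m33, m31, m29,
    m27, m25, m23, m21, m19, m17, m15] →
    Concl 67435722 [m127, m126, m125, m124, m123, m122, m121, m120, m119, m117, m115, m113, m111,
    m109, m107, m105, m103, m101, m99, m97, m95, m93, m91, m89, m87, m85, m83, m81, m79, m77,
    m75, m73, m71, m69, m65, m61, m57, m53, m49, m45, m41, m39, m37, m35, m33, m31, m29, m27,
    m25, m23, m21, m19, m17, m15] :=
  next (i := 32) (j := 52) rfl rfl s128 c129

theorem c127 : Valid [m126, m125, m124, m123, m122, m121, m120, m119, m117, m115, m113, m111,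
    m109, m107, m105, m103, m101, m99, m97, m95, m93, m91, m89, m87, m85, m83, m81, m79, m77,
    m75, m73, m71, m69, m67, m65, m61, m57, m53, m49, m45, m41, m39, m37, m35, m33, m31, m29,
    m27, m25, m23, m21, m19, m17, m15, m13] →
    Concl 67435722 [m126, m125, m124, m123, m122, m121, m120, m119, m117, m115, m113, m111, m109,
    m107, m105, m103, m101, m99, m97, m95, m93, m91, m89, m87, m85, m83, m81, m79, m77, m75, m73,
    m71, m69, m67, m65, m61, m57, m53, m49, m45, m41, m39, m37, m35, m33, m31, m29, m27, m25,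
    m23, m21, m19, m17, m15, m13] :=
  next (i := 33) (j := 53) rfl rfl s127 c128

theorem c126 : Valid [m125, m124, m123, m122, m121, m120, m119, m117, m115, m113, m111, m109,
    m107, m105, m103, m101, m99, m97, m95, m93, m91, m89, m87, m85, m83, m81, m79, m77, m75, m73,
    m71, m69, m67, m65, m63, m61, m57, m53, m49, m45, m41, m39, m37, m35, m33, m31, m29, m27,
    m25, m23, m21, m19, m17, m15, m13, m11] →
    Concl 67435722 [m125, m124, m123, m122, m121, m120, m119, m117, m115, m113, m111, m109, m107,
    m105, m103, m101, m99, m97, m95, m93, m91, m89, m87, m85, m83, m81, m79, m77, m75, m73, m71,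
    m69, m67, m65, m63, m61, m57, m53, m49, m45, m41, m39, m37, m35, m33, m31, m29, m27, m25,
    m23, m21, m19, m17, m15, m13, m11] :=
  next (i := 34) (j := 54) rfl rfl s126 c127

theorem c125 : Valid [m124, m123, m122, m121, m120, m119, m117, m115, m113, m111, m109, m107,
    m105, m103, m101, m99, m97, m95, m93, m91, m89, m87, m85, m83, m81, m79, m77, m75, m73, m71,
    m69, m67, m65, m63, m61, m59, m57, m53, m49, m45, m41, m39, m37, m35, m33, m31, m29, m27,
    m25, m23, m21, m19, m17, m15, m13, m11, m9] →
    Concl 67435722 [m124, m123, m122, m121, m120, m119, m117, m115, m113, m111, m109, m107, m105,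
    m103, m101, m99, m97, m95, m93, m91, m89, m87, m85, m83, m81, m79, m77, m75, m73, m71, m69,
    m67, m65, m63, m61, m59, m57, m53, m49, m45, m41, m39, m37, m35, m33, m31, m29, m27, m25,
    m23, m21, m19, m17, m15, m13, m11, m9] :=
  next (i := 35) (j := 55) rfl rfl s125 c126

theorem c124 : Valid [m123, m122, m121, m120, m119, m117, m115, m113, m111, m109, m107, m105,
    m103, m101, m99, m97, m95, m93, m91, m89, m87, m85, m83, m81, m79, m77, m75, m73, m71, m69,
    m67, m65, m63, m61, m59, m57, m55, m53, m49, m45, m41, m39, m37, m35, m33, m31, m29, m27,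
    m25, m23, m21, m19, m17, m15, m13, m11, m9, m7] →
    Concl 67435722 [m123, m122, m121, m120, m119, m117, m115, m113, m111, m109, m107, m105, m103,
    m101, m99, m97, m95, m93, m91, m89, m87, m85, m83, m81, m79, m77, m75, m73, m71, m69, m67,
    m65, m63, m61, m59, m57, m55, m53, m49, m45, m41, m39, m37, m35, m33, m31, m29, m27, m25,
    m23, m21, m19, m17, m15, m13, m11, m9, m7] :=
  next (i := 36) (j := 56) rfl rfl s124 c125

theorem c123 : Valid [m122, m121, m120, m119, m117, m115, m113, m111, m109, m107, m105, m103,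
    m101, m99, m97, m95, m93, m91, m89, m87, m85, m83, m81, m79, m77, m75, m73, m71, m69, m67,
    m65, m63, m61, m59, m57, m55, m53, m51, m49, m45, m41, m39, m37, m35, m33, m31, m29, m27,
    m25, m23, m21, m19, m17, m15, m13, m11, m9, m7, m5] →
    Concl 67435722 [m122, m121, m120, m119, m117, m115, m113, m111, m109, m107, m105, m103, m101,
    m99, m97, m95, m93, m91, m89, m87, m85, m83, m81, m79, m77, m75, m73, m71, m69, m67, m65,
    m63, m61, m59, m57, m55, m53, m51, m49, m45, m41, m39, m37, m35, m33, m31, m29, m27, m25,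
    m23, m21, m19, m17, m15, m13, m11, m9, m7, m5] :=
  next (i := 37) (j := 57) rfl rfl s123 c124

theorem c122 : Valid [m121, m120, m119, m117, m115, m113, m111, m109, m107, m105, m103, m101,
    m99, m97, m95, m93, m91, m89, m87, m85, m83, m81, m79, m77, m75, m73, m71, m69, m67, m65,
    m63, m61, m59, m57, m55, m53, m51, m49, m47, m45, m41, m39, m37, m35, m33, m31, m29, m27,
    m25, m23, m21, m19, m17, m15, m13, m11, m9, m7, m5, m3] →
    Concl 67435722 [m121, m120, m119, m117, m115, m113, m111, m109, m107, m105, m103, m101, m99,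
    m97, m95, m93, m91, m89, m87, m85, m83, m81, m79, m77, m75, m73, m71, m69, m67, m65, m63,
    m61, m59, m57, m55, m53, m51, m49, m47, m45, m41, m39, m37, m35, m33, m31, m29, m27, m25,
    m23, m21, m19, m17, m15, m13, m11, m9, m7, m5, m3] :=
  next (i := 38) (j := 58) rfl rfl s122 c123

theorem c121 : Valid [m120, m119, m117, m115, m113, m111, m109, m107, m105, m103, m101, m99, m97,
    m95, m93, m91, m89, m87, m85, m83, m81, m79, m77, m75, m73, m71, m69, m67, m65, m63, m61,
    m59, m57, m55, m53, m51, m49, m47, m45, m43, m41, m39, m37, m35, m33, m31, m29, m27, m25,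
    m23, m21, m19, m17, m15, m13, m11, m9, m7, m5, m3, m1] →
    Concl 67435722 [m120, m119, m117, m115, m113, m111, m109, m107, m105, m103, m101, m99, m97,
    m95, m93, m91, m89, m87, m85, m83, m81, m79, m77, m75, m73, m71, m69, m67, m65, m63, m61,
    m59, m57, m55, m53, m51, m49, m47, m45, m43, m41, m39, m37, m35, m33, m31, m29, m27, m25,
    m23, m21, m19, m17, m15, m13, m11, m9, m7, m5, m3, m1] :=
  next (i := 39) (j := 59) rfl rfl s121 c122

theorem c120 : Valid [m119, m118, m117, m115, m113, m111, m109, m107, m105, m103, m101, m99, m97,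
    m95, m93, m91, m89, m87, m85, m83, m81, m79, m77, m75, m73, m71, m69, m67, m65, m63, m61,
    m59, m57, m55, m53, m51, m49, m47, m45, m43, m42, m41, m39, m37, m35, m33, m31, m29, m27,
    m25, m23, m21, m19, m17, m15, m13, m11, m9, m7, m5, m3, m1] →
    Concl 67435722 [m119, m118, m117, m115, m113, m111, m109, m107, m105, m103, m101, m99, m97,
    m95, m93, m91, m89, m87, m85, m83, m81, m79, m77, m75, m73, m71, m69, m67, m65, m63, m61,
    m59, m57, m55, m53, m51, m49, m47, m45, m43, m42, m41, m39, m37, m35, m33, m31, m29, m27,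
    m25, m23, m21, m19, m17, m15, m13, m11, m9, m7, m5, m3, m1] :=
  next (i := 40) (j := 1) rfl rfl s120 c121

theorem c119 : Valid [m118, m117, m115, m113, m111, m109, m107, m105, m103, m101, m99, m97, m95,
    m93, m91, m89, m87, m85, m83, m81, m79, m77, m75, m73, m71, m69, m67, m65, m63, m61, m59,
    m57, m55, m53, m51, m49, m47, m45, m43, m42, m41, m39, m37, m35, m33, m31, m29, m27, m25,
    m23, m21, m19, m17, m15, m13, m11, m9, m7, m5, m3, m1, w4, w5] →
    Concl 67435722 [m118, m117, m115, m113, m111, m109, m107, m105, m103, m101, m99, m97, m95,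
    m93, m91, m89, m87, m85, m83, m81, m79, m77, m75, m73, m71, m69, m67, m65, m63, m61, m59,
    m57, m55, m53, m51, m49, m47, m45, m43, m42, m41, m39, m37, m35, m33, m31, m29, m27, m25,
    m23, m21, m19, m17, m15, m13, m11, m9, m7, m5, m3, m1, w4, w5] :=
  next (i := 61) (j := 61) rfl rfl s119 c120

theorem c118 : Valid [m117, m116, m115, m113, m111, m109, m107, m105, m103, m101, m99, m97, m95,
    m93, m91, m89, m87, m85, m83, m81, m79, m77, m75, m73, m71, m69, m67, m65, m63, m61, m59,
    m57, m55, m53, m51, m49, m47, m45, m43, m42, m41, m39, m37, m35, m33, m31, m29, m27, m25,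
    m23, m21, m19, m17, m15, m13, m11, m9, m7, m5, m3, m1, w4, w5, w123] →
    Concl 67435722 [m117, m116, m115, m113, m111, m109, m107, m105, m103, m101, m99, m97, m95,
    m93, m91, m89, m87, m85, m83, m81, m79, m77, m75, m73, m71, m69, m67, m65, m63, m61, m59,
    m57, m55, m53, m51, m49, m47, m45, m43, m42, m41, m39, m37, m35, m33, m31, m29, m27, m25,
    m23, m21, m19, m17, m15, m13, m11, m9, m7, m5, m3, m1, w4, w5, w123] :=
  next (i := 63) (j := 1) rfl rfl s118 c119

theorem c117 : Valid [m116, m115, m113, m111, m109, m107, m105, m103, m101, m99, m97, m95, m93,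
    m91, m89, m87, m85, m83, m81, m79, m77, m75, m73, m71, m69, m67, m65, m63, m61, m59, m57,
    m55, m53, m51, m49, m47, m45, m43, m42, m41, m39, m37, m35, m33, m31, m29, m27, m25, m23,
    m21, m19, m17, m15, m13, m11, m9, m7, m5, m3, m1, w4, w5, w6, w7, w123] →
    Concl 67435722 [m116, m115, m113, m111, m109, m107, m105, m103, m101, m99, m97, m95, m93,
    m91, m89, m87, m85, m83, m81, m79, m77, m75, m73, m71, m69, m67, m65, m63, m61, m59, m57,
    m55, m53, m51, m49, m47, m45, m43, m42, m41, m39, m37, m35, m33, m31, m29, m27, m25, m23,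
    m21, m19, m17, m15, m13, m11, m9, m7, m5, m3, m1, w4, w5, w6, w7, w123] :=
  next (i := 62) (j := 62) rfl rfl s117 c118

theorem c116 : Valid [m115, m114, m113, m111, m109, m107, m105, m103, m101, m99, m97, m95, m93,
    m91, m89, m87, m85, m83, m81, m79, m77, m75, m73, m71, m69, m67, m65, m63, m61, m59, m57,
    m55, m53, m51, m49, m47, m45, m43, m42, m41, m39, m38, m37, m35, m33, m31, m29, m27, m25,
    m23, m21, m19, m17, m15, m13, m11, m9, m7, m5, m3, m1, w4, w5, w6, w7, w123] →
    Concl 67435722 [m115, m114, m113, m111, m109, m107, m105, m103, m101, m99, m97, m95, m93,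
    m91, m89, m87, m85, m83, m81, m79, m77, m75, m73, m71, m69, m67, m65, m63, m61, m59, m57,
    m55, m53, m51, m49, m47, m45, m43, m42, m41, m39, m38, m37, m35, m33, m31, m29, m27, m25,
    m23, m21, m19, m17, m15, m13, m11, m9, m7, m5, m3, m1, w4, w5, w6, w7, w123] :=
  next (i := 41) (j := 1) rfl rfl s116 c117

theorem c115 : Valid [m114, m113, m111, m109, m107, m105, m103, m101, m99, m97, m95, m93, m91,
    m89, m87, m85, m83, m81, m79, m77, m75, m73, m71, m69, m67, m65, m63, m61, m59, m57, m55,
    m53, m51, m49, m47, m45, m43, m42, m41, m39, m38, m37, m35, m33, m31, m29, m27, m25, m23,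
    m21, m19, m17, m15, m13, m11, m9, m7, m5, m3, m1, w4, w5, w6, w7, w10, w11, w123] →
    Concl 67435722 [m114, m113, m111, m109, m107, m105, m103, m101, m99, m97, m95, m93, m91, m89,
    m87, m85, m83, m81, m79, m77, m75, m73, m71, m69, m67, m65, m63, m61, m59, m57, m55, m53,
    m51, m49, m47, m45, m43, m42, m41, m39, m38, m37, m35, m33, m31, m29, m27, m25, m23, m21,
    m19, m17, m15, m13, m11, m9, m7, m5, m3, m1, w4, w5, w6, w7, w10, w11, w123] :=
  next (i := 64) (j := 64) rfl rfl s115 c116

theorem c114 : Valid [m113, m112, m111, m109, m107, m105, m103, m101, m99, m97, m95, m93, m91,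
    m89, m87, m85, m83, m81, m79, m77, m75, m73, m71, m69, m67, m65, m63, m61, m59, m57, m55,
    m53, m51, m49, m47, m45, m43, m42, m41, m39, m38, m37, m35, m33, m31, m29, m27, m25, m23,
    m21, m19, m17, m15, m13, m11, m9, m7, m5, m3, m1, w4, w5, w6, w7, w10, w11, w123, w126] →
    Concl 67435722 [m113, m112, m111, m109, m107, m105, m103, m101, m99, m97, m95, m93, m91, m89,
    m87, m85, m83, m81, m79, m77, m75, m73, m71, m69, m67, m65, m63, m61, m59, m57, m55, m53,
    m51, m49, m47, m45, m43, m42, m41, m39, m38, m37, m35, m33, m31, m29, m27, m25, m23, m21,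
    m19, m17, m15, m13, m11, m9, m7, m5, m3, m1, w4, w5, w6, w7, w10, w11, w123, w126] :=
  next (i := 67) (j := 1) rfl rfl s114 c115

theorem c113 : Valid [m112, m111, m109, m107, m105, m103, m101, m99, m97, m95, m93, m91, m89,
    m87, m85, m83, m81, m79, m77, m75, m73, m71, m69, m67, m65, m63, m61, m59, m57, m55, m53,
    m51, m49, m47, m45, m43, m42, m41, m39, m38, m37, m35, m33, m31, m29, m27, m25, m23, m21,
    m19, m17, m15, m13, m11, m9, m7, m5, m3, m1, w4, w5, w6, w7, w10, w11, w12, w13, w123, w126] →
    Concl 67435722 [m112, m111, m109, m107, m105, m103, m101, m99, m97, m95, m93, m91, m89, m87,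
    m85, m83, m81, m79, m77, m75, m73, m71, m69, m67, m65, m63, m61, m59, m57, m55, m53, m51,
    m49, m47, m45, m43, m42, m41, m39, m38, m37, m35, m33, m31, m29, m27, m25, m23, m21, m19,
    m17, m15, m13, m11, m9, m7, m5, m3, m1, w4, w5, w6, w7, w10, w11, w12, w13, w123, w126] :=
  next (i := 65) (j := 65) rfl rfl s113 c114

theorem c112 : Valid [m111, m110, m109, m107, m105, m103, m101, m99, m97, m95, m93, m91, m89,
    m87, m85, m83, m81, m79, m77, m75, m73, m71, m69, m67, m65, m63, m61, m59, m57, m55, m53,
    m51, m49, m47, m45, m43, m42, m41, m39, m38, m37, m36, m35, m33, m31, m29, m27, m25, m23,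
    m21, m19, m17, m15, m13, m11, m9, m7, m5, m3, m1, w4, w5, w6, w7, w10, w11, w12, w13, w123,
    w126] →
    Concl 67435722 [m111, m110, m109, m107, m105, m103, m101, m99, m97, m95, m93, m91, m89, m87,
    m85, m83, m81, m79, m77, m75, m73, m71, m69, m67, m65, m63, m61, m59, m57, m55, m53, m51,
    m49, m47, m45, m43, m42, m41, m39, m38, m37, m36, m35, m33, m31, m29, m27, m25, m23, m21,
    m19, m17, m15, m13, m11, m9, m7, m5, m3, m1, w4, w5, w6, w7, w10, w11, w12, w13, w123,
    w126] :=
  next (i := 41) (j := 1) rfl rfl s112 c113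

theorem c111 : Valid [m110, m109, m107, m105, m103, m101, m99, m97, m95, m93, m91, m89, m87, m85,
    m83, m81, m79, m77, m75, m73, m71, m69, m67, m65, m63, m61, m59, m57, m55, m53, m51, m49,
    m47, m45, m43, m42, m41, m39, m38, m37, m36, m35, m33, m31, m29, m27, m25, m23, m21, m19,
    m17, m15, m13, m11, m9, m7, m5, m3, m1, w4, w5, w6, w7, w10, w11, w12, w13, w16, w17, w123,
    w126] →
    Concl 67435722 [m110, m109, m107, m105, m103, m101, m99, m97, m95, m93, m91, m89, m87, m85,
    m83, m81, m79, m77, m75, m73, m71, m69, m67, m65, m63, m61, m59, m57, m55, m53, m51, m49,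
    m47, m45, m43, m42, m41, m39, m38, m37, m36, m35, m33, m31, m29, m27, m25, m23, m21, m19,
    m17, m15, m13, m11, m9, m7, m5, m3, m1, w4, w5, w6, w7, w10, w11, w12, w13, w16, w17, w123,
    w126] :=
  next (i := 67) (j := 67) rfl rfl s111 c112

theorem c110 : Valid [m109, m108, m107, m105, m103, m101, m99, m97, m95, m93, m91, m89, m87, m85,
    m83, m81, m79, m77, m75, m73, m71, m69, m67, m65, m63, m61, m59, m57, m55, m53, m51, m49,
    m47, m45, m43, m42, m41, m39, m38, m37, m36, m35, m33, m31, m29, m27, m25, m23, m21, m19,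
    m17, m15, m13, m11, m9, m7, m5, m3, m1, w4, w5, w6, w7, w10, w11, w12, w13, w16, w17, w123,
    w126, w129] →
    Concl 67435722 [m109, m108, m107, m105, m103, m101, m99, m97, m95, m93, m91, m89, m87, m85,
    m83, m81, m79, m77, m75, m73, m71, m69, m67, m65, m63, m61, m59, m57, m55, m53, m51, m49,
    m47, m45, m43, m42, m41, m39, m38, m37, m36, m35, m33, m31, m29, m27, m25, m23, m21, m19,
    m17, m15, m13, m11, m9, m7, m5, m3, m1, w4, w5, w6, w7, w10, w11, w12, w13, w16, w17, w123,
    w126, w129] :=
  next (i := 71) (j := 1) rfl rfl s110 c111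

theorem c109 : Valid [m108, m107, m105, m103, m101, m99, m97, m95, m93, m91, m89, m87, m85, m83,
    m81, m79, m77, m75, m73, m71, m69, m67, m65, m63, m61, m59, m57, m55, m53, m51, m49, m47,
    m45, m43, m42, m41, m39, m38, m37, m36, m35, m33, m31, m29, m27, m25, m23, m21, m19, m17,
    m15, m13, m11, m9, m7, m5, m3, m1, w4, w5, w6, w7, w10, w11, w12, w13, w16, w17, w18, w19,
    w123, w126, w129] →
    Concl 67435722 [m108, m107, m105, m103, m101, m99, m97, m95, m93, m91, m89, m87, m85, m83,
    m81, m79, m77, m75, m73, m71, m69, m67, m65, m63, m61, m59, m57, m55, m53, m51, m49, m47,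
    m45, m43, m42, m41, m39, m38, m37, m36, m35, m33, m31, m29, m27, m25, m23, m21, m19, m17,
    m15, m13, m11, m9, m7, m5, m3, m1, w4, w5, w6, w7, w10, w11, w12, w13, w16, w17, w18, w19,
    w123, w126, w129] :=
  next (i := 68) (j := 68) rfl rfl s109 c110

theorem c108 : Valid [m107, m106, m105, m103, m101, m99, m97, m95, m93, m91, m89, m87, m85, m83,
    m81, m79, m77, m75, m73, m71, m69, m67, m65, m63, m61, m59, m57, m55, m53, m51, m49, m47,
    m45, m43, m42, m41, m39, m38, m37, m36, m35, m34, m33, m31, m29, m27, m25, m23, m21, m19,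
    m17, m15, m13, m11, m9, m7, m5, m3, m1, w4, w5, w6, w7, w10, w11, w12, w13, w16, w17, w18,
    w19, w123, w126, w129] →
    Concl 67435722 [m107, m106, m105, m103, m101, m99, m97, m95, m93, m91, m89, m87, m85, m83,
    m81, m79, m77, m75, m73, m71, m69, m67, m65, m63, m61, m59, m57, m55, m53, m51, m49, m47,
    m45, m43, m42, m41, m39, m38, m37, m36, m35, m34, m33, m31, m29, m27, m25, m23, m21, m19,
    m17, m15, m13, m11, m9, m7, m5, m3, m1, w4, w5, w6, w7, w10, w11, w12, w13, w16, w17, w18,
    w19, w123, w126, w129] :=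
  next (i := 41) (j := 1) rfl rfl s108 c109

theorem c107 : Valid [m106, m105, m103, m101, m99, m97, m95, m93, m91, m89, m87, m85, m83, m81,
    m79, m77, m75, m73, m71, m69, m67, m65, m63, m61, m59, m57, m55, m53, m51, m49, m47, m45,
    m43, m42, m41, m39, m38, m37, m36, m35, m34, m33, m31, m29, m27, m25, m23, m21, m19, m17,
    m15, m13, m11, m9, m7, m5, m3, m1, w4, w5, w6, w7, w10, w11, w12, w13, w16, w17, w18, w19,
    w22, w23, w123, w126, w129] →
    Concl 67435722 [m106, m105, m103, m101, m99, m97, m95, m93, m91, m89, m87, m85, m83, m81,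
    m79, m77, m75, m73, m71, m69, m67, m65, m63, m61, m59, m57, m55, m53, m51, m49, m47, m45,
    m43, m42, m41, m39, m38, m37, m36, m35, m34, m33, m31, m29, m27, m25, m23, m21, m19, m17,
    m15, m13, m11, m9, m7, m5, m3, m1, w4, w5, w6, w7, w10, w11, w12, w13, w16, w17, w18, w19,
    w22, w23, w123, w126, w129] :=
  next (i := 70) (j := 70) rfl rfl s107 c108

theorem c106 : Valid [m105, m104, m103, m101, m99, m97, m95, m93, m91, m89, m87, m85, m83, m81,
    m79, m77, m75, m73, m71, m69, m67, m65, m63, m61, m59, m57, m55, m53, m51, m49, m47, m45,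
    m43, m42, m41, m39, m38, m37, m36, m35, m34, m33, m31, m29, m27, m25, m23, m21, m19, m17,
    m15, m13, m11, m9, m7, m5, m3, m1, w4, w5, w6, w7, w10, w11, w12, w13, w16, w17, w18, w19,
    w22, w23, w123, w126, w129, w132] →
    Concl 67435722 [m105, m104, m103, m101, m99, m97, m95, m93, m91, m89, m87, m85, m83, m81,
    m79, m77, m75, m73, m71, m69, m67, m65, m63, m61, m59, m57, m55, m53, m51, m49, m47, m45,
    m43, m42, m41, m39, m38, m37, m36, m35, m34, m33, m31, m29, m27, m25, m23, m21, m19, m17,
    m15, m13, m11, m9, m7, m5, m3, m1, w4, w5, w6, w7, w10, w11, w12, w13, w16, w17, w18, w19,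
    w22, w23, w123, w126, w129, w132] :=
  next (i := 75) (j := 1) rfl rfl s106 c107

theorem c105 : Valid [m104, m103, m101, m99, m97, m95, m93, m91, m89, m87, m85, m83, m81, m79,
    m77, m75, m73, m71, m69, m67, m65, m63, m61, m59, m57, m55, m53, m51, m49, m47, m45, m43,
    m42, m41, m39, m38, m37, m36, m35, m34, m33, m31, m29, m27, m25, m23, m21, m19, m17, m15,
    m13, m11, m9, m7, m5, m3, m1, w4, w5, w6, w7, w10, w11, w12, w13, w16, w17, w18, w19, w22,
    w23, w24, w25, w123, w126, w129, w132] →
    Concl 67435722 [m104, m103, m101, m99, m97, m95, m93, m91, m89, m87, m85, m83, m81, m79, m77,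
    m75, m73, m71, m69, m67, m65, m63, m61, m59, m57, m55, m53, m51, m49, m47, m45, m43, m42,
    m41, m39, m38, m37, m36, m35, m34, m33, m31, m29, m27, m25, m23, m21, m19, m17, m15, m13,
    m11, m9, m7, m5, m3, m1, w4, w5, w6, w7, w10, w11, w12, w13, w16, w17, w18, w19, w22, w23,
    w24, w25, w123, w126, w129, w132] :=
  next (i := 71) (j := 71) rfl rfl s105 c106

theorem c104 : Valid [m103, m102, m101, m99, m97, m95, m93, m91, m89, m87, m85, m83, m81, m79,
    m77, m75, m73, m71, m69, m67, m65, m63, m61, m59, m57, m55, m53, m51, m49, m47, m45, m43,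
    m42, m41, m39, m38, m37, m36, m35, m34, m33, m32, m31, m29, m27, m25, m23, m21, m19, m17,
    m15, m13, m11, m9, m7, m5, m3, m1, w4, w5, w6, w7, w10, w11, w12, w13, w16, w17, w18, w19,
    w22, w23, w24, w25, w123, w126, w129, w132] →
    Concl 67435722 [m103, m102, m101, m99, m97, m95, m93, m91, m89, m87, m85, m83, m81, m79, m77,
    m75, m73, m71, m69, m67, m65, m63, m61, m59, m57, m55, m53, m51, m49, m47, m45, m43, m42,
    m41, m39, m38, m37, m36, m35, m34, m33, m32, m31, m29, m27, m25, m23, m21, m19, m17, m15,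
    m13, m11, m9, m7, m5, m3, m1, w4, w5, w6, w7, w10, w11, w12, w13, w16, w17, w18, w19, w22,
    w23, w24, w25, w123, w126, w129, w132] :=
  next (i := 41) (j := 1) rfl rfl s104 c105

theorem c103 : Valid [m102, m101, m99, m97, m95, m93, m91, m89, m87, m85, m83, m81, m79, m77,
    m75, m73, m71, m69, m67, m65, m63, m61, m59, m57, m55, m53, m51, m49, m47, m45, m43, m42,
    m41, m39, m38, m37, m36, m35, m34, m33, m32, m31, m29, m27, m25, m23, m21, m19, m17, m15,
    m13, m11, m9, m7, m5, m3, m1, w4, w5, w6, w7, w10, w11, w12, w13, w16, w17, w18, w19, w22,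
    w23, w24, w25, w28, w29, w123, w126, w129, w132] →
    Concl 67435722 [m102, m101, m99, m97, m95, m93, m91, m89, m87, m85, m83, m81, m79, m77, m75,
    m73, m71, m69, m67, m65, m63, m61, m59, m57, m55, m53, m51, m49, m47, m45, m43, m42, m41,
    m39, m38, m37, m36, m35, m34, m33, m32, m31, m29, m27, m25, m23, m21, m19, m17, m15, m13,
    m11, m9, m7, m5, m3, m1, w4, w5, w6, w7, w10, w11, w12, w13, w16, w17, w18, w19, w22, w23,
    w24, w25, w28, w29, w123, w126, w129, w132] :=
  next (i := 73) (j := 73) rfl rfl s103 c104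

theorem c102 : Valid [m101, m100, m99, m97, m95, m93, m91, m89, m87, m85, m83, m81, m79, m77,
    m75, m73, m71, m69, m67, m65, m63, m61, m59, m57, m55, m53, m51, m49, m47, m45, m43, m42,
    m41, m39, m38, m37, m36, m35, m34, m33, m32, m31, m29, m27, m25, m23, m21, m19, m17, m15,
    m13, m11, m9, m7, m5, m3, m1, w4, w5, w6, w7, w10, w11, w12, w13, w16, w17, w18, w19, w22,
    w23, w24, w25, w28, w29, w123, w126, w129, w132, w135] →
    Concl 67435722 [m101, m100, m99, m97, m95, m93, m91, m89, m87, m85, m83, m81, m79, m77, m75,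
    m73, m71, m69, m67, m65, m63, m61, m59, m57, m55, m53, m51, m49, m47, m45, m43, m42, m41,
    m39, m38, m37, m36, m35, m34, m33, m32, m31, m29, m27, m25, m23, m21, m19, m17, m15, m13,
    m11, m9, m7, m5, m3, m1, w4, w5, w6, w7, w10, w11, w12, w13, w16, w17, w18, w19, w22, w23,
    w24, w25, w28, w29, w123, w126, w129, w132, w135] :=
  next (i := 79) (j := 1) rfl rfl s102 c103

theorem c101 : Valid [m100, m99, m97, m95, m93, m91, m89, m87, m85, m83, m81, m79, m77, m75, m73,
    m71, m69, m67, m65, m63, m61, m59, m57, m55, m53, m51, m49, m47, m45, m43, m42, m41, m39,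
    m38, m37, m36, m35, m34, m33, m32, m31, m29, m27, m25, m23, m21, m19, m17, m15, m13, m11, m9,
    m7, m5, m3, m1, w4, w5, w6, w7, w10, w11, w12, w13, w16, w17, w18, w19, w22, w23, w24, w25,
    w28, w29, w30, w31, w123, w126, w129, w132, w135] →
    Concl 67435722 [m100, m99, m97, m95, m93, m91, m89, m87, m85, m83, m81, m79, m77, m75, m73,
    m71, m69, m67, m65, m63, m61, m59, m57, m55, m53, m51, m49, m47, m45, m43, m42, m41, m39,
    m38, m37, m36, m35, m34, m33, m32, m31, m29, m27, m25, m23, m21, m19, m17, m15, m13, m11, m9,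
    m7, m5, m3, m1, w4, w5, w6, w7, w10, w11, w12, w13, w16, w17, w18, w19, w22, w23, w24, w25,
    w28, w29, w30, w31, w123, w126, w129, w132, w135] :=
  next (i := 74) (j := 74) rfl rfl s101 c102

theorem c100 : Valid [m99, m98, m97, m95, m93, m91, m89, m87, m85, m83, m81, m79, m77, m75, m73,
    m71, m69, m67, m65, m63, m61, m59, m57, m55, m53, m51, m49, m47, m45, m43, m42, m41, m39,
    m38, m37, m36, m35, m34, m33, m32, m31, m30, m29, m27, m25, m23, m21, m19, m17, m15, m13,
    m11, m9, m7, m5, m3, m1, w4, w5, w6, w7, w10, w11, w12, w13, w16, w17, w18, w19, w22, w23,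
    w24, w25, w28, w29, w30, w31, w123, w126, w129, w132, w135] →
    Concl 67435722 [m99, m98, m97, m95, m93, m91, m89, m87, m85, m83, m81, m79, m77, m75, m73,
    m71, m69, m67, m65, m63, m61, m59, m57, m55, m53, m51, m49, m47, m45, m43, m42, m41, m39,
    m38, m37, m36, m35, m34, m33, m32, m31, m30, m29, m27, m25, m23, m21, m19, m17, m15, m13,
    m11, m9, m7, m5, m3, m1, w4, w5, w6, w7, w10, w11, w12, w13, w16, w17, w18, w19, w22, w23,
    w24, w25, w28, w29, w30, w31, w123, w126, w129, w132, w135] :=
  next (i := 41) (j := 1) rfl rfl s100 c101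

theorem c99 : Valid [m98, m97, m95, m93, m91, m89, m87, m85, m83, m81, m79, m77, m75, m73, m71,
    m69, m67, m65, m63, m61, m59, m57, m55, m53, m51, m49, m47, m45, m43, m42, m41, m39, m38,
    m37, m36, m35, m34, m33, m32, m31, m30, m29, m27, m25, m23, m21, m19, m17, m15, m13, m11, m9,
    m7, m5, m3, m1, w4, w5, w6, w7, w10, w11, w12, w13, w16, w17, w18, w19, w22, w23, w24, w25,
    w28, w29, w30, w31, w34, w35, w123, w126, w129, w132, w135] →
    Concl 67435722 [m98, m97, m95, m93, m91, m89, m87, m85, m83, m81, m79, m77, m75, m73, m71,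
    m69, m67, m65, m63, m61, m59, m57, m55, m53, m51, m49, m47, m45, m43, m42, m41, m39, m38,
    m37, m36, m35, m34, m33, m32, m31, m30, m29, m27, m25, m23, m21, m19, m17, m15, m13, m11, m9,
    m7, m5, m3, m1, w4, w5, w6, w7, w10, w11, w12, w13, w16, w17, w18, w19, w22, w23, w24, w25,
    w28, w29, w30, w31, w34, w35, w123, w126, w129, w132, w135] :=
  next (i := 76) (j := 76) rfl rfl s99 c100

theorem c98 : Valid [m97, m96, m95, m93, m91, m89, m87, m85, m83, m81, m79, m77, m75, m73, m71,
    m69, m67, m65, m63, m61, m59, m57, m55, m53, m51, m49, m47, m45, m43, m42, m41, m39, m38,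
    m37, m36, m35, m34, m33, m32, m31, m30, m29, m27, m25, m23, m21, m19, m17, m15, m13, m11, m9,
    m7, m5, m3, m1, w4, w5, w6, w7, w10, w11, w12, w13, w16, w17, w18, w19, w22, w23, w24, w25,
    w28, w29, w30, w31, w34, w35, w123, w126, w129, w132, w135, w138] →
    Concl 67435722 [m97, m96, m95, m93, m91, m89, m87, m85, m83, m81, m79, m77, m75, m73, m71,
    m69, m67, m65, m63, m61, m59, m57, m55, m53, m51, m49, m47, m45, m43, m42, m41, m39, m38,
    m37, m36, m35, m34, m33, m32, m31, m30, m29, m27, m25, m23, m21, m19, m17, m15, m13, m11, m9,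
    m7, m5, m3, m1, w4, w5, w6, w7, w10, w11, w12, w13, w16, w17, w18, w19, w22, w23, w24, w25,
    w28, w29, w30, w31, w34, w35, w123, w126, w129, w132, w135, w138] :=
  next (i := 83) (j := 1) rfl rfl s98 c99

theorem c97 : Valid [m96, m95, m93, m91, m89, m87, m85, m83, m81, m79, m77, m75, m73, m71, m69,
    m67, m65, m63, m61, m59, m57, m55, m53, m51, m49, m47, m45, m43, m42, m41, m39, m38, m37,
    m36, m35, m34, m33, m32, m31, m30, m29, m27, m25, m23, m21, m19, m17, m15, m13, m11, m9, m7,
    m5, m3, m1, w4, w5, w6, w7, w10, w11, w12, w13, w16, w17, w18, w19, w22, w23, w24, w25, w28,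
    w29, w30, w31, w34, w35, w36, w37, w123, w126, w129, w132, w135, w138] →
    Concl 67435722 [m96, m95, m93, m91, m89, m87, m85, m83, m81, m79, m77, m75, m73, m71, m69,
    m67, m65, m63, m61, m59, m57, m55, m53, m51, m49, m47, m45, m43, m42, m41, m39, m38, m37,
    m36, m35, m34, m33, m32, m31, m30, m29, m27, m25, m23, m21, m19, m17, m15, m13, m11, m9, m7,
    m5, m3, m1, w4, w5, w6, w7, w10, w11, w12, w13, w16, w17, w18, w19, w22, w23, w24, w25, w28,
    w29, w30, w31, w34, w35, w36, w37, w123, w126, w129, w132, w135, w138] :=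
  next (i := 77) (j := 77) rfl rfl s97 c98

theorem c96 : Valid [m95, m94, m93, m91, m89, m87, m85, m83, m81, m79, m77, m75, m73, m71, m69,
    m67, m65, m63, m61, m59, m57, m55, m53, m51, m49, m47, m45, m43, m42, m41, m39, m38, m37,
    m36, m35, m34, m33, m32, m31, m30, m29, m28, m27, m25, m23, m21, m19, m17, m15, m13, m11, m9,
    m7, m5, m3, m1, w4, w5, w6, w7, w10, w11, w12, w13, w16, w17, w18, w19, w22, w23, w24, w25,
    w28, w29, w30, w31, w34, w35, w36, w37, w123, w126, w129, w132, w135, w138] →
    Concl 67435722 [m95, m94, m93, m91, m89, m87, m85, m83, m81, m79, m77, m75, m73, m71, m69,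
    m67, m65, m63, m61, m59, m57, m55, m53, m51, m49, m47, m45, m43, m42, m41, m39, m38, m37,
    m36, m35, m34, m33, m32, m31, m30, m29, m28, m27, m25, m23, m21, m19, m17, m15, m13, m11, m9,
    m7, m5, m3, m1, w4, w5, w6, w7, w10, w11, w12, w13, w16, w17, w18, w19, w22, w23, w24, w25,
    w28, w29, w30, w31, w34, w35, w36, w37, w123, w126, w129, w132, w135, w138] :=
  next (i := 41) (j := 1) rfl rfl s96 c97

theorem c95 : Valid [m94, m93, m91, m89, m87, m85, m83, m81, m79, m77, m75, m73, m71, m69, m67,
    m65, m63, m61, m59, m57, m55, m53, m51, m49, m47, m45, m43, m42, m41, m39, m38, m37, m36,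
    m35, m34, m33, m32, m31, m30, m29, m28, m27, m25, m23, m21, m19, m17, m15, m13, m11, m9, m7,
    m5, m3, m1, w4, w5, w6, w7, w10, w11, w12, w13, w16, w17, w18, w19, w22, w23, w24, w25, w28,
    w29, w30, w31, w34, w35, w36, w37, w40, w41, w123, w126, w129, w132, w135, w138] →
    Concl 67435722 [m94, m93, m91, m89, m87, m85, m83, m81, m79, m77, m75, m73, m71, m69, m67,
    m65, m63, m61, m59, m57, m55, m53, m51, m49, m47, m45, m43, m42, m41, m39, m38, m37, m36,
    m35, m34, m33, m32, m31, m30, m29, m28, m27, m25, m23, m21, m19, m17, m15, m13, m11, m9, m7,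
    m5, m3, m1, w4, w5, w6, w7, w10, w11, w12, w13, w16, w17, w18, w19, w22, w23, w24, w25, w28,
    w29, w30, w31, w34, w35, w36, w37, w40, w41, w123, w126, w129, w132, w135, w138] :=
  next (i := 79) (j := 79) rfl rfl s95 c96

theorem c94 : Valid [m93, m92, m91, m89, m87, m85, m83, m81, m79, m77, m75, m73, m71, m69, m67,
    m65, m63, m61, m59, m57, m55, m53, m51, m49, m47, m45, m43, m42, m41, m39, m38, m37, m36,
    m35, m34, m33, m32, m31, m30, m29, m28, m27, m25, m23, m21, m19, m17, m15, m13, m11, m9, m7,
    m5, m3, m1, w4, w5, w6, w7, w10, w11, w12, w13, w16, w17, w18, w19, w22, w23, w24, w25, w28,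
    w29, w30, w31, w34, w35, w36, w37, w40, w41, w123, w126, w129, w132, w135, w138, w141] →
    Concl 67435722 [m93, m92, m91, m89, m87, m85, m83, m81, m79, m77, m75, m73, m71, m69, m67,
    m65, m63, m61, m59, m57, m55, m53, m51, m49, m47, m45, m43, m42, m41, m39, m38, m37, m36,
    m35, m34, m33, m32, m31, m30, m29, m28, m27, m25, m23, m21, m19, m17, m15, m13, m11, m9, m7,
    m5, m3, m1, w4, w5, w6, w7, w10, w11, w12, w13, w16, w17, w18, w19, w22, w23, w24, w25, w28,
    w29, w30, w31, w34, w35, w36, w37, w40, w41, w123, w126, w129, w132, w135, w138, w141] :=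
  next (i := 87) (j := 1) rfl rfl s94 c95

theorem c93 : Valid [m92, m91, m89, m87, m85, m83, m81, m79, m77, m75, m73, m71, m69, m67, m65,
    m63, m61, m59, m57, m55, m53, m51, m49, m47, m45, m43, m42, m41, m39, m38, m37, m36, m35,
    m34, m33, m32, m31, m30, m29, m28, m27, m25, m23, m21, m19, m17, m15, m13, m11, m9, m7, m5,
    m3, m1, w4, w5, w6, w7, w10, w11, w12, w13, w16, w17, w18, w19, w22, w23, w24, w25, w28, w29,
    w30, w31, w34, w35, w36, w37, w40, w41, w42, w43, w123, w126, w129, w132, w135, w138, w141] →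
    Concl 67435722 [m92, m91, m89, m87, m85, m83, m81, m79, m77, m75, m73, m71, m69, m67, m65,
    m63, m61, m59, m57, m55, m53, m51, m49, m47, m45, m43, m42, m41, m39, m38, m37, m36, m35,
    m34, m33, m32, m31, m30, m29, m28, m27, m25, m23, m21, m19, m17, m15, m13, m11, m9, m7, m5,
    m3, m1, w4, w5, w6, w7, w10, w11, w12, w13, w16, w17, w18, w19, w22, w23, w24, w25, w28, w29,
    w30, w31, w34, w35, w36, w37, w40, w41, w42, w43, w123, w126, w129, w132, w135, w138, w141] :=
  next (i := 80) (j := 80) rfl rfl s93 c94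

theorem c92 : Valid [m91, m90, m89, m87, m85, m83, m81, m79, m77, m75, m73, m71, m69, m67, m65,
    m63, m61, m59, m57, m55, m53, m51, m49, m47, m45, m43, m42, m41, m39, m38, m37, m36, m35,
    m34, m33, m32, m31, m30, m29, m28, m27, m26, m25, m23, m21, m19, m17, m15, m13, m11, m9, m7,
    m5, m3, m1, w4, w5, w6, w7, w10, w11, w12, w13, w16, w17, w18, w19, w22, w23, w24, w25, w28,
    w29, w30, w31, w34, w35, w36, w37, w40, w41, w42, w43, w123, w126, w129, w132, w135, w138,
    w141] →
    Concl 67435722 [m91, m90, m89, m87, m85, m83, m81, m79, m77, m75, m73, m71, m69, m67, m65,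
    m63, m61, m59, m57, m55, m53, m51, m49, m47, m45, m43, m42, m41, m39, m38, m37, m36, m35,
    m34, m33, m32, m31, m30, m29, m28, m27, m26, m25, m23, m21, m19, m17, m15, m13, m11, m9, m7,
    m5, m3, m1, w4, w5, w6, w7, w10, w11, w12, w13, w16, w17, w18, w19, w22, w23, w24, w25, w28,
    w29, w30, w31, w34, w35, w36, w37, w40, w41, w42, w43, w123, w126, w129, w132, w135, w138,
    w141] :=
  next (i := 41) (j := 1) rfl rfl s92 c93

theorem c91 : Valid [m90, m89, m87, m85, m83, m81, m79, m77, m75, m73, m71, m69, m67, m65, m63,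
    m61, m59, m57, m55, m53, m51, m49, m47, m45, m43, m42, m41, m39, m38, m37, m36, m35, m34,
    m33, m32, m31, m30, m29, m28, m27, m26, m25, m23, m21, m19, m17, m15, m13, m11, m9, m7, m5,
    m3, m1, w4, w5, w6, w7, w10, w11, w12, w13, w16, w17, w18, w19, w22, w23, w24, w25, w28, w29,
    w30, w31, w34, w35, w36, w37, w40, w41, w42, w43, w46, w47, w123, w126, w129, w132, w135,
    w138, w141] →
    Concl 67435722 [m90, m89, m87, m85, m83, m81, m79, m77, m75, m73, m71, m69, m67, m65, m63,
    m61, m59, m57, m55, m53, m51, m49, m47, m45, m43, m42, m41, m39, m38, m37, m36, m35, m34,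
    m33, m32, m31, m30, m29, m28, m27, m26, m25, m23, m21, m19, m17, m15, m13, m11, m9, m7, m5,
    m3, m1, w4, w5, w6, w7, w10, w11, w12, w13, w16, w17, w18, w19, w22, w23, w24, w25, w28, w29,
    w30, w31, w34, w35, w36, w37, w40, w41, w42, w43, w46, w47, w123, w126, w129, w132, w135,
    w138, w141] :=
  next (i := 82) (j := 82) rfl rfl s91 c92

theorem c90 : Valid [m89, m88, m87, m85, m83, m81, m79, m77, m75, m73, m71, m69, m67, m65, m63,
    m61, m59, m57, m55, m53, m51, m49, m47, m45, m43, m42, m41, m39, m38, m37, m36, m35, m34,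
    m33, m32, m31, m30, m29, m28, m27, m26, m25, m23, m21, m19, m17, m15, m13, m11, m9, m7, m5,
    m3, m1, w4, w5, w6, w7, w10, w11, w12, w13, w16, w17, w18, w19, w22, w23, w24, w25, w28, w29,
    w30, w31, w34, w35, w36, w37, w40, w41, w42, w43, w46, w47, w123, w126, w129, w132, w135,
    w138, w141, w144] →
    Concl 67435722 [m89, m88, m87, m85, m83, m81, m79, m77, m75, m73, m71, m69, m67, m65, m63,
    m61, m59, m57, m55, m53, m51, m49, m47, m45, m43, m42, m41, m39, m38, m37, m36, m35, m34,
    m33, m32, m31, m30, m29, m28, m27, m26, m25, m23, m21, m19, m17, m15, m13, m11, m9, m7, m5,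
    m3, m1, w4, w5, w6, w7, w10, w11, w12, w13, w16, w17, w18, w19, w22, w23, w24, w25, w28, w29,
    w30, w31, w34, w35, w36, w37, w40, w41, w42, w43, w46, w47, w123, w126, w129, w132, w135,
    w138, w141, w144] :=
  next (i := 91) (j := 1) rfl rfl s90 c91

theorem c89 : Valid [m88, m87, m85, m83, m81, m79, m77, m75, m73, m71, m69, m67, m65, m63, m61,
    m59, m57, m55, m53, m51, m49, m47, m45, m43, m42, m41, m39, m38, m37, m36, m35, m34, m33,
    m32, m31, m30, m29, m28, m27, m26, m25, m23, m21, m19, m17, m15, m13, m11, m9, m7, m5, m3,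
    m1, w4, w5, w6, w7, w10, w11, w12, w13, w16, w17, w18, w19, w22, w23, w24, w25, w28, w29,
    w30, w31, w34, w35, w36, w37, w40, w41, w42, w43, w46, w47, w48, w49, w123, w126, w129, w132,
    w135, w138, w141, w144] →
    Concl 67435722 [m88, m87, m85, m83, m81, m79, m77, m75, m73, m71, m69, m67, m65, m63, m61,
    m59, m57, m55, m53, m51, m49, m47, m45, m43, m42, m41, m39, m38, m37, m36, m35, m34, m33,
    m32, m31, m30, m29, m28, m27, m26, m25, m23, m21, m19, m17, m15, m13, m11, m9, m7, m5, m3,
    m1, w4, w5, w6, w7, w10, w11, w12, w13, w16, w17, w18, w19, w22, w23, w24, w25, w28, w29,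
    w30, w31, w34, w35, w36, w37, w40, w41, w42, w43, w46, w47, w48, w49, w123, w126, w129, w132,
    w135, w138, w141, w144] :=
  next (i := 83) (j := 83) rfl rfl s89 c90

theorem c88 : Valid [m87, m86, m85, m83, m81, m79, m77, m75, m73, m71, m69, m67, m65, m63, m61,
    m59, m57, m55, m53, m51, m49, m47, m45, m43, m42, m41, m39, m38, m37, m36, m35, m34, m33,
    m32, m31, m30, m29, m28, m27, m26, m25, m24, m23, m21, m19, m17, m15, m13, m11, m9, m7, m5,
    m3, m1, w4, w5, w6, w7, w10, w11, w12, w13, w16, w17, w18, w19, w22, w23, w24, w25, w28, w29,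
    w30, w31, w34, w35, w36, w37, w40, w41, w42, w43, w46, w47, w48, w49, w123, w126, w129, w132,
    w135, w138, w141, w144] →
    Concl 67435722 [m87, m86, m85, m83, m81, m79, m77, m75, m73, m71, m69, m67, m65, m63, m61,
    m59, m57, m55, m53, m51, m49, m47, m45, m43, m42, m41, m39, m38, m37, m36, m35, m34, m33,
    m32, m31, m30, m29, m28, m27, m26, m25, m24, m23, m21, m19, m17, m15, m13, m11, m9, m7, m5,
    m3, m1, w4, w5, w6, w7, w10, w11, w12, w13, w16, w17, w18, w19, w22, w23, w24, w25, w28, w29,
    w30, w31, w34, w35, w36, w37, w40, w41, w42, w43, w46, w47, w48, w49, w123, w126, w129, w132,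
    w135, w138, w141, w144] :=
  next (i := 41) (j := 1) rfl rfl s88 c89

theorem c87 : Valid [m86, m85, m83, m81, m79, m77, m75, m73, m71, m69, m67, m65, m63, m61, m59,
    m57, m55, m53, m51, m49, m47, m45, m43, m42, m41, m39, m38, m37, m36, m35, m34, m33, m32,
    m31, m30, m29, m28, m27, m26, m25, m24, m23, m21, m19, m17, m15, m13, m11, m9, m7, m5, m3,
    m1, w4, w5, w6, w7, w10, w11, w12, w13, w16, w17, w18, w19, w22, w23, w24, w25, w28, w29,
    w30, w31, w34, w35, w36, w37, w40, w41, w42, w43, w46, w47, w48, w49, w52, w53, w123, w126,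
    w129, w132, w135, w138, w141, w144] →
    Concl 67435722 [m86, m85, m83, m81, m79, m77, m75, m73, m71, m69, m67, m65, m63, m61, m59,
    m57, m55, m53, m51, m49, m47, m45, m43, m42, m41, m39, m38, m37, m36, m35, m34, m33, m32,
    m31, m30, m29, m28, m27, m26, m25, m24, m23, m21, m19, m17, m15, m13, m11, m9, m7, m5, m3,
    m1, w4, w5, w6, w7, w10, w11, w12, w13, w16, w17, w18, w19, w22, w23, w24, w25, w28, w29,
    w30, w31, w34, w35, w36, w37, w40, w41, w42, w43, w46, w47, w48, w49, w52, w53, w123, w126,
    w129, w132, w135, w138, w141, w144] :=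
  next (i := 85) (j := 85) rfl rfl s87 c88

theorem c86 : Valid [m85, m84, m83, m81, m79, m77, m75, m73, m71, m69, m67, m65, m63, m61, m59,
    m57, m55, m53, m51, m49, m47, m45, m43, m42, m41, m39, m38, m37, m36, m35, m34, m33, m32,
    m31, m30, m29, m28, m27, m26, m25, m24, m23, m21, m19, m17, m15, m13, m11, m9, m7, m5, m3,
    m1, w4, w5, w6, w7, w10, w11, w12, w13, w16, w17, w18, w19, w22, w23, w24, w25, w28, w29,
    w30, w31, w34, w35, w36, w37, w40, w41, w42, w43, w46, w47, w48, w49, w52, w53, w123, w126,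
    w129, w132, w135, w138, w141, w144, w147] →
    Concl 67435722 [m85, m84, m83, m81, m79, m77, m75, m73, m71, m69, m67, m65, m63, m61, m59,
    m57, m55, m53, m51, m49, m47, m45, m43, m42, m41, m39, m38, m37, m36, m35, m34, m33, m32,
    m31, m30, m29, m28, m27, m26, m25, m24, m23, m21, m19, m17, m15, m13, m11, m9, m7, m5, m3,
    m1, w4, w5, w6, w7, w10, w11, w12, w13, w16, w17, w18, w19, w22, w23, w24, w25, w28, w29,
    w30, w31, w34, w35, w36, w37, w40, w41, w42, w43, w46, w47, w48, w49, w52, w53, w123, w126,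
    w129, w132, w135, w138, w141, w144, w147] :=
  next (i := 95) (j := 1) rfl rfl s86 c87

theorem c85 : Valid [m84, m83, m81, m79, m77, m75, m73, m71, m69, m67, m65, m63, m61, m59, m57,
    m55, m53, m51, m49, m47, m45, m43, m42, m41, m39, m38, m37, m36, m35, m34, m33, m32, m31,
    m30, m29, m28, m27, m26, m25, m24, m23, m21, m19, m17, m15, m13, m11, m9, m7, m5, m3, m1, w4,
    w5, w6, w7, w10, w11, w12, w13, w16, w17, w18, w19, w22, w23, w24, w25, w28, w29, w30, w31,
    w34, w35, w36, w37, w40, w41, w42, w43, w46, w47, w48, w49, w52, w53, w54, w55, w123, w126,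
    w129, w132, w135, w138, w141, w144, w147] →
    Concl 67435722 [m84, m83, m81, m79, m77, m75, m73, m71, m69, m67, m65, m63, m61, m59, m57,
    m55, m53, m51, m49, m47, m45, m43, m42, m41, m39, m38, m37, m36, m35, m34, m33, m32, m31,
    m30, m29, m28, m27, m26, m25, m24, m23, m21, m19, m17, m15, m13, m11, m9, m7, m5, m3, m1, w4,
    w5, w6, w7, w10, w11, w12, w13, w16, w17, w18, w19, w22, w23, w24, w25, w28, w29, w30, w31,
    w34, w35, w36, w37, w40, w41, w42, w43, w46, w47, w48, w49, w52, w53, w54, w55, w123, w126,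
    w129, w132, w135, w138, w141, w144, w147] :=
  next (i := 86) (j := 86) rfl rfl s85 c86

theorem c84 : Valid [m83, m82, m81, m79, m77, m75, m73, m71, m69, m67, m65, m63, m61, m59, m57,
    m55, m53, m51, m49, m47, m45, m43, m42, m41, m39, m38, m37, m36, m35, m34, m33, m32, m31,
    m30, m29, m28, m27, m26, m25, m24, m23, m22, m21, m19, m17, m15, m13, m11, m9, m7, m5, m3,
    m1, w4, w5, w6, w7, w10, w11, w12, w13, w16, w17, w18, w19, w22, w23, w24, w25, w28, w29,
    w30, w31, w34, w35, w36, w37, w40, w41, w42, w43, w46, w47, w48, w49, w52, w53, w54, w55,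
    w123, w126, w129, w132, w135, w138, w141, w144, w147] →
    Concl 67435722 [m83, m82, m81, m79, m77, m75, m73, m71, m69, m67, m65, m63, m61, m59, m57,
    m55, m53, m51, m49, m47, m45, m43, m42, m41, m39, m38, m37, m36, m35, m34, m33, m32, m31,
    m30, m29, m28, m27, m26, m25, m24, m23, m22, m21, m19, m17, m15, m13, m11, m9, m7, m5, m3,
    m1, w4, w5, w6, w7, w10, w11, w12, w13, w16, w17, w18, w19, w22, w23, w24, w25, w28, w29,
    w30, w31, w34, w35, w36, w37, w40, w41, w42, w43, w46, w47, w48, w49, w52, w53, w54, w55,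
    w123, w126, w129, w132, w135, w138, w141, w144, w147] :=
  next (i := 41) (j := 1) rfl rfl s84 c85

theorem c83 : Valid [m82, m81, m79, m77, m75, m73, m71, m69, m67, m65, m63, m61, m59, m57, m55,
    m53, m51, m49, m47, m45, m43, m42, m41, m39, m38, m37, m36, m35, m34, m33, m32, m31, m30,
    m29, m28, m27, m26, m25, m24, m23, m22, m21, m19, m17, m15, m13, m11, m9, m7, m5, m3, m1, w4,
    w5, w6, w7, w10, w11, w12, w13, w16, w17, w18, w19, w22, w23, w24, w25, w28, w29, w30, w31,
    w34, w35, w36, w37, w40, w41, w42, w43, w46, w47, w48, w49, w52, w53, w54, w55, w58, w59,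
    w123, w126, w129, w132, w135, w138, w141, w144, w147] →
    Concl 67435722 [m82, m81, m79, m77, m75, m73, m71, m69, m67, m65, m63, m61, m59, m57, m55,
    m53, m51, m49, m47, m45, m43, m42, m41, m39, m38, m37, m36, m35, m34, m33, m32, m31, m30,
    m29, m28, m27, m26, m25, m24, m23, m22, m21, m19, m17, m15, m13, m11, m9, m7, m5, m3, m1, w4,
    w5, w6, w7, w10, w11, w12, w13, w16, w17, w18, w19, w22, w23, w24, w25, w28, w29, w30, w31,
    w34, w35, w36, w37, w40, w41, w42, w43, w46, w47, w48, w49, w52, w53, w54, w55, w58, w59,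
    w123, w126, w129, w132, w135, w138, w141, w144, w147] :=
  next (i := 88) (j := 88) rfl rfl s83 c84

theorem c82 : Valid [m81, m80, m79, m77, m75, m73, m71, m69, m67, m65, m63, m61, m59, m57, m55,
    m53, m51, m49, m47, m45, m43, m42, m41, m39, m38, m37, m36, m35, m34, m33, m32, m31, m30,
    m29, m28, m27, m26, m25, m24, m23, m22, m21, m19, m17, m15, m13, m11, m9, m7, m5, m3, m1, w4,
    w5, w6, w7, w10, w11, w12, w13, w16, w17, w18, w19, w22, w23, w24, w25, w28, w29, w30, w31,
    w34, w35, w36, w37, w40, w41, w42, w43, w46, w47, w48, w49, w52, w53, w54, w55, w58, w59,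
    w123, w126, w129, w132, w135, w138, w141, w144, w147, w150] →
    Concl 67435722 [m81, m80, m79, m77, m75, m73, m71, m69, m67, m65, m63, m61, m59, m57, m55,
    m53, m51, m49, m47, m45, m43, m42, m41, m39, m38, m37, m36, m35, m34, m33, m32, m31, m30,
    m29, m28, m27, m26, m25, m24, m23, m22, m21, m19, m17, m15, m13, m11, m9, m7, m5, m3, m1, w4,
    w5, w6, w7, w10, w11, w12, w13, w16, w17, w18, w19, w22, w23, w24, w25, w28, w29, w30, w31,
    w34, w35, w36, w37, w40, w41, w42, w43, w46, w47, w48, w49, w52, w53, w54, w55, w58, w59,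
    w123, w126, w129, w132, w135, w138, w141, w144, w147, w150] :=
  next (i := 99) (j := 1) rfl rfl s82 c83

theorem c81 : Valid [m80, m79, m77, m75, m73, m71, m69, m67, m65, m63, m61, m59, m57, m55, m53,
    m51, m49, m47, m45, m43, m42, m41, m39, m38, m37, m36, m35, m34, m33, m32, m31, m30, m29,
    m28, m27, m26, m25, m24, m23, m22, m21, m19, m17, m15, m13, m11, m9, m7, m5, m3, m1, w4, w5,
    w6, w7, w10, w11, w12, w13, w16, w17, w18, w19, w22, w23, w24, w25, w28, w29, w30, w31, w34,
    w35, w36, w37, w40, w41, w42, w43, w46, w47, w48, w49, w52, w53, w54, w55, w58, w59, w60,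
    w61, w123, w126, w129, w132, w135, w138, w141, w144, w147, w150] →
    Concl 67435722 [m80, m79, m77, m75, m73, m71, m69, m67, m65, m63, m61, m59, m57, m55, m53,
    m51, m49, m47, m45, m43, m42, m41, m39, m38, m37, m36, m35, m34, m33, m32, m31, m30, m29,
    m28, m27, m26, m25, m24, m23, m22, m21, m19, m17, m15, m13, m11, m9, m7, m5, m3, m1, w4, w5,
    w6, w7, w10, w11, w12, w13, w16, w17, w18, w19, w22, w23, w24, w25, w28, w29, w30, w31, w34,
    w35, w36, w37, w40, w41, w42, w43, w46, w47, w48, w49, w52, w53, w54, w55, w58, w59, w60,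
    w61, w123, w126, w129, w132, w135, w138, w141, w144, w147, w150] :=
  next (i := 89) (j := 89) rfl rfl s81 c82

theorem c80 : Valid [m79, m78, m77, m75, m73, m71, m69, m67, m65, m63, m61, m59, m57, m55, m53,
    m51, m49, m47, m45, m43, m42, m41, m39, m38, m37, m36, m35, m34, m33, m32, m31, m30, m29,
    m28, m27, m26, m25, m24, m23, m22, m21, m20, m19, m17, m15, m13, m11, m9, m7, m5, m3, m1, w4,
    w5, w6, w7, w10, w11, w12, w13, w16, w17, w18, w19, w22, w23, w24, w25, w28, w29, w30, w31,
    w34, w35, w36, w37, w40, w41, w42, w43, w46, w47, w48, w49, w52, w53, w54, w55, w58, w59,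
    w60, w61, w123, w126, w129, w132, w135, w138, w141, w144, w147, w150] →
    Concl 67435722 [m79, m78, m77, m75, m73, m71, m69, m67, m65, m63, m61, m59, m57, m55, m53,
    m51, m49, m47, m45, m43, m42, m41, m39, m38, m37, m36, m35, m34, m33, m32, m31, m30, m29,
    m28, m27, m26, m25, m24, m23, m22, m21, m20, m19, m17, m15, m13, m11, m9, m7, m5, m3, m1, w4,
    w5, w6, w7, w10, w11, w12, w13, w16, w17, w18, w19, w22, w23, w24, w25, w28, w29, w30, w31,
    w34, w35, w36, w37, w40, w41, w42, w43, w46, w47, w48, w49, w52, w53, w54, w55, w58, w59,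
    w60, w61, w123, w126, w129, w132, w135, w138, w141, w144, w147, w150] :=
  next (i := 41) (j := 1) rfl rfl s80 c81

theorem c79 : Valid [m78, m77, m75, m73, m71, m69, m67, m65, m63, m61, m59, m57, m55, m53, m51,
    m49, m47, m45, m43, m42, m41, m39, m38, m37, m36, m35, m34, m33, m32, m31, m30, m29, m28,
    m27, m26, m25, m24, m23, m22, m21, m20, m19, m17, m15, m13, m11, m9, m7, m5, m3, m1, w4, w5,
    w6, w7, w10, w11, w12, w13, w16, w17, w18, w19, w22, w23, w24, w25, w28, w29, w30, w31, w34,
    w35, w36, w37, w40, w41, w42, w43, w46, w47, w48, w49, w52, w53, w54, w55, w58, w59, w60,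
    w61, w64, w65, w123, w126, w129, w132, w135, w138, w141, w144, w147, w150] →
    Concl 67435722 [m78, m77, m75, m73, m71, m69, m67, m65, m63, m61, m59, m57, m55, m53, m51,
    m49, m47, m45, m43, m42, m41, m39, m38, m37, m36, m35, m34, m33, m32, m31, m30, m29, m28,
    m27, m26, m25, m24, m23, m22, m21, m20, m19, m17, m15, m13, m11, m9, m7, m5, m3, m1, w4, w5,
    w6, w7, w10, w11, w12, w13, w16, w17, w18, w19, w22, w23, w24, w25, w28, w29, w30, w31, w34,
    w35, w36, w37, w40, w41, w42, w43, w46, w47, w48, w49, w52, w53, w54, w55, w58, w59, w60,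
    w61, w64, w65, w123, w126, w129, w132, w135, w138, w141, w144, w147, w150] :=
  next (i := 91) (j := 91) rfl rfl s79 c80

theorem c78 : Valid [m77, m76, m75, m73, m71, m69, m67, m65, m63, m61, m59, m57, m55, m53, m51,
    m49, m47, m45, m43, m42, m41, m39, m38, m37, m36, m35, m34, m33, m32, m31, m30, m29, m28,
    m27, m26, m25, m24, m23, m22, m21, m20, m19, m17, m15, m13, m11, m9, m7, m5, m3, m1, w4, w5,
    w6, w7, w10, w11, w12, w13, w16, w17, w18, w19, w22, w23, w24, w25, w28, w29, w30, w31, w34,
    w35, w36, w37, w40, w41, w42, w43, w46, w47, w48, w49, w52, w53, w54, w55, w58, w59, w60,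
    w61, w64, w65, w123, w126, w129, w132, w135, w138, w141, w144, w147, w150, w153] →
    Concl 67435722 [m77, m76, m75, m73, m71, m69, m67, m65, m63, m61, m59, m57, m55, m53, m51,
    m49, m47, m45, m43, m42, m41, m39, m38, m37, m36, m35, m34, m33, m32, m31, m30, m29, m28,
    m27, m26, m25, m24, m23, m22, m21, m20, m19, m17, m15, m13, m11, m9, m7, m5, m3, m1, w4, w5,
    w6, w7, w10, w11, w12, w13, w16, w17, w18, w19, w22, w23, w24, w25, w28, w29, w30, w31, w34,
    w35, w36, w37, w40, w41, w42, w43, w46, w47, w48, w49, w52, w53, w54, w55, w58, w59, w60,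
    w61, w64, w65, w123, w126, w129, w132, w135, w138, w141, w144, w147, w150, w153] :=
  next (i := 103) (j := 1) rfl rfl s78 c79

theorem c77 : Valid [m76, m75, m73, m71, m69, m67, m65, m63, m61, m59, m57, m55, m53, m51, m49,
    m47, m45, m43, m42, m41, m39, m38, m37, m36, m35, m34, m33, m32, m31, m30, m29, m28, m27,
    m26, m25, m24, m23, m22, m21, m20, m19, m17, m15, m13, m11, m9, m7, m5, m3, m1, w4, w5, w6,
    w7, w10, w11, w12, w13, w16, w17, w18, w19, w22, w23, w24, w25, w28, w29, w30, w31, w34, w35,
    w36, w37, w40, w41, w42, w43, w46, w47, w48, w49, w52, w53, w54, w55, w58, w59, w60, w61,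
    w64, w65, w66, w67, w123, w126, w129, w132, w135, w138, w141, w144, w147, w150, w153] →
    Concl 67435722 [m76, m75, m73, m71, m69, m67, m65, m63, m61, m59, m57, m55, m53, m51, m49,
    m47, m45, m43, m42, m41, m39, m38, m37, m36, m35, m34, m33, m32, m31, m30, m29, m28, m27,
    m26, m25, m24, m23, m22, m21, m20, m19, m17, m15, m13, m11, m9, m7, m5, m3, m1, w4, w5, w6,
    w7, w10, w11, w12, w13, w16, w17, w18, w19, w22, w23, w24, w25, w28, w29, w30, w31, w34, w35,
    w36, w37, w40, w41, w42, w43, w46, w47, w48, w49, w52, w53, w54, w55, w58, w59, w60, w61,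
    w64, w65, w66, w67, w123, w126, w129, w132, w135, w138, w141, w144, w147, w150, w153] :=
  next (i := 92) (j := 92) rfl rfl s77 c78

theorem c76 : Valid [m75, m74, m73, m71, m69, m67, m65, m63, m61, m59, m57, m55, m53, m51, m49,
    m47, m45, m43, m42, m41, m39, m38, m37, m36, m35, m34, m33, m32, m31, m30, m29, m28, m27,
    m26, m25, m24, m23, m22, m21, m20, m19, m18, m17, m15, m13, m11, m9, m7, m5, m3, m1, w4, w5,
    w6, w7, w10, w11, w12, w13, w16, w17, w18, w19, w22, w23, w24, w25, w28, w29, w30, w31, w34,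
    w35, w36, w37, w40, w41, w42, w43, w46, w47, w48, w49, w52, w53, w54, w55, w58, w59, w60,
    w61, w64, w65, w66, w67, w123, w126, w129, w132, w135, w138, w141, w144, w147, w150, w153] →
    Concl 67435722 [m75, m74, m73, m71, m69, m67, m65, m63, m61, m59, m57, m55, m53, m51, m49,
    m47, m45, m43, m42, m41, m39, m38, m37, m36, m35, m34, m33, m32, m31, m30, m29, m28, m27,
    m26, m25, m24, m23, m22, m21, m20, m19, m18, m17, m15, m13, m11, m9, m7, m5, m3, m1, w4, w5,
    w6, w7, w10, w11, w12, w13, w16, w17, w18, w19, w22, w23, w24, w25, w28, w29, w30, w31, w34,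
    w35, w36, w37, w40, w41, w42, w43, w46, w47, w48, w49, w52, w53, w54, w55, w58, w59, w60,
    w61, w64, w65, w66, w67, w123, w126, w129, w132, w135, w138, w141, w144, w147, w150, w153] :=
  next (i := 41) (j := 1) rfl rfl s76 c77

theorem c75 : Valid [m74, m73, m71, m69, m67, m65, m63, m61, m59, m57, m55, m53, m51, m49, m47,
    m45, m43, m42, m41, m39, m38, m37, m36, m35, m34, m33, m32, m31, m30, m29, m28, m27, m26,
    m25, m24, m23, m22, m21, m20, m19, m18, m17, m15, m13, m11, m9, m7, m5, m3, m1, w4, w5, w6,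
    w7, w10, w11, w12, w13, w16, w17, w18, w19, w22, w23, w24, w25, w28, w29, w30, w31, w34, w35,
    w36, w37, w40, w41, w42, w43, w46, w47, w48, w49, w52, w53, w54, w55, w58, w59, w60, w61,
    w64, w65, w66, w67, w70, w71, w123, w126, w129, w132, w135, w138, w141, w144, w147, w150,
    w153] →
    Concl 67435722 [m74, m73, m71, m69, m67, m65, m63, m61, m59, m57, m55, m53, m51, m49, m47,
    m45, m43, m42, m41, m39, m38, m37, m36, m35, m34, m33, m32, m31, m30, m29, m28, m27, m26,
    m25, m24, m23, m22, m21, m20, m19, m18, m17, m15, m13, m11, m9, m7, m5, m3, m1, w4, w5, w6,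
    w7, w10, w11, w12, w13, w16, w17, w18, w19, w22, w23, w24, w25, w28, w29, w30, w31, w34, w35,
    w36, w37, w40, w41, w42, w43, w46, w47, w48, w49, w52, w53, w54, w55, w58, w59, w60, w61,
    w64, w65, w66, w67, w70, w71, w123, w126, w129, w132, w135, w138, w141, w144, w147, w150,
    w153] :=
  next (i := 94) (j := 94) rfl rfl s75 c76

theorem c74 : Valid [m73, m72, m71, m69, m67, m65, m63, m61, m59, m57, m55, m53, m51, m49, m47,
    m45, m43, m42, m41, m39, m38, m37, m36, m35, m34, m33, m32, m31, m30, m29, m28, m27, m26,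
    m25, m24, m23, m22, m21, m20, m19, m18, m17, m15, m13, m11, m9, m7, m5, m3, m1, w4, w5, w6,
    w7, w10, w11, w12, w13, w16, w17, w18, w19, w22, w23, w24, w25, w28, w29, w30, w31, w34, w35,
    w36, w37, w40, w41, w42, w43, w46, w47, w48, w49, w52, w53, w54, w55, w58, w59, w60, w61,
    w64, w65, w66, w67, w70, w71, w123, w126, w129, w132, w135, w138, w141, w144, w147, w150,
    w153, w156] →
    Concl 67435722 [m73, m72, m71, m69, m67, m65, m63, m61, m59, m57, m55, m53, m51, m49, m47,
    m45, m43, m42, m41, m39, m38, m37, m36, m35, m34, m33, m32, m31, m30, m29, m28, m27, m26,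
    m25, m24, m23, m22, m21, m20, m19, m18, m17, m15, m13, m11, m9, m7, m5, m3, m1, w4, w5, w6,
    w7, w10, w11, w12, w13, w16, w17, w18, w19, w22, w23, w24, w25, w28, w29, w30, w31, w34, w35,
    w36, w37, w40, w41, w42, w43, w46, w47, w48, w49, w52, w53, w54, w55, w58, w59, w60, w61,
    w64, w65, w66, w67, w70, w71, w123, w126, w129, w132, w135, w138, w141, w144, w147, w150,
    w153, w156] :=
  next (i := 107) (j := 1) rfl rfl s74 c75

theorem c73 : Valid [m72, m71, m69, m67, m65, m63, m61, m59, m57, m55, m53, m51, m49, m47, m45,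
    m43, m42, m41, m39, m38, m37, m36, m35, m34, m33, m32, m31, m30, m29, m28, m27, m26, m25,
    m24, m23, m22, m21, m20, m19, m18, m17, m15, m13, m11, m9, m7, m5, m3, m1, w4, w5, w6, w7,
    w10, w11, w12, w13, w16, w17, w18, w19, w22, w23, w24, w25, w28, w29, w30, w31, w34, w35,
    w36, w37, w40, w41, w42, w43, w46, w47, w48, w49, w52, w53, w54, w55, w58, w59, w60, w61,
    w64, w65, w66, w67, w70, w71, w72, w73, w123, w126, w129, w132, w135, w138, w141, w144, w147,
    w150, w153, w156] →
    Concl 67435722 [m72, m71, m69, m67, m65, m63, m61, m59, m57, m55, m53, m51, m49, m47, m45,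
    m43, m42, m41, m39, m38, m37, m36, m35, m34, m33, m32, m31, m30, m29, m28, m27, m26, m25,
    m24, m23, m22, m21, m20, m19, m18, m17, m15, m13, m11, m9, m7, m5, m3, m1, w4, w5, w6, w7,
    w10, w11, w12, w13, w16, w17, w18, w19, w22, w23, w24, w25, w28, w29, w30, w31, w34, w35,
    w36, w37, w40, w41, w42, w43, w46, w47, w48, w49, w52, w53, w54, w55, w58, w59, w60, w61,
    w64, w65, w66, w67, w70, w71, w72, w73, w123, w126, w129, w132, w135, w138, w141, w144, w147,
    w150, w153, w156] :=
  next (i := 95) (j := 95) rfl rfl s73 c74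

theorem c72 : Valid [m71, m70, m69, m67, m65, m63, m61, m59, m57, m55, m53, m51, m49, m47, m45,
    m43, m42, m41, m39, m38, m37, m36, m35, m34, m33, m32, m31, m30, m29, m28, m27, m26, m25,
    m24, m23, m22, m21, m20, m19, m18, m17, m16, m15, m13, m11, m9, m7, m5, m3, m1, w4, w5, w6,
    w7, w10, w11, w12, w13, w16, w17, w18, w19, w22, w23, w24, w25, w28, w29, w30, w31, w34, w35,
    w36, w37, w40, w41, w42, w43, w46, w47, w48, w49, w52, w53, w54, w55, w58, w59, w60, w61,
    w64, w65, w66, w67, w70, w71, w72, w73, w123, w126, w129, w132, w135, w138, w141, w144, w147,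
    w150, w153, w156] →
    Concl 67435722 [m71, m70, m69, m67, m65, m63, m61, m59, m57, m55, m53, m51, m49, m47, m45,
    m43, m42, m41, m39, m38, m37, m36, m35, m34, m33, m32, m31, m30, m29, m28, m27, m26, m25,
    m24, m23, m22, m21, m20, m19, m18, m17, m16, m15, m13, m11, m9, m7, m5, m3, m1, w4, w5, w6,
    w7, w10, w11, w12, w13, w16, w17, w18, w19, w22, w23, w24, w25, w28, w29, w30, w31, w34, w35,
    w36, w37, w40, w41, w42, w43, w46, w47, w48, w49, w52, w53, w54, w55, w58, w59, w60, w61,
    w64, w65, w66, w67, w70, w71, w72, w73, w123, w126, w129, w132, w135, w138, w141, w144, w147,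
    w150, w153, w156] :=
  next (i := 41) (j := 1) rfl rfl s72 c73

theorem c71 : Valid [m70, m69, m67, m65, m63, m61, m59, m57, m55, m53, m51, m49, m47, m45, m43,
    m42, m41, m39, m38, m37, m36, m35, m34, m33, m32, m31, m30, m29, m28, m27, m26, m25, m24,
    m23, m22, m21, m20, m19, m18, m17, m16, m15, m13, m11, m9, m7, m5, m3, m1, w4, w5, w6, w7,
    w10, w11, w12, w13, w16, w17, w18, w19, w22, w23, w24, w25, w28, w29, w30, w31, w34, w35,
    w36, w37, w40, w41, w42, w43, w46, w47, w48, w49, w52, w53, w54, w55, w58, w59, w60, w61,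
    w64, w65, w66, w67, w70, w71, w72, w73, w76, w77, w123, w126, w129, w132, w135, w138, w141,
    w144, w147, w150, w153, w156] →
    Concl 67435722 [m70, m69, m67, m65, m63, m61, m59, m57, m55, m53, m51, m49, m47, m45, m43,
    m42, m41, m39, m38, m37, m36, m35, m34, m33, m32, m31, m30, m29, m28, m27, m26, m25, m24,
    m23, m22, m21, m20, m19, m18, m17, m16, m15, m13, m11, m9, m7, m5, m3, m1, w4, w5, w6, w7,
    w10, w11, w12, w13, w16, w17, w18, w19, w22, w23, w24, w25, w28, w29, w30, w31, w34, w35,
    w36, w37, w40, w41, w42, w43, w46, w47, w48, w49, w52, w53, w54, w55, w58, w59, w60, w61,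
    w64, w65, w66, w67, w70, w71, w72, w73, w76, w77, w123, w126, w129, w132, w135, w138, w141,
    w144, w147, w150, w153, w156] :=
  next (i := 97) (j := 97) rfl rfl s71 c72

theorem c70 : Valid [m69, m68, m67, m65, m63, m61, m59, m57, m55, m53, m51, m49, m47, m45, m43,
    m42, m41, m39, m38, m37, m36, m35, m34, m33, m32, m31, m30, m29, m28, m27, m26, m25, m24,
    m23, m22, m21, m20, m19, m18, m17, m16, m15, m13, m11, m9, m7, m5, m3, m1, w4, w5, w6, w7,
    w10, w11, w12, w13, w16, w17, w18, w19, w22, w23, w24, w25, w28, w29, w30, w31, w34, w35,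
    w36, w37, w40, w41, w42, w43, w46, w47, w48, w49, w52, w53, w54, w55, w58, w59, w60, w61,
    w64, w65, w66, w67, w70, w71, w72, w73, w76, w77, w123, w126, w129, w132, w135, w138, w141,
    w144, w147, w150, w153, w156, w159] →
    Concl 67435722 [m69, m68, m67, m65, m63, m61, m59, m57, m55, m53, m51, m49, m47, m45, m43,
    m42, m41, m39, m38, m37, m36, m35, m34, m33, m32, m31, m30, m29, m28, m27, m26, m25, m24,
    m23, m22, m21, m20, m19, m18, m17, m16, m15, m13, m11, m9, m7, m5, m3, m1, w4, w5, w6, w7,
    w10, w11, w12, w13, w16, w17, w18, w19, w22, w23, w24, w25, w28, w29, w30, w31, w34, w35,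
    w36, w37, w40, w41, w42, w43, w46, w47, w48, w49, w52, w53, w54, w55, w58, w59, w60, w61,
    w64, w65, w66, w67, w70, w71, w72, w73, w76, w77, w123, w126, w129, w132, w135, w138, w141,
    w144, w147, w150, w153, w156, w159] :=
  next (i := 111) (j := 1) rfl rfl s70 c71

theorem c69 : Valid [m68, m67, m65, m63, m61, m59, m57, m55, m53, m51, m49, m47, m45, m43, m42,
    m41, m39, m38, m37, m36, m35, m34, m33, m32, m31, m30, m29, m28, m27, m26, m25, m24, m23,
    m22, m21, m20, m19, m18, m17, m16, m15, m13, m11, m9, m7, m5, m3, m1, w4, w5, w6, w7, w10,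
    w11, w12, w13, w16, w17, w18, w19, w22, w23, w24, w25, w28, w29, w30, w31, w34, w35, w36,
    w37, w40, w41, w42, w43, w46, w47, w48, w49, w52, w53, w54, w55, w58, w59, w60, w61, w64,
    w65, w66, w67, w70, w71, w72, w73, w76, w77, w78, w79, w123, w126, w129, w132, w135, w138,
    w141, w144, w147, w150, w153, w156, w159] →
    Concl 67435722 [m68, m67, m65, m63, m61, m59, m57, m55, m53, m51, m49, m47, m45, m43, m42,
    m41, m39, m38, m37, m36, m35, m34, m33, m32, m31, m30, m29, m28, m27, m26, m25, m24, m23,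
    m22, m21, m20, m19, m18, m17, m16, m15, m13, m11, m9, m7, m5, m3, m1, w4, w5, w6, w7, w10,
    w11, w12, w13, w16, w17, w18, w19, w22, w23, w24, w25, w28, w29, w30, w31, w34, w35, w36,
    w37, w40, w41, w42, w43, w46, w47, w48, w49, w52, w53, w54, w55, w58, w59, w60, w61, w64,
    w65, w66, w67, w70, w71, w72, w73, w76, w77, w78, w79, w123, w126, w129, w132, w135, w138,
    w141, w144, w147, w150, w153, w156, w159] :=
  next (i := 98) (j := 98) rfl rfl s69 c70

theorem c68 : Valid [m67, m66, m65, m63, m61, m59, m57, m55, m53, m51, m49, m47, m45, m43, m42,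
    m41, m39, m38, m37, m36, m35, m34, m33, m32, m31, m30, m29, m28, m27, m26, m25, m24, m23,
    m22, m21, m20, m19, m18, m17, m16, m15, m14, m13, m11, m9, m7, m5, m3, m1, w4, w5, w6, w7,
    w10, w11, w12, w13, w16, w17, w18, w19, w22, w23, w24, w25, w28, w29, w30, w31, w34, w35,
    w36, w37, w40, w41, w42, w43, w46, w47, w48, w49, w52, w53, w54, w55, w58, w59, w60, w61,
    w64, w65, w66, w67, w70, w71, w72, w73, w76, w77, w78, w79, w123, w126, w129, w132, w135,
    w138, w141, w144, w147, w150, w153, w156, w159] →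
    Concl 67435722 [m67, m66, m65, m63, m61, m59, m57, m55, m53, m51, m49, m47, m45, m43, m42,
    m41, m39, m38, m37, m36, m35, m34, m33, m32, m31, m30, m29, m28, m27, m26, m25, m24, m23,
    m22, m21, m20, m19, m18, m17, m16, m15, m14, m13, m11, m9, m7, m5, m3, m1, w4, w5, w6, w7,
    w10, w11, w12, w13, w16, w17, w18, w19, w22, w23, w24, w25, w28, w29, w30, w31, w34, w35,
    w36, w37, w40, w41, w42, w43, w46, w47, w48, w49, w52, w53, w54, w55, w58, w59, w60, w61,
    w64, w65, w66, w67, w70, w71, w72, w73, w76, w77, w78, w79, w123, w126, w129, w132, w135,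
    w138, w141, w144, w147, w150, w153, w156, w159] :=
  next (i := 41) (j := 1) rfl rfl s68 c69

theorem c67 : Valid [m66, m65, m63, m61, m59, m57, m55, m53, m51, m49, m47, m45, m43, m42, m41,
    m39, m38, m37, m36, m35, m34, m33, m32, m31, m30, m29, m28, m27, m26, m25, m24, m23, m22,
    m21, m20, m19, m18, m17, m16, m15, m14, m13, m11, m9, m7, m5, m3, m1, w4, w5, w6, w7, w10,
    w11, w12, w13, w16, w17, w18, w19, w22, w23, w24, w25, w28, w29, w30, w31, w34, w35, w36,
    w37, w40, w41, w42, w43, w46, w47, w48, w49, w52, w53, w54, w55, w58, w59, w60, w61, w64,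
    w65, w66, w67, w70, w71, w72, w73, w76, w77, w78, w79, w82, w83, w123, w126, w129, w132,
    w135, w138, w141, w144, w147, w150, w153, w156, w159] →
    Concl 67435722 [m66, m65, m63, m61, m59, m57, m55, m53, m51, m49, m47, m45, m43, m42, m41,
    m39, m38, m37, m36, m35, m34, m33, m32, m31, m30, m29, m28, m27, m26, m25, m24, m23, m22,
    m21, m20, m19, m18, m17, m16, m15, m14, m13, m11, m9, m7, m5, m3, m1, w4, w5, w6, w7, w10,
    w11, w12, w13, w16, w17, w18, w19, w22, w23, w24, w25, w28, w29, w30, w31, w34, w35, w36,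
    w37, w40, w41, w42, w43, w46, w47, w48, w49, w52, w53, w54, w55, w58, w59, w60, w61, w64,
    w65, w66, w67, w70, w71, w72, w73, w76, w77, w78, w79, w82, w83, w123, w126, w129, w132,
    w135, w138, w141, w144, w147, w150, w153, w156, w159] :=
  next (i := 100) (j := 100) rfl rfl s67 c68

theorem c66 : Valid [m65, m64, m63, m61, m59, m57, m55, m53, m51, m49, m47, m45, m43, m42, m41,
    m39, m38, m37, m36, m35, m34, m33, m32, m31, m30, m29, m28, m27, m26, m25, m24, m23, m22,
    m21, m20, m19, m18, m17, m16, m15, m14, m13, m11, m9, m7, m5, m3, m1, w4, w5, w6, w7, w10,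
    w11, w12, w13, w16, w17, w18, w19, w22, w23, w24, w25, w28, w29, w30, w31, w34, w35, w36,
    w37, w40, w41, w42, w43, w46, w47, w48, w49, w52, w53, w54, w55, w58, w59, w60, w61, w64,
    w65, w66, w67, w70, w71, w72, w73, w76, w77, w78, w79, w82, w83, w123, w126, w129, w132,
    w135, w138, w141, w144, w147, w150, w153, w156, w159, w162] →
    Concl 67435722 [m65, m64, m63, m61, m59, m57, m55, m53, m51, m49, m47, m45, m43, m42, m41,
    m39, m38, m37, m36, m35, m34, m33, m32, m31, m30, m29, m28, m27, m26, m25, m24, m23, m22,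
    m21, m20, m19, m18, m17, m16, m15, m14, m13, m11, m9, m7, m5, m3, m1, w4, w5, w6, w7, w10,
    w11, w12, w13, w16, w17, w18, w19, w22, w23, w24, w25, w28, w29, w30, w31, w34, w35, w36,
    w37, w40, w41, w42, w43, w46, w47, w48, w49, w52, w53, w54, w55, w58, w59, w60, w61, w64,
    w65, w66, w67, w70, w71, w72, w73, w76, w77, w78, w79, w82, w83, w123, w126, w129, w132,
    w135, w138, w141, w144, w147, w150, w153, w156, w159, w162] :=
  next (i := 115) (j := 1) rfl rfl s66 c67

theorem c65 : Valid [m64, m63, m61, m59, m57, m55, m53, m51, m49, m47, m45, m43, m42, m41, m39,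
    m38, m37, m36, m35, m34, m33, m32, m31, m30, m29, m28, m27, m26, m25, m24, m23, m22, m21,
    m20, m19, m18, m17, m16, m15, m14, m13, m11, m9, m7, m5, m3, m1, w4, w5, w6, w7, w10, w11,
    w12, w13, w16, w17, w18, w19, w22, w23, w24, w25, w28, w29, w30, w31, w34, w35, w36, w37,
    w40, w41, w42, w43, w46, w47, w48, w49, w52, w53, w54, w55, w58, w59, w60, w61, w64, w65,
    w66, w67, w70, w71, w72, w73, w76, w77, w78, w79, w82, w83, w84, w85, w123, w126, w129, w132,
    w135, w138, w141, w144, w147, w150, w153, w156, w159, w162] →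
    Concl 67435722 [m64, m63, m61, m59, m57, m55, m53, m51, m49, m47, m45, m43, m42, m41, m39,
    m38, m37, m36, m35, m34, m33, m32, m31, m30, m29, m28, m27, m26, m25, m24, m23, m22, m21,
    m20, m19, m18, m17, m16, m15, m14, m13, m11, m9, m7, m5, m3, m1, w4, w5, w6, w7, w10, w11,
    w12, w13, w16, w17, w18, w19, w22, w23, w24, w25, w28, w29, w30, w31, w34, w35, w36, w37,
    w40, w41, w42, w43, w46, w47, w48, w49, w52, w53, w54, w55, w58, w59, w60, w61, w64, w65,
    w66, w67, w70, w71, w72, w73, w76, w77, w78, w79, w82, w83, w84, w85, w123, w126, w129, w132,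
    w135, w138, w141, w144, w147, w150, w153, w156, w159, w162] :=
  next (i := 101) (j := 101) rfl rfl s65 c66

theorem c64 : Valid [m63, m62, m61, m59, m57, m55, m53, m51, m49, m47, m45, m43, m42, m41, m39,
    m38, m37, m36, m35, m34, m33, m32, m31, m30, m29, m28, m27, m26, m25, m24, m23, m22, m21,
    m20, m19, m18, m17, m16, m15, m14, m13, m12, m11, m9, m7, m5, m3, m1, w4, w5, w6, w7, w10,
    w11, w12, w13, w16, w17, w18, w19, w22, w23, w24, w25, w28, w29, w30, w31, w34, w35, w36,
    w37, w40, w41, w42, w43, w46, w47, w48, w49, w52, w53, w54, w55, w58, w59, w60, w61, w64,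
    w65, w66, w67, w70, w71, w72, w73, w76, w77, w78, w79, w82, w83, w84, w85, w123, w126, w129,
    w132, w135, w138, w141, w144, w147, w150, w153, w156, w159, w162] →
    Concl 67435722 [m63, m62, m61, m59, m57, m55, m53, m51, m49, m47, m45, m43, m42, m41, m39,
    m38, m37, m36, m35, m34, m33, m32, m31, m30, m29, m28, m27, m26, m25, m24, m23, m22, m21,
    m20, m19, m18, m17, m16, m15, m14, m13, m12, m11, m9, m7, m5, m3, m1, w4, w5, w6, w7, w10,
    w11, w12, w13, w16, w17, w18, w19, w22, w23, w24, w25, w28, w29, w30, w31, w34, w35, w36,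
    w37, w40, w41, w42, w43, w46, w47, w48, w49, w52, w53, w54, w55, w58, w59, w60, w61, w64,
    w65, w66, w67, w70, w71, w72, w73, w76, w77, w78, w79, w82, w83, w84, w85, w123, w126, w129,
    w132, w135, w138, w141, w144, w147, w150, w153, w156, w159, w162] :=
  next (i := 41) (j := 1) rfl rfl s64 c65

theorem c63 : Valid [m62, m61, m59, m57, m55, m53, m51, m49, m47, m45, m43, m42, m41, m39, m38,
    m37, m36, m35, m34, m33, m32, m31, m30, m29, m28, m27, m26, m25, m24, m23, m22, m21, m20,
    m19, m18, m17, m16, m15, m14, m13, m12, m11, m9, m7, m5, m3, m1, w4, w5, w6, w7, w10, w11,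
    w12, w13, w16, w17, w18, w19, w22, w23, w24, w25, w28, w29, w30, w31, w34, w35, w36, w37,
    w40, w41, w42, w43, w46, w47, w48, w49, w52, w53, w54, w55, w58, w59, w60, w61, w64, w65,
    w66, w67, w70, w71, w72, w73, w76, w77, w78, w79, w82, w83, w84, w85, w88, w89, w123, w126,
    w129, w132, w135, w138, w141, w144, w147, w150, w153, w156, w159, w162] →
    Concl 67435722 [m62, m61, m59, m57, m55, m53, m51, m49, m47, m45, m43, m42, m41, m39, m38,
    m37, m36, m35, m34, m33, m32, m31, m30, m29, m28, m27, m26, m25, m24, m23, m22, m21, m20,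
    m19, m18, m17, m16, m15, m14, m13, m12, m11, m9, m7, m5, m3, m1, w4, w5, w6, w7, w10, w11,
    w12, w13, w16, w17, w18, w19, w22, w23, w24, w25, w28, w29, w30, w31, w34, w35, w36, w37,
    w40, w41, w42, w43, w46, w47, w48, w49, w52, w53, w54, w55, w58, w59, w60, w61, w64, w65,
    w66, w67, w70, w71, w72, w73, w76, w77, w78, w79, w82, w83, w84, w85, w88, w89, w123, w126,
    w129, w132, w135, w138, w141, w144, w147, w150, w153, w156, w159, w162] :=
  next (i := 103) (j := 103) rfl rfl s63 c64

theorem c62 : Valid [m61, m60, m59, m57, m55, m53, m51, m49, m47, m45, m43, m42, m41, m39, m38,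
    m37, m36, m35, m34, m33, m32, m31, m30, m29, m28, m27, m26, m25, m24, m23, m22, m21, m20,
    m19, m18, m17, m16, m15, m14, m13, m12, m11, m9, m7, m5, m3, m1, w4, w5, w6, w7, w10, w11,
    w12, w13, w16, w17, w18, w19, w22, w23, w24, w25, w28, w29, w30, w31, w34, w35, w36, w37,
    w40, w41, w42, w43, w46, w47, w48, w49, w52, w53, w54, w55, w58, w59, w60, w61, w64, w65,
    w66, w67, w70, w71, w72, w73, w76, w77, w78, w79, w82, w83, w84, w85, w88, w89, w123, w126,
    w129, w132, w135, w138, w141, w144, w147, w150, w153, w156, w159, w162, w165] →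
    Concl 67435722 [m61, m60, m59, m57, m55, m53, m51, m49, m47, m45, m43, m42, m41, m39, m38,
    m37, m36, m35, m34, m33, m32, m31, m30, m29, m28, m27, m26, m25, m24, m23, m22, m21, m20,
    m19, m18, m17, m16, m15, m14, m13, m12, m11, m9, m7, m5, m3, m1, w4, w5, w6, w7, w10, w11,
    w12, w13, w16, w17, w18, w19, w22, w23, w24, w25, w28, w29, w30, w31, w34, w35, w36, w37,
    w40, w41, w42, w43, w46, w47, w48, w49, w52, w53, w54, w55, w58, w59, w60, w61, w64, w65,
    w66, w67, w70, w71, w72, w73, w76, w77, w78, w79, w82, w83, w84, w85, w88, w89, w123, w126,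
    w129, w132, w135, w138, w141, w144, w147, w150, w153, w156, w159, w162, w165] :=
  next (i := 119) (j := 1) rfl rfl s62 c63

theorem c61 : Valid [m60, m59, m57, m55, m53, m51, m49, m47, m45, m43, m42, m41, m39, m38, m37,
    m36, m35, m34, m33, m32, m31, m30, m29, m28, m27, m26, m25, m24, m23, m22, m21, m20, m19,
    m18, m17, m16, m15, m14, m13, m12, m11, m9, m7, m5, m3, m1, w4, w5, w6, w7, w10, w11, w12,
    w13, w16, w17, w18, w19, w22, w23, w24, w25, w28, w29, w30, w31, w34, w35, w36, w37, w40,
    w41, w42, w43, w46, w47, w48, w49, w52, w53, w54, w55, w58, w59, w60, w61, w64, w65, w66,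
    w67, w70, w71, w72, w73, w76, w77, w78, w79, w82, w83, w84, w85, w88, w89, w90, w91, w123,
    w126, w129, w132, w135, w138, w141, w144, w147, w150, w153, w156, w159, w162, w165] →
    Concl 67435722 [m60, m59, m57, m55, m53, m51, m49, m47, m45, m43, m42, m41, m39, m38, m37,
    m36, m35, m34, m33, m32, m31, m30, m29, m28, m27, m26, m25, m24, m23, m22, m21, m20, m19,
    m18, m17, m16, m15, m14, m13, m12, m11, m9, m7, m5, m3, m1, w4, w5, w6, w7, w10, w11, w12,
    w13, w16, w17, w18, w19, w22, w23, w24, w25, w28, w29, w30, w31, w34, w35, w36, w37, w40,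
    w41, w42, w43, w46, w47, w48, w49, w52, w53, w54, w55, w58, w59, w60, w61, w64, w65, w66,
    w67, w70, w71, w72, w73, w76, w77, w78, w79, w82, w83, w84, w85, w88, w89, w90, w91, w123,
    w126, w129, w132, w135, w138, w141, w144, w147, w150, w153, w156, w159, w162, w165] :=
  next (i := 104) (j := 104) rfl rfl s61 c62

theorem c60 : Valid [m59, m58, m57, m55, m53, m51, m49, m47, m45, m43, m42, m41, m39, m38, m37,
    m36, m35, m34, m33, m32, m31, m30, m29, m28, m27, m26, m25, m24, m23, m22, m21, m20, m19,
    m18, m17, m16, m15, m14, m13, m12, m11, m10, m9, m7, m5, m3, m1, w4, w5, w6, w7, w10, w11,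
    w12, w13, w16, w17, w18, w19, w22, w23, w24, w25, w28, w29, w30, w31, w34, w35, w36, w37,
    w40, w41, w42, w43, w46, w47, w48, w49, w52, w53, w54, w55, w58, w59, w60, w61, w64, w65,
    w66, w67, w70, w71, w72, w73, w76, w77, w78, w79, w82, w83, w84, w85, w88, w89, w90, w91,
    w123, w126, w129, w132, w135, w138, w141, w144, w147, w150, w153, w156, w159, w162, w165] →
    Concl 67435722 [m59, m58, m57, m55, m53, m51, m49, m47, m45, m43, m42, m41, m39, m38, m37,
    m36, m35, m34, m33, m32, m31, m30, m29, m28, m27, m26, m25, m24, m23, m22, m21, m20, m19,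
    m18, m17, m16, m15, m14, m13, m12, m11, m10, m9, m7, m5, m3, m1, w4, w5, w6, w7, w10, w11,
    w12, w13, w16, w17, w18, w19, w22, w23, w24, w25, w28, w29, w30, w31, w34, w35, w36, w37,
    w40, w41, w42, w43, w46, w47, w48, w49, w52, w53, w54, w55, w58, w59, w60, w61, w64, w65,
    w66, w67, w70, w71, w72, w73, w76, w77, w78, w79, w82, w83, w84, w85, w88, w89, w90, w91,
    w123, w126, w129, w132, w135, w138, w141, w144, w147, w150, w153, w156, w159, w162, w165] :=
  next (i := 41) (j := 1) rfl rfl s60 c61

theorem c59 : Valid [m58, m57, m55, m53, m51, m49, m47, m45, m43, m42, m41, m39, m38, m37, m36,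
    m35, m34, m33, m32, m31, m30, m29, m28, m27, m26, m25, m24, m23, m22, m21, m20, m19, m18,
    m17, m16, m15, m14, m13, m12, m11, m10, m9, m7, m5, m3, m1, w4, w5, w6, w7, w10, w11, w12,
    w13, w16, w17, w18, w19, w22, w23, w24, w25, w28, w29, w30, w31, w34, w35, w36, w37, w40,
    w41, w42, w43, w46, w47, w48, w49, w52, w53, w54, w55, w58, w59, w60, w61, w64, w65, w66,
    w67, w70, w71, w72, w73, w76, w77, w78, w79, w82, w83, w84, w85, w88, w89, w90, w91, w94,
    w95, w123, w126, w129, w132, w135, w138, w141, w144, w147, w150, w153, w156, w159, w162,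
    w165] →
    Concl 67435722 [m58, m57, m55, m53, m51, m49, m47, m45, m43, m42, m41, m39, m38, m37, m36,
    m35, m34, m33, m32, m31, m30, m29, m28, m27, m26, m25, m24, m23, m22, m21, m20, m19, m18,
    m17, m16, m15, m14, m13, m12, m11, m10, m9, m7, m5, m3, m1, w4, w5, w6, w7, w10, w11, w12,
    w13, w16, w17, w18, w19, w22, w23, w24, w25, w28, w29, w30, w31, w34, w35, w36, w37, w40,
    w41, w42, w43, w46, w47, w48, w49, w52, w53, w54, w55, w58, w59, w60, w61, w64, w65, w66,
    w67, w70, w71, w72, w73, w76, w77, w78, w79, w82, w83, w84, w85, w88, w89, w90, w91, w94,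
    w95, w123, w126, w129, w132, w135, w138, w141, w144, w147, w150, w153, w156, w159, w162,
    w165] :=
  next (i := 106) (j := 106) rfl rfl s59 c60

theorem c58 : Valid [m57, m56, m55, m53, m51, m49, m47, m45, m43, m42, m41, m39, m38, m37, m36,
    m35, m34, m33, m32, m31, m30, m29, m28, m27, m26, m25, m24, m23, m22, m21, m20, m19, m18,
    m17, m16, m15, m14, m13, m12, m11, m10, m9, m7, m5, m3, m1, w4, w5, w6, w7, w10, w11, w12,
    w13, w16, w17, w18, w19, w22, w23, w24, w25, w28, w29, w30, w31, w34, w35, w36, w37, w40,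
    w41, w42, w43, w46, w47, w48, w49, w52, w53, w54, w55, w58, w59, w60, w61, w64, w65, w66,
    w67, w70, w71, w72, w73, w76, w77, w78, w79, w82, w83, w84, w85, w88, w89, w90, w91, w94,
    w95, w123, w126, w129, w132, w135, w138, w141, w144, w147, w150, w153, w156, w159, w162,
    w165, w168] →
    Concl 67435722 [m57, m56, m55, m53, m51, m49, m47, m45, m43, m42, m41, m39, m38, m37, m36,
    m35, m34, m33, m32, m31, m30, m29, m28, m27, m26, m25, m24, m23, m22, m21, m20, m19, m18,
    m17, m16, m15, m14, m13, m12, m11, m10, m9, m7, m5, m3, m1, w4, w5, w6, w7, w10, w11, w12,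
    w13, w16, w17, w18, w19, w22, w23, w24, w25, w28, w29, w30, w31, w34, w35, w36, w37, w40,
    w41, w42, w43, w46, w47, w48, w49, w52, w53, w54, w55, w58, w59, w60, w61, w64, w65, w66,
    w67, w70, w71, w72, w73, w76, w77, w78, w79, w82, w83, w84, w85, w88, w89, w90, w91, w94,
    w95, w123, w126, w129, w132, w135, w138, w141, w144, w147, w150, w153, w156, w159, w162,
    w165, w168] :=
  next (i := 123) (j := 1) rfl rfl s58 c59

theorem c57 : Valid [m56, m55, m53, m51, m49, m47, m45, m43, m42, m41, m39, m38, m37, m36, m35,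
    m34, m33, m32, m31, m30, m29, m28, m27, m26, m25, m24, m23, m22, m21, m20, m19, m18, m17,
    m16, m15, m14, m13, m12, m11, m10, m9, m7, m5, m3, m1, w4, w5, w6, w7, w10, w11, w12, w13,
    w16, w17, w18, w19, w22, w23, w24, w25, w28, w29, w30, w31, w34, w35, w36, w37, w40, w41,
    w42, w43, w46, w47, w48, w49, w52, w53, w54, w55, w58, w59, w60, w61, w64, w65, w66, w67,
    w70, w71, w72, w73, w76, w77, w78, w79, w82, w83, w84, w85, w88, w89, w90, w91, w94, w95,
    w96, w97, w123, w126, w129, w132, w135, w138, w141, w144, w147, w150, w153, w156, w159, w162,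
    w165, w168] →
    Concl 67435722 [m56, m55, m53, m51, m49, m47, m45, m43, m42, m41, m39, m38, m37, m36, m35,
    m34, m33, m32, m31, m30, m29, m28, m27, m26, m25, m24, m23, m22, m21, m20, m19, m18, m17,
    m16, m15, m14, m13, m12, m11, m10, m9, m7, m5, m3, m1, w4, w5, w6, w7, w10, w11, w12, w13,
    w16, w17, w18, w19, w22, w23, w24, w25, w28, w29, w30, w31, w34, w35, w36, w37, w40, w41,
    w42, w43, w46, w47, w48, w49, w52, w53, w54, w55, w58, w59, w60, w61, w64, w65, w66, w67,
    w70, w71, w72, w73, w76, w77, w78, w79, w82, w83, w84, w85, w88, w89, w90, w91, w94, w95,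
    w96, w97, w123, w126, w129, w132, w135, w138, w141, w144, w147, w150, w153, w156, w159, w162,
    w165, w168] :=
  next (i := 107) (j := 107) rfl rfl s57 c58

theorem c56 : Valid [m55, m54, m53, m51, m49, m47, m45, m43, m42, m41, m39, m38, m37, m36, m35,
    m34, m33, m32, m31, m30, m29, m28, m27, m26, m25, m24, m23, m22, m21, m20, m19, m18, m17,
    m16, m15, m14, m13, m12, m11, m10, m9, m8, m7, m5, m3, m1, w4, w5, w6, w7, w10, w11, w12,
    w13, w16, w17, w18, w19, w22, w23, w24, w25, w28, w29, w30, w31, w34, w35, w36, w37, w40,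
    w41, w42, w43, w46, w47, w48, w49, w52, w53, w54, w55, w58, w59, w60, w61, w64, w65, w66,
    w67, w70, w71, w72, w73, w76, w77, w78, w79, w82, w83, w84, w85, w88, w89, w90, w91, w94,
    w95, w96, w97, w123, w126, w129, w132, w135, w138, w141, w144, w147, w150, w153, w156, w159,
    w162, w165, w168] →
    Concl 67435722 [m55, m54, m53, m51, m49, m47, m45, m43, m42, m41, m39, m38, m37, m36, m35,
    m34, m33, m32, m31, m30, m29, m28, m27, m26, m25, m24, m23, m22, m21, m20, m19, m18, m17,
    m16, m15, m14, m13, m12, m11, m10, m9, m8, m7, m5, m3, m1, w4, w5, w6, w7, w10, w11, w12,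
    w13, w16, w17, w18, w19, w22, w23, w24, w25, w28, w29, w30, w31, w34, w35, w36, w37, w40,
    w41, w42, w43, w46, w47, w48, w49, w52, w53, w54, w55, w58, w59, w60, w61, w64, w65, w66,
    w67, w70, w71, w72, w73, w76, w77, w78, w79, w82, w83, w84, w85, w88, w89, w90, w91, w94,
    w95, w96, w97, w123, w126, w129, w132, w135, w138, w141, w144, w147, w150, w153, w156, w159,
    w162, w165, w168] :=
  next (i := 41) (j := 1) rfl rfl s56 c57

theorem c55 : Valid [m54, m53, m51, m49, m47, m45, m43, m42, m41, m39, m38, m37, m36, m35, m34,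
    m33, m32, m31, m30, m29, m28, m27, m26, m25, m24, m23, m22, m21, m20, m19, m18, m17, m16,
    m15, m14, m13, m12, m11, m10, m9, m8, m7, m5, m3, m1, w4, w5, w6, w7, w10, w11, w12, w13,
    w16, w17, w18, w19, w22, w23, w24, w25, w28, w29, w30, w31, w34, w35, w36, w37, w40, w41,
    w42, w43, w46, w47, w48, w49, w52, w53, w54, w55, w58, w59, w60, w61, w64, w65, w66, w67,
    w70, w71, w72, w73, w76, w77, w78, w79, w82, w83, w84, w85, w88, w89, w90, w91, w94, w95,
    w96, w97, w100, w101, w123, w126, w129, w132, w135, w138, w141, w144, w147, w150, w153, w156,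
    w159, w162, w165, w168] →
    Concl 67435722 [m54, m53, m51, m49, m47, m45, m43, m42, m41, m39, m38, m37, m36, m35, m34,
    m33, m32, m31, m30, m29, m28, m27, m26, m25, m24, m23, m22, m21, m20, m19, m18, m17, m16,
    m15, m14, m13, m12, m11, m10, m9, m8, m7, m5, m3, m1, w4, w5, w6, w7, w10, w11, w12, w13,
    w16, w17, w18, w19, w22, w23, w24, w25, w28, w29, w30, w31, w34, w35, w36, w37, w40, w41,
    w42, w43, w46, w47, w48, w49, w52, w53, w54, w55, w58, w59, w60, w61, w64, w65, w66, w67,
    w70, w71, w72, w73, w76, w77, w78, w79, w82, w83, w84, w85, w88, w89, w90, w91, w94, w95,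
    w96, w97, w100, w101, w123, w126, w129, w132, w135, w138, w141, w144, w147, w150, w153, w156,
    w159, w162, w165, w168] :=
  next (i := 109) (j := 109) rfl rfl s55 c56

theorem c54 : Valid [m53, m52, m51, m49, m47, m45, m43, m42, m41, m39, m38, m37, m36, m35, m34,
    m33, m32, m31, m30, m29, m28, m27, m26, m25, m24, m23, m22, m21, m20, m19, m18, m17, m16,
    m15, m14, m13, m12, m11, m10, m9, m8, m7, m5, m3, m1, w4, w5, w6, w7, w10, w11, w12, w13,
    w16, w17, w18, w19, w22, w23, w24, w25, w28, w29, w30, w31, w34, w35, w36, w37, w40, w41,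
    w42, w43, w46, w47, w48, w49, w52, w53, w54, w55, w58, w59, w60, w61, w64, w65, w66, w67,
    w70, w71, w72, w73, w76, w77, w78, w79, w82, w83, w84, w85, w88, w89, w90, w91, w94, w95,
    w96, w97, w100, w101, w123, w126, w129, w132, w135, w138, w141, w144, w147, w150, w153, w156,
    w159, w162, w165, w168, w171] →
    Concl 67435722 [m53, m52, m51, m49, m47, m45, m43, m42, m41, m39, m38, m37, m36, m35, m34,
    m33, m32, m31, m30, m29, m28, m27, m26, m25, m24, m23, m22, m21, m20, m19, m18, m17, m16,
    m15, m14, m13, m12, m11, m10, m9, m8, m7, m5, m3, m1, w4, w5, w6, w7, w10, w11, w12, w13,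
    w16, w17, w18, w19, w22, w23, w24, w25, w28, w29, w30, w31, w34, w35, w36, w37, w40, w41,
    w42, w43, w46, w47, w48, w49, w52, w53, w54, w55, w58, w59, w60, w61, w64, w65, w66, w67,
    w70, w71, w72, w73, w76, w77, w78, w79, w82, w83, w84, w85, w88, w89, w90, w91, w94, w95,
    w96, w97, w100, w101, w123, w126, w129, w132, w135, w138, w141, w144, w147, w150, w153, w156,
    w159, w162, w165, w168, w171] :=
  next (i := 127) (j := 1) rfl rfl s54 c55

theorem c53 : Valid [m52, m51, m49, m47, m45, m43, m42, m41, m39, m38, m37, m36, m35, m34, m33,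
    m32, m31, m30, m29, m28, m27, m26, m25, m24, m23, m22, m21, m20, m19, m18, m17, m16, m15,
    m14, m13, m12, m11, m10, m9, m8, m7, m5, m3, m1, w4, w5, w6, w7, w10, w11, w12, w13, w16,
    w17, w18, w19, w22, w23, w24, w25, w28, w29, w30, w31, w34, w35, w36, w37, w40, w41, w42,
    w43, w46, w47, w48, w49, w52, w53, w54, w55, w58, w59, w60, w61, w64, w65, w66, w67, w70,
    w71, w72, w73, w76, w77, w78, w79, w82, w83, w84, w85, w88, w89, w90, w91, w94, w95, w96,
    w97, w100, w101, w102, w103, w123, w126, w129, w132, w135, w138, w141, w144, w147, w150,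
    w153, w156, w159, w162, w165, w168, w171] →
    Concl 67435722 [m52, m51, m49, m47, m45, m43, m42, m41, m39, m38, m37, m36, m35, m34, m33,
    m32, m31, m30, m29, m28, m27, m26, m25, m24, m23, m22, m21, m20, m19, m18, m17, m16, m15,
    m14, m13, m12, m11, m10, m9, m8, m7, m5, m3, m1, w4, w5, w6, w7, w10, w11, w12, w13, w16,
    w17, w18, w19, w22, w23, w24, w25, w28, w29, w30, w31, w34, w35, w36, w37, w40, w41, w42,
    w43, w46, w47, w48, w49, w52, w53, w54, w55, w58, w59, w60, w61, w64, w65, w66, w67, w70,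
    w71, w72, w73, w76, w77, w78, w79, w82, w83, w84, w85, w88, w89, w90, w91, w94, w95, w96,
    w97, w100, w101, w102, w103, w123, w126, w129, w132, w135, w138, w141, w144, w147, w150,
    w153, w156, w159, w162, w165, w168, w171] :=
  next (i := 110) (j := 110) rfl rfl s53 c54

theorem c52 : Valid [m51, m50, m49, m47, m45, m43, m42, m41, m39, m38, m37, m36, m35, m34, m33,
    m32, m31, m30, m29, m28, m27, m26, m25, m24, m23, m22, m21, m20, m19, m18, m17, m16, m15,
    m14, m13, m12, m11, m10, m9, m8, m7, m6, m5, m3, m1, w4, w5, w6, w7, w10, w11, w12, w13, w16,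
    w17, w18, w19, w22, w23, w24, w25, w28, w29, w30, w31, w34, w35, w36, w37, w40, w41, w42,
    w43, w46, w47, w48, w49, w52, w53, w54, w55, w58, w59, w60, w61, w64, w65, w66, w67, w70,
    w71, w72, w73, w76, w77, w78, w79, w82, w83, w84, w85, w88, w89, w90, w91, w94, w95, w96,
    w97, w100, w101, w102, w103, w123, w126, w129, w132, w135, w138, w141, w144, w147, w150,
    w153, w156, w159, w162, w165, w168, w171] →
    Concl 67435722 [m51, m50, m49, m47, m45, m43, m42, m41, m39, m38, m37, m36, m35, m34, m33,
    m32, m31, m30, m29, m28, m27, m26, m25, m24, m23, m22, m21, m20, m19, m18, m17, m16, m15,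
    m14, m13, m12, m11, m10, m9, m8, m7, m6, m5, m3, m1, w4, w5, w6, w7, w10, w11, w12, w13, w16,
    w17, w18, w19, w22, w23, w24, w25, w28, w29, w30, w31, w34, w35, w36, w37, w40, w41, w42,
    w43, w46, w47, w48, w49, w52, w53, w54, w55, w58, w59, w60, w61, w64, w65, w66, w67, w70,
    w71, w72, w73, w76, w77, w78, w79, w82, w83, w84, w85, w88, w89, w90, w91, w94, w95, w96,
    w97, w100, w101, w102, w103, w123, w126, w129, w132, w135, w138, w141, w144, w147, w150,
    w153, w156, w159, w162, w165, w168, w171] :=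
  next (i := 41) (j := 1) rfl rfl s52 c53

theorem c51 : Valid [m50, m49, m47, m45, m43, m42, m41, m39, m38, m37, m36, m35, m34, m33, m32,
    m31, m30, m29, m28, m27, m26, m25, m24, m23, m22, m21, m20, m19, m18, m17, m16, m15, m14,
    m13, m12, m11, m10, m9, m8, m7, m6, m5, m3, m1, w4, w5, w6, w7, w10, w11, w12, w13, w16, w17,
    w18, w19, w22, w23, w24, w25, w28, w29, w30, w31, w34, w35, w36, w37, w40, w41, w42, w43,
    w46, w47, w48, w49, w52, w53, w54, w55, w58, w59, w60, w61, w64, w65, w66, w67, w70, w71,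
    w72, w73, w76, w77, w78, w79, w82, w83, w84, w85, w88, w89, w90, w91, w94, w95, w96, w97,
    w100, w101, w102, w103, w106, w107, w123, w126, w129, w132, w135, w138, w141, w144, w147,
    w150, w153, w156, w159, w162, w165, w168, w171] →
    Concl 67435722 [m50, m49, m47, m45, m43, m42, m41, m39, m38, m37, m36, m35, m34, m33, m32,
    m31, m30, m29, m28, m27, m26, m25, m24, m23, m22, m21, m20, m19, m18, m17, m16, m15, m14,
    m13, m12, m11, m10, m9, m8, m7, m6, m5, m3, m1, w4, w5, w6, w7, w10, w11, w12, w13, w16, w17,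
    w18, w19, w22, w23, w24, w25, w28, w29, w30, w31, w34, w35, w36, w37, w40, w41, w42, w43,
    w46, w47, w48, w49, w52, w53, w54, w55, w58, w59, w60, w61, w64, w65, w66, w67, w70, w71,
    w72, w73, w76, w77, w78, w79, w82, w83, w84, w85, w88, w89, w90, w91, w94, w95, w96, w97,
    w100, w101, w102, w103, w106, w107, w123, w126, w129, w132, w135, w138, w141, w144, w147,
    w150, w153, w156, w159, w162, w165, w168, w171] :=
  next (i := 112) (j := 112) rfl rfl s51 c52

theorem c50 : Valid [m49, m48, m47, m45, m43, m42, m41, m39, m38, m37, m36, m35, m34, m33, m32,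
    m31, m30, m29, m28, m27, m26, m25, m24, m23, m22, m21, m20, m19, m18, m17, m16, m15, m14,
    m13, m12, m11, m10, m9, m8, m7, m6, m5, m3, m1, w4, w5, w6, w7, w10, w11, w12, w13, w16, w17,
    w18, w19, w22, w23, w24, w25, w28, w29, w30, w31, w34, w35, w36, w37, w40, w41, w42, w43,
    w46, w47, w48, w49, w52, w53, w54, w55, w58, w59, w60, w61, w64, w65, w66, w67, w70, w71,
    w72, w73, w76, w77, w78, w79, w82, w83, w84, w85, w88, w89, w90, w91, w94, w95, w96, w97,
    w100, w101, w102, w103, w106, w107, w123, w126, w129, w132, w135, w138, w141, w144, w147,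
    w150, w153, w156, w159, w162, w165, w168, w171, w174] →
    Concl 67435722 [m49, m48, m47, m45, m43, m42, m41, m39, m38, m37, m36, m35, m34, m33, m32,
    m31, m30, m29, m28, m27, m26, m25, m24, m23, m22, m21, m20, m19, m18, m17, m16, m15, m14,
    m13, m12, m11, m10, m9, m8, m7, m6, m5, m3, m1, w4, w5, w6, w7, w10, w11, w12, w13, w16, w17,
    w18, w19, w22, w23, w24, w25, w28, w29, w30, w31, w34, w35, w36, w37, w40, w41, w42, w43,
    w46, w47, w48, w49, w52, w53, w54, w55, w58, w59, w60, w61, w64, w65, w66, w67, w70, w71,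
    w72, w73, w76, w77, w78, w79, w82, w83, w84, w85, w88, w89, w90, w91, w94, w95, w96, w97,
    w100, w101, w102, w103, w106, w107, w123, w126, w129, w132, w135, w138, w141, w144, w147,
    w150, w153, w156, w159, w162, w165, w168, w171, w174] :=
  next (i := 131) (j := 1) rfl rfl s50 c51

theorem c49 : Valid [m48, m47, m45, m43, m42, m41, m39, m38, m37, m36, m35, m34, m33, m32, m31,
    m30, m29, m28, m27, m26, m25, m24, m23, m22, m21, m20, m19, m18, m17, m16, m15, m14, m13,
    m12, m11, m10, m9, m8, m7, m6, m5, m3, m1, w4, w5, w6, w7, w10, w11, w12, w13, w16, w17, w18,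
    w19, w22, w23, w24, w25, w28, w29, w30, w31, w34, w35, w36, w37, w40, w41, w42, w43, w46,
    w47, w48, w49, w52, w53, w54, w55, w58, w59, w60, w61, w64, w65, w66, w67, w70, w71, w72,
    w73, w76, w77, w78, w79, w82, w83, w84, w85, w88, w89, w90, w91, w94, w95, w96, w97, w100,
    w101, w102, w103, w106, w107, w108, w109, w123, w126, w129, w132, w135, w138, w141, w144,
    w147, w150, w153, w156, w159, w162, w165, w168, w171, w174] →
    Concl 67435722 [m48, m47, m45, m43, m42, m41, m39, m38, m37, m36, m35, m34, m33, m32, m31,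
    m30, m29, m28, m27, m26, m25, m24, m23, m22, m21, m20, m19, m18, m17, m16, m15, m14, m13,
    m12, m11, m10, m9, m8, m7, m6, m5, m3, m1, w4, w5, w6, w7, w10, w11, w12, w13, w16, w17, w18,
    w19, w22, w23, w24, w25, w28, w29, w30, w31, w34, w35, w36, w37, w40, w41, w42, w43, w46,
    w47, w48, w49, w52, w53, w54, w55, w58, w59, w60, w61, w64, w65, w66, w67, w70, w71, w72,
    w73, w76, w77, w78, w79, w82, w83, w84, w85, w88, w89, w90, w91, w94, w95, w96, w97, w100,
    w101, w102, w103, w106, w107, w108, w109, w123, w126, w129, w132, w135, w138, w141, w144,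
    w147, w150, w153, w156, w159, w162, w165, w168, w171, w174] :=
  next (i := 113) (j := 113) rfl rfl s49 c50

theorem c48 : Valid [m47, m46, m45, m43, m42, m41, m39, m38, m37, m36, m35, m34, m33, m32, m31,
    m30, m29, m28, m27, m26, m25, m24, m23, m22, m21, m20, m19, m18, m17, m16, m15, m14, m13,
    m12, m11, m10, m9, m8, m7, m6, m5, m4, m3, m1, w4, w5, w6, w7, w10, w11, w12, w13, w16, w17,
    w18, w19, w22, w23, w24, w25, w28, w29, w30, w31, w34, w35, w36, w37, w40, w41, w42, w43,
    w46, w47, w48, w49, w52, w53, w54, w55, w58, w59, w60, w61, w64, w65, w66, w67, w70, w71,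
    w72, w73, w76, w77, w78, w79, w82, w83, w84, w85, w88, w89, w90, w91, w94, w95, w96, w97,
    w100, w101, w102, w103, w106, w107, w108, w109, w123, w126, w129, w132, w135, w138, w141,
    w144, w147, w150, w153, w156, w159, w162, w165, w168, w171, w174] →
    Concl 67435722 [m47, m46, m45, m43, m42, m41, m39, m38, m37, m36, m35, m34, m33, m32, m31,
    m30, m29, m28, m27, m26, m25, m24, m23, m22, m21, m20, m19, m18, m17, m16, m15, m14, m13,
    m12, m11, m10, m9, m8, m7, m6, m5, m4, m3, m1, w4, w5, w6, w7, w10, w11, w12, w13, w16, w17,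
    w18, w19, w22, w23, w24, w25, w28, w29, w30, w31, w34, w35, w36, w37, w40, w41, w42, w43,
    w46, w47, w48, w49, w52, w53, w54, w55, w58, w59, w60, w61, w64, w65, w66, w67, w70, w71,
    w72, w73, w76, w77, w78, w79, w82, w83, w84, w85, w88, w89, w90, w91, w94, w95, w96, w97,
    w100, w101, w102, w103, w106, w107, w108, w109, w123, w126, w129, w132, w135, w138, w141,
    w144, w147, w150, w153, w156, w159, w162, w165, w168, w171, w174] :=
  next (i := 41) (j := 1) rfl rfl s48 c49

theorem c47 : Valid [m46, m45, m43, m42, m41, m39, m38, m37, m36, m35, m34, m33, m32, m31, m30,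
    m29, m28, m27, m26, m25, m24, m23, m22, m21, m20, m19, m18, m17, m16, m15, m14, m13, m12,
    m11, m10, m9, m8, m7, m6, m5, m4, m3, m1, w4, w5, w6, w7, w10, w11, w12, w13, w16, w17, w18,
    w19, w22, w23, w24, w25, w28, w29, w30, w31, w34, w35, w36, w37, w40, w41, w42, w43, w46,
    w47, w48, w49, w52, w53, w54, w55, w58, w59, w60, w61, w64, w65, w66, w67, w70, w71, w72,
    w73, w76, w77, w78, w79, w82, w83, w84, w85, w88, w89, w90, w91, w94, w95, w96, w97, w100,
    w101, w102, w103, w106, w107, w108, w109, w112, w113, w123, w126, w129, w132, w135, w138,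
    w141, w144, w147, w150, w153, w156, w159, w162, w165, w168, w171, w174] →
    Concl 67435722 [m46, m45, m43, m42, m41, m39, m38, m37, m36, m35, m34, m33, m32, m31, m30,
    m29, m28, m27, m26, m25, m24, m23, m22, m21, m20, m19, m18, m17, m16, m15, m14, m13, m12,
    m11, m10, m9, m8, m7, m6, m5, m4, m3, m1, w4, w5, w6, w7, w10, w11, w12, w13, w16, w17, w18,
    w19, w22, w23, w24, w25, w28, w29, w30, w31, w34, w35, w36, w37, w40, w41, w42, w43, w46,
    w47, w48, w49, w52, w53, w54, w55, w58, w59, w60, w61, w64, w65, w66, w67, w70, w71, w72,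
    w73, w76, w77, w78, w79, w82, w83, w84, w85, w88, w89, w90, w91, w94, w95, w96, w97, w100,
    w101, w102, w103, w106, w107, w108, w109, w112, w113, w123, w126, w129, w132, w135, w138,
    w141, w144, w147, w150, w153, w156, w159, w162, w165, w168, w171, w174] :=
  next (i := 115) (j := 115) rfl rfl s47 c48

theorem c46 : Valid [m45, m44, m43, m42, m41, m39, m38, m37, m36, m35, m34, m33, m32, m31, m30,
    m29, m28, m27, m26, m25, m24, m23, m22, m21, m20, m19, m18, m17, m16, m15, m14, m13, m12,
    m11, m10, m9, m8, m7, m6, m5, m4, m3, m1, w4, w5, w6, w7, w10, w11, w12, w13, w16, w17, w18,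
    w19, w22, w23, w24, w25, w28, w29, w30, w31, w34, w35, w36, w37, w40, w41, w42, w43, w46,
    w47, w48, w49, w52, w53, w54, w55, w58, w59, w60, w61, w64, w65, w66, w67, w70, w71, w72,
    w73, w76, w77, w78, w79, w82, w83, w84, w85, w88, w89, w90, w91, w94, w95, w96, w97, w100,
    w101, w102, w103, w106, w107, w108, w109, w112, w113, w123, w126, w129, w132, w135, w138,
    w141, w144, w147, w150, w153, w156, w159, w162, w165, w168, w171, w174, w177] →
    Concl 67435722 [m45, m44, m43, m42, m41, m39, m38, m37, m36, m35, m34, m33, m32, m31, m30,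
    m29, m28, m27, m26, m25, m24, m23, m22, m21, m20, m19, m18, m17, m16, m15, m14, m13, m12,
    m11, m10, m9, m8, m7, m6, m5, m4, m3, m1, w4, w5, w6, w7, w10, w11, w12, w13, w16, w17, w18,
    w19, w22, w23, w24, w25, w28, w29, w30, w31, w34, w35, w36, w37, w40, w41, w42, w43, w46,
    w47, w48, w49, w52, w53, w54, w55, w58, w59, w60, w61, w64, w65, w66, w67, w70, w71, w72,
    w73, w76, w77, w78, w79, w82, w83, w84, w85, w88, w89, w90, w91, w94, w95, w96, w97, w100,
    w101, w102, w103, w106, w107, w108, w109, w112, w113, w123, w126, w129, w132, w135, w138,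
    w141, w144, w147, w150, w153, w156, w159, w162, w165, w168, w171, w174, w177] :=
  next (i := 135) (j := 1) rfl rfl s46 c47

theorem c45 : Valid [m44, m43, m42, m41, m39, m38, m37, m36, m35, m34, m33, m32, m31, m30, m29,
    m28, m27, m26, m25, m24, m23, m22, m21, m20, m19, m18, m17, m16, m15, m14, m13, m12, m11,
    m10, m9, m8, m7, m6, m5, m4, m3, m1, w4, w5, w6, w7, w10, w11, w12, w13, w16, w17, w18, w19,
    w22, w23, w24, w25, w28, w29, w30, w31, w34, w35, w36, w37, w40, w41, w42, w43, w46, w47,
    w48, w49, w52, w53, w54, w55, w58, w59, w60, w61, w64, w65, w66, w67, w70, w71, w72, w73,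
    w76, w77, w78, w79, w82, w83, w84, w85, w88, w89, w90, w91, w94, w95, w96, w97, w100, w101,
    w102, w103, w106, w107, w108, w109, w112, w113, w114, w115, w123, w126, w129, w132, w135,
    w138, w141, w144, w147, w150, w153, w156, w159, w162, w165, w168, w171, w174, w177] →
    Concl 67435722 [m44, m43, m42, m41, m39, m38, m37, m36, m35, m34, m33, m32, m31, m30, m29,
    m28, m27, m26, m25, m24, m23, m22, m21, m20, m19, m18, m17, m16, m15, m14, m13, m12, m11,
    m10, m9, m8, m7, m6, m5, m4, m3, m1, w4, w5, w6, w7, w10, w11, w12, w13, w16, w17, w18, w19,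
    w22, w23, w24, w25, w28, w29, w30, w31, w34, w35, w36, w37, w40, w41, w42, w43, w46, w47,
    w48, w49, w52, w53, w54, w55, w58, w59, w60, w61, w64, w65, w66, w67, w70, w71, w72, w73,
    w76, w77, w78, w79, w82, w83, w84, w85, w88, w89, w90, w91, w94, w95, w96, w97, w100, w101,
    w102, w103, w106, w107, w108, w109, w112, w113, w114, w115, w123, w126, w129, w132, w135,
    w138, w141, w144, w147, w150, w153, w156, w159, w162, w165, w168, w171, w174, w177] :=
  next (i := 116) (j := 116) rfl rfl s45 c46

theorem c44 : Valid [m43, m42, m41, m39, m38, m37, m36, m35, m34, m33, m32, m31, m30, m29, m28,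
    m27, m26, m25, m24, m23, m22, m21, m20, m19, m18, m17, m16, m15, m14, m13, m12, m11, m10, m9,
    m8, m7, m6, m5, m4, m3, m2, m1, w4, w5, w6, w7, w10, w11, w12, w13, w16, w17, w18, w19, w22,
    w23, w24, w25, w28, w29, w30, w31, w34, w35, w36, w37, w40, w41, w42, w43, w46, w47, w48,
    w49, w52, w53, w54, w55, w58, w59, w60, w61, w64, w65, w66, w67, w70, w71, w72, w73, w76,
    w77, w78, w79, w82, w83, w84, w85, w88, w89, w90, w91, w94, w95, w96, w97, w100, w101, w102,
    w103, w106, w107, w108, w109, w112, w113, w114, w115, w123, w126, w129, w132, w135, w138,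
    w141, w144, w147, w150, w153, w156, w159, w162, w165, w168, w171, w174, w177, w180] →
    Concl 67435722 [m43, m42, m41, m39, m38, m37, m36, m35, m34, m33, m32, m31, m30, m29, m28,
    m27, m26, m25, m24, m23, m22, m21, m20, m19, m18, m17, m16, m15, m14, m13, m12, m11, m10, m9,
    m8, m7, m6, m5, m4, m3, m2, m1, w4, w5, w6, w7, w10, w11, w12, w13, w16, w17, w18, w19, w22,
    w23, w24, w25, w28, w29, w30, w31, w34, w35, w36, w37, w40, w41, w42, w43, w46, w47, w48,
    w49, w52, w53, w54, w55, w58, w59, w60, w61, w64, w65, w66, w67, w70, w71, w72, w73, w76,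
    w77, w78, w79, w82, w83, w84, w85, w88, w89, w90, w91, w94, w95, w96, w97, w100, w101, w102,
    w103, w106, w107, w108, w109, w112, w113, w114, w115, w123, w126, w129, w132, w135, w138,
    w141, w144, w147, w150, w153, w156, w159, w162, w165, w168, w171, w174, w177, w180] :=
  next (i := 40) (j := 136) rfl rfl s44 c45

theorem c43 : Valid [m42, m41, m39, m38, m37, m36, m35, m34, m33, m32, m31, m30, m29, m28, m27,
    m26, m25, m24, m23, m22, m21, m20, m19, m18, m17, m16, m15, m14, m13, m12, m11, m10, m9, m8,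
    m7, m6, m5, m4, m3, m2, m1, w4, w5, w6, w7, w10, w11, w12, w13, w16, w17, w18, w19, w22, w23,
    w24, w25, w28, w29, w30, w31, w34, w35, w36, w37, w40, w41, w42, w43, w46, w47, w48, w49,
    w52, w53, w54, w55, w58, w59, w60, w61, w64, w65, w66, w67, w70, w71, w72, w73, w76, w77,
    w78, w79, w82, w83, w84, w85, w88, w89, w90, w91, w94, w95, w96, w97, w100, w101, w102, w103,
    w106, w107, w108, w109, w112, w113, w114, w115, w118, w119, w123, w126, w129, w132, w135,
    w138, w141, w144, w147, w150, w153, w156, w159, w162, w165, w168, w171, w174, w177, w180] →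
    Concl 67435722 [m42, m41, m39, m38, m37, m36, m35, m34, m33, m32, m31, m30, m29, m28, m27,
    m26, m25, m24, m23, m22, m21, m20, m19, m18, m17, m16, m15, m14, m13, m12, m11, m10, m9, m8,
    m7, m6, m5, m4, m3, m2, m1, w4, w5, w6, w7, w10, w11, w12, w13, w16, w17, w18, w19, w22, w23,
    w24, w25, w28, w29, w30, w31, w34, w35, w36, w37, w40, w41, w42, w43, w46, w47, w48, w49,
    w52, w53, w54, w55, w58, w59, w60, w61, w64, w65, w66, w67, w70, w71, w72, w73, w76, w77,
    w78, w79, w82, w83, w84, w85, w88, w89, w90, w91, w94, w95, w96, w97, w100, w101, w102, w103,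
    w106, w107, w108, w109, w112, w113, w114, w115, w118, w119, w123, w126, w129, w132, w135,
    w138, w141, w144, w147, w150, w153, w156, w159, w162, w165, w168, w171, w174, w177, w180] :=
  next (i := 117) (j := 117) rfl rfl s43 c44

theorem c42 : Valid [m41, m40, m39, m38, m37, m36, m35, m34, m33, m32, m31, m30, m29, m28, m27,
    m26, m25, m24, m23, m22, m21, m20, m19, m18, m17, m16, m15, m14, m13, m12, m11, m10, m9, m8,
    m7, m6, m5, m4, m3, m2, m1, w4, w5, w6, w7, w10, w11, w12, w13, w16, w17, w18, w19, w22, w23,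
    w24, w25, w28, w29, w30, w31, w34, w35, w36, w37, w40, w41, w42, w43, w46, w47, w48, w49,
    w52, w53, w54, w55, w58, w59, w60, w61, w64, w65, w66, w67, w70, w71, w72, w73, w76, w77,
    w78, w79, w82, w83, w84, w85, w88, w89, w90, w91, w94, w95, w96, w97, w100, w101, w102, w103,
    w106, w107, w108, w109, w112, w113, w114, w115, w118, w119, w120, w123, w126, w129, w132,
    w135, w138, w141, w144, w147, w150, w153, w156, w159, w162, w165, w168, w171, w174, w177,
    w180] →
    Concl 67435722 [m41, m40, m39, m38, m37, m36, m35, m34, m33, m32, m31, m30, m29, m28, m27,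
    m26, m25, m24, m23, m22, m21, m20, m19, m18, m17, m16, m15, m14, m13, m12, m11, m10, m9, m8,
    m7, m6, m5, m4, m3, m2, m1, w4, w5, w6, w7, w10, w11, w12, w13, w16, w17, w18, w19, w22, w23,
    w24, w25, w28, w29, w30, w31, w34, w35, w36, w37, w40, w41, w42, w43, w46, w47, w48, w49,
    w52, w53, w54, w55, w58, w59, w60, w61, w64, w65, w66, w67, w70, w71, w72, w73, w76, w77,
    w78, w79, w82, w83, w84, w85, w88, w89, w90, w91, w94, w95, w96, w97, w100, w101, w102, w103,
    w106, w107, w108, w109, w112, w113, w114, w115, w118, w119, w120, w123, w126, w129, w132,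
    w135, w138, w141, w144, w147, w150, w153, w156, w159, w162, w165, w168, w171, w174, w177,
    w180] :=
  next (i := 119) (j := 1) rfl rfl s42 c43

theorem c41 : Valid [m40, m39, m38, m37, m36, m35, m34, m33, m32, m31, m30, m29, m28, m27, m26,
    m25, m24, m23, m22, m21, m20, m19, m18, m17, m16, m15, m14, m13, m12, m11, m10, m9, m8, m7,
    m6, m5, m4, m3, m2, m1, w0, w1, w4, w5, w6, w7, w10, w11, w12, w13, w16, w17, w18, w19, w22,
    w23, w24, w25, w28, w29, w30, w31, w34, w35, w36, w37, w40, w41, w42, w43, w46, w47, w48,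
    w49, w52, w53, w54, w55, w58, w59, w60, w61, w64, w65, w66, w67, w70, w71, w72, w73, w76,
    w77, w78, w79, w82, w83, w84, w85, w88, w89, w90, w91, w94, w95, w96, w97, w100, w101, w102,
    w103, w106, w107, w108, w109, w112, w113, w114, w115, w118, w119, w120, w123, w126, w129,
    w132, w135, w138, w141, w144, w147, w150, w153, w156, w159, w162, w165, w168, w171, w174,
    w177, w180] →
    Concl 67435722 [m40, m39, m38, m37, m36, m35, m34, m33, m32, m31, m30, m29, m28, m27, m26,
    m25, m24, m23, m22, m21, m20, m19, m18, m17, m16, m15, m14, m13, m12, m11, m10, m9, m8, m7,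
    m6, m5, m4, m3, m2, m1, w0, w1, w4, w5, w6, w7, w10, w11, w12, w13, w16, w17, w18, w19, w22,
    w23, w24, w25, w28, w29, w30, w31, w34, w35, w36, w37, w40, w41, w42, w43, w46, w47, w48,
    w49, w52, w53, w54, w55, w58, w59, w60, w61, w64, w65, w66, w67, w70, w71, w72, w73, w76,
    w77, w78, w79, w82, w83, w84, w85, w88, w89, w90, w91, w94, w95, w96, w97, w100, w101, w102,
    w103, w106, w107, w108, w109, w112, w113, w114, w115, w118, w119, w120, w123, w126, w129,
    w132, w135, w138, w141, w144, w147, w150, w153, w156, w159, w162, w165, w168, w171, w174,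
    w177, w180] :=
  next (i := 40) (j := 40) rfl rfl s41 c42

theorem c40 : Valid [m39, m38, m37, m36, m35, m34, m33, m32, m31, m30, m29, m28, m27, m26, m25,
    m24, m23, m22, m21, m20, m19, m18, m17, m16, m15, m14, m13, m12, m11, m10, m9, m8, m7, m6,
    m5, m4, m3, m2, m1, w0, w1, w4, w5, w6, w7, w10, w11, w12, w13, w16, w17, w18, w19, w22, w23,
    w24, w25, w28, w29, w30, w31, w34, w35, w36, w37, w40, w41, w42, w43, w46, w47, w48, w49,
    w52, w53, w54, w55, w58, w59, w60, w61, w64, w65, w66, w67, w70, w71, w72, w73, w76, w77,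
    w78, w79, w82, w83, w84, w85, w88, w89, w90, w91, w94, w95, w96, w97, w100, w101, w102, w103,
    w106, w107, w108, w109, w112, w113, w114, w115, w118, w119, w120, w121, w122, w123, w126,
    w129, w132, w135, w138, w141, w144, w147, w150, w153, w156, w159, w162, w165, w168, w171,
    w174, w177, w180] →
    Concl 67435722 [m39, m38, m37, m36, m35, m34, m33, m32, m31, m30, m29, m28, m27, m26, m25,
    m24, m23, m22, m21, m20, m19, m18, m17, m16, m15, m14, m13, m12, m11, m10, m9, m8, m7, m6,
    m5, m4, m3, m2, m1, w0, w1, w4, w5, w6, w7, w10, w11, w12, w13, w16, w17, w18, w19, w22, w23,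
    w24, w25, w28, w29, w30, w31, w34, w35, w36, w37, w40, w41, w42, w43, w46, w47, w48, w49,
    w52, w53, w54, w55, w58, w59, w60, w61, w64, w65, w66, w67, w70, w71, w72, w73, w76, w77,
    w78, w79, w82, w83, w84, w85, w88, w89, w90, w91, w94, w95, w96, w97, w100, w101, w102, w103,
    w106, w107, w108, w109, w112, w113, w114, w115, w118, w119, w120, w121, w122, w123, w126,
    w129, w132, w135, w138, w141, w144, w147, w150, w153, w156, w159, w162, w165, w168, w171,
    w174, w177, w180] :=
  next (i := 120) (j := 120) rfl rfl s40 c41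

theorem c39 : Valid [m38, m37, m36, m35, m34, m33, m32, m31, m30, m29, m28, m27, m26, m25, m24,
    m23, m22, m21, m20, m19, m18, m17, m16, m15, m14, m13, m12, m11, m10, m9, m8, m7, m6, m5, m4,
    m3, m2, m1, w0, w1, w2, w3, w4, w5, w6, w7, w10, w11, w12, w13, w16, w17, w18, w19, w22, w23,
    w24, w25, w28, w29, w30, w31, w34, w35, w36, w37, w40, w41, w42, w43, w46, w47, w48, w49,
    w52, w53, w54, w55, w58, w59, w60, w61, w64, w65, w66, w67, w70, w71, w72, w73, w76, w77,
    w78, w79, w82, w83, w84, w85, w88, w89, w90, w91, w94, w95, w96, w97, w100, w101, w102, w103,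
    w106, w107, w108, w109, w112, w113, w114, w115, w118, w119, w120, w121, w122, w123, w126,
    w129, w132, w135, w138, w141, w144, w147, w150, w153, w156, w159, w162, w165, w168, w171,
    w174, w177, w180] →
    Concl 67435722 [m38, m37, m36, m35, m34, m33, m32, m31, m30, m29, m28, m27, m26, m25, m24,
    m23, m22, m21, m20, m19, m18, m17, m16, m15, m14, m13, m12, m11, m10, m9, m8, m7, m6, m5, m4,
    m3, m2, m1, w0, w1, w2, w3, w4, w5, w6, w7, w10, w11, w12, w13, w16, w17, w18, w19, w22, w23,
    w24, w25, w28, w29, w30, w31, w34, w35, w36, w37, w40, w41, w42, w43, w46, w47, w48, w49,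
    w52, w53, w54, w55, w58, w59, w60, w61, w64, w65, w66, w67, w70, w71, w72, w73, w76, w77,
    w78, w79, w82, w83, w84, w85, w88, w89, w90, w91, w94, w95, w96, w97, w100, w101, w102, w103,
    w106, w107, w108, w109, w112, w113, w114, w115, w118, w119, w120, w121, w122, w123, w126,
    w129, w132, w135, w138, w141, w144, w147, w150, w153, w156, w159, w162, w165, w168, w171,
    w174, w177, w180] :=
  next (i := 40) (j := 40) rfl rfl s39 c40

theorem c38 : Valid [m37, m36, m35, m34, m33, m32, m31, m30, m29, m28, m27, m26, m25, m24, m23,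
    m22, m21, m20, m19, m18, m17, m16, m15, m14, m13, m12, m11, m10, m9, m8, m7, m6, m5, m4, m3,
    m2, m1, w0, w1, w2, w3, w4, w5, w6, w7, w10, w11, w12, w13, w16, w17, w18, w19, w22, w23,
    w24, w25, w28, w29, w30, w31, w34, w35, w36, w37, w40, w41, w42, w43, w46, w47, w48, w49,
    w52, w53, w54, w55, w58, w59, w60, w61, w64, w65, w66, w67, w70, w71, w72, w73, w76, w77,
    w78, w79, w82, w83, w84, w85, w88, w89, w90, w91, w94, w95, w96, w97, w100, w101, w102, w103,
    w106, w107, w108, w109, w112, w113, w114, w115, w118, w119, w120, w121, w122, w123, w124,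
    w125, w126, w129, w132, w135, w138, w141, w144, w147, w150, w153, w156, w159, w162, w165,
    w168, w171, w174, w177, w180] →
    Concl 67435722 [m37, m36, m35, m34, m33, m32, m31, m30, m29, m28, m27, m26, m25, m24, m23,
    m22, m21, m20, m19, m18, m17, m16, m15, m14, m13, m12, m11, m10, m9, m8, m7, m6, m5, m4, m3,
    m2, m1, w0, w1, w2, w3, w4, w5, w6, w7, w10, w11, w12, w13, w16, w17, w18, w19, w22, w23,
    w24, w25, w28, w29, w30, w31, w34, w35, w36, w37, w40, w41, w42, w43, w46, w47, w48, w49,
    w52, w53, w54, w55, w58, w59, w60, w61, w64, w65, w66, w67, w70, w71, w72, w73, w76, w77,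
    w78, w79, w82, w83, w84, w85, w88, w89, w90, w91, w94, w95, w96, w97, w100, w101, w102, w103,
    w106, w107, w108, w109, w112, w113, w114, w115, w118, w119, w120, w121, w122, w123, w124,
    w125, w126, w129, w132, w135, w138, w141, w144, w147, w150, w153, w156, w159, w162, w165,
    w168, w171, w174, w177, w180] :=
  next (i := 123) (j := 123) rfl rfl s38 c39

theorem c37 : Valid [m36, m35, m34, m33, m32, m31, m30, m29, m28, m27, m26, m25, m24, m23, m22,
    m21, m20, m19, m18, m17, m16, m15, m14, m13, m12, m11, m10, m9, m8, m7, m6, m5, m4, m3, m2,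
    m1, w0, w1, w2, w3, w4, w5, w6, w7, w8, w9, w10, w11, w12, w13, w16, w17, w18, w19, w22, w23,
    w24, w25, w28, w29, w30, w31, w34, w35, w36, w37, w40, w41, w42, w43, w46, w47, w48, w49,
    w52, w53, w54, w55, w58, w59, w60, w61, w64, w65, w66, w67, w70, w71, w72, w73, w76, w77,
    w78, w79, w82, w83, w84, w85, w88, w89, w90, w91, w94, w95, w96, w97, w100, w101, w102, w103,
    w106, w107, w108, w109, w112, w113, w114, w115, w118, w119, w120, w121, w122, w123, w124,
    w125, w126, w129, w132, w135, w138, w141, w144, w147, w150, w153, w156, w159, w162, w165,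
    w168, w171, w174, w177, w180] →
    Concl 67435722 [m36, m35, m34, m33, m32, m31, m30, m29, m28, m27, m26, m25, m24, m23, m22,
    m21, m20, m19, m18, m17, m16, m15, m14, m13, m12, m11, m10, m9, m8, m7, m6, m5, m4, m3, m2,
    m1, w0, w1, w2, w3, w4, w5, w6, w7, w8, w9, w10, w11, w12, w13, w16, w17, w18, w19, w22, w23,
    w24, w25, w28, w29, w30, w31, w34, w35, w36, w37, w40, w41, w42, w43, w46, w47, w48, w49,
    w52, w53, w54, w55, w58, w59, w60, w61, w64, w65, w66, w67, w70, w71, w72, w73, w76, w77,
    w78, w79, w82, w83, w84, w85, w88, w89, w90, w91, w94, w95, w96, w97, w100, w101, w102, w103,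
    w106, w107, w108, w109, w112, w113, w114, w115, w118, w119, w120, w121, w122, w123, w124,
    w125, w126, w129, w132, w135, w138, w141, w144, w147, w150, w153, w156, w159, w162, w165,
    w168, w171, w174, w177, w180] :=
  next (i := 44) (j := 44) rfl rfl s37 c38

theorem c36 : Valid [m35, m34, m33, m32, m31, m30, m29, m28, m27, m26, m25, m24, m23, m22, m21,
    m20, m19, m18, m17, m16, m15, m14, m13, m12, m11, m10, m9, m8, m7, m6, m5, m4, m3, m2, m1,
    w0, w1, w2, w3, w4, w5, w6, w7, w8, w9, w10, w11, w12, w13, w16, w17, w18, w19, w22, w23,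
    w24, w25, w28, w29, w30, w31, w34, w35, w36, w37, w40, w41, w42, w43, w46, w47, w48, w49,
    w52, w53, w54, w55, w58, w59, w60, w61, w64, w65, w66, w67, w70, w71, w72, w73, w76, w77,
    w78, w79, w82, w83, w84, w85, w88, w89, w90, w91, w94, w95, w96, w97, w100, w101, w102, w103,
    w106, w107, w108, w109, w112, w113, w114, w115, w118, w119, w120, w121, w122, w123, w124,
    w125, w126, w127, w128, w129, w132, w135, w138, w141, w144, w147, w150, w153, w156, w159,
    w162, w165, w168, w171, w174, w177, w180] →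
    Concl 67435722 [m35, m34, m33, m32, m31, m30, m29, m28, m27, m26, m25, m24, m23, m22, m21,
    m20, m19, m18, m17, m16, m15, m14, m13, m12, m11, m10, m9, m8, m7, m6, m5, m4, m3, m2, m1,
    w0, w1, w2, w3, w4, w5, w6, w7, w8, w9, w10, w11, w12, w13, w16, w17, w18, w19, w22, w23,
    w24, w25, w28, w29, w30, w31, w34, w35, w36, w37, w40, w41, w42, w43, w46, w47, w48, w49,
    w52, w53, w54, w55, w58, w59, w60, w61, w64, w65, w66, w67, w70, w71, w72, w73, w76, w77,
    w78, w79, w82, w83, w84, w85, w88, w89, w90, w91, w94, w95, w96, w97, w100, w101, w102, w103,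
    w106, w107, w108, w109, w112, w113, w114, w115, w118, w119, w120, w121, w122, w123, w124,
    w125, w126, w127, w128, w129, w132, w135, w138, w141, w144, w147, w150, w153, w156, w159,
    w162, w165, w168, w171, w174, w177, w180] :=
  next (i := 126) (j := 126) rfl rfl s36 c37

theorem c35 : Valid [m34, m33, m32, m31, m30, m29, m28, m27, m26, m25, m24, m23, m22, m21, m20,
    m19, m18, m17, m16, m15, m14, m13, m12, m11, m10, m9, m8, m7, m6, m5, m4, m3, m2, m1, w0, w1,
    w2, w3, w4, w5, w6, w7, w8, w9, w10, w11, w12, w13, w14, w15, w16, w17, w18, w19, w22, w23,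
    w24, w25, w28, w29, w30, w31, w34, w35, w36, w37, w40, w41, w42, w43, w46, w47, w48, w49,
    w52, w53, w54, w55, w58, w59, w60, w61, w64, w65, w66, w67, w70, w71, w72, w73, w76, w77,
    w78, w79, w82, w83, w84, w85, w88, w89, w90, w91, w94, w95, w96, w97, w100, w101, w102, w103,
    w106, w107, w108, w109, w112, w113, w114, w115, w118, w119, w120, w121, w122, w123, w124,
    w125, w126, w127, w128, w129, w132, w135, w138, w141, w144, w147, w150, w153, w156, w159,
    w162, w165, w168, w171, w174, w177, w180] →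
    Concl 67435722 [m34, m33, m32, m31, m30, m29, m28, m27, m26, m25, m24, m23, m22, m21, m20,
    m19, m18, m17, m16, m15, m14, m13, m12, m11, m10, m9, m8, m7, m6, m5, m4, m3, m2, m1, w0, w1,
    w2, w3, w4, w5, w6, w7, w8, w9, w10, w11, w12, w13, w14, w15, w16, w17, w18, w19, w22, w23,
    w24, w25, w28, w29, w30, w31, w34, w35, w36, w37, w40, w41, w42, w43, w46, w47, w48, w49,
    w52, w53, w54, w55, w58, w59, w60, w61, w64, w65, w66, w67, w70, w71, w72, w73, w76, w77,
    w78, w79, w82, w83, w84, w85, w88, w89, w90, w91, w94, w95, w96, w97, w100, w101, w102, w103,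
    w106, w107, w108, w109, w112, w113, w114, w115, w118, w119, w120, w121, w122, w123, w124,
    w125, w126, w127, w128, w129, w132, w135, w138, w141, w144, w147, w150, w153, w156, w159,
    w162, w165, w168, w171, w174, w177, w180] :=
  next (i := 48) (j := 48) rfl rfl s35 c36

theorem c34 : Valid [m33, m32, m31, m30, m29, m28, m27, m26, m25, m24, m23, m22, m21, m20, m19,
    m18, m17, m16, m15, m14, m13, m12, m11, m10, m9, m8, m7, m6, m5, m4, m3, m2, m1, w0, w1, w2,
    w3, w4, w5, w6, w7, w8, w9, w10, w11, w12, w13, w14, w15, w16, w17, w18, w19, w22, w23, w24,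
    w25, w28, w29, w30, w31, w34, w35, w36, w37, w40, w41, w42, w43, w46, w47, w48, w49, w52,
    w53, w54, w55, w58, w59, w60, w61, w64, w65, w66, w67, w70, w71, w72, w73, w76, w77, w78,
    w79, w82, w83, w84, w85, w88, w89, w90, w91, w94, w95, w96, w97, w100, w101, w102, w103,
    w106, w107, w108, w109, w112, w113, w114, w115, w118, w119, w120, w121, w122, w123, w124,
    w125, w126, w127, w128, w129, w130, w131, w132, w135, w138, w141, w144, w147, w150, w153,
    w156, w159, w162, w165, w168, w171, w174, w177, w180] →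
    Concl 67435722 [m33, m32, m31, m30, m29, m28, m27, m26, m25, m24, m23, m22, m21, m20, m19,
    m18, m17, m16, m15, m14, m13, m12, m11, m10, m9, m8, m7, m6, m5, m4, m3, m2, m1, w0, w1, w2,
    w3, w4, w5, w6, w7, w8, w9, w10, w11, w12, w13, w14, w15, w16, w17, w18, w19, w22, w23, w24,
    w25, w28, w29, w30, w31, w34, w35, w36, w37, w40, w41, w42, w43, w46, w47, w48, w49, w52,
    w53, w54, w55, w58, w59, w60, w61, w64, w65, w66, w67, w70, w71, w72, w73, w76, w77, w78,
    w79, w82, w83, w84, w85, w88, w89, w90, w91, w94, w95, w96, w97, w100, w101, w102, w103,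
    w106, w107, w108, w109, w112, w113, w114, w115, w118, w119, w120, w121, w122, w123, w124,
    w125, w126, w127, w128, w129, w130, w131, w132, w135, w138, w141, w144, w147, w150, w153,
    w156, w159, w162, w165, w168, w171, w174, w177, w180] :=
  next (i := 129) (j := 129) rfl rfl s34 c35

theorem c33 : Valid [m32, m31, m30, m29, m28, m27, m26, m25, m24, m23, m22, m21, m20, m19, m18,
    m17, m16, m15, m14, m13, m12, m11, m10, m9, m8, m7, m6, m5, m4, m3, m2, m1, w0, w1, w2, w3,
    w4, w5, w6, w7, w8, w9, w10, w11, w12, w13, w14, w15, w16, w17, w18, w19, w20, w21, w22, w23,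
    w24, w25, w28, w29, w30, w31, w34, w35, w36, w37, w40, w41, w42, w43, w46, w47, w48, w49,
    w52, w53, w54, w55, w58, w59, w60, w61, w64, w65, w66, w67, w70, w71, w72, w73, w76, w77,
    w78, w79, w82, w83, w84, w85, w88, w89, w90, w91, w94, w95, w96, w97, w100, w101, w102, w103,
    w106, w107, w108, w109, w112, w113, w114, w115, w118, w119, w120, w121, w122, w123, w124,
    w125, w126, w127, w128, w129, w130, w131, w132, w135, w138, w141, w144, w147, w150, w153,
    w156, w159, w162, w165, w168, w171, w174, w177, w180] →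
    Concl 67435722 [m32, m31, m30, m29, m28, m27, m26, m25, m24, m23, m22, m21, m20, m19, m18,
    m17, m16, m15, m14, m13, m12, m11, m10, m9, m8, m7, m6, m5, m4, m3, m2, m1, w0, w1, w2, w3,
    w4, w5, w6, w7, w8, w9, w10, w11, w12, w13, w14, w15, w16, w17, w18, w19, w20, w21, w22, w23,
    w24, w25, w28, w29, w30, w31, w34, w35, w36, w37, w40, w41, w42, w43, w46, w47, w48, w49,
    w52, w53, w54, w55, w58, w59, w60, w61, w64, w65, w66, w67, w70, w71, w72, w73, w76, w77,
    w78, w79, w82, w83, w84, w85, w88, w89, w90, w91, w94, w95, w96, w97, w100, w101, w102, w103,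
    w106, w107, w108, w109, w112, w113, w114, w115, w118, w119, w120, w121, w122, w123, w124,
    w125, w126, w127, w128, w129, w130, w131, w132, w135, w138, w141, w144, w147, w150, w153,
    w156, w159, w162, w165, w168, w171, w174, w177, w180] :=
  next (i := 52) (j := 52) rfl rfl s33 c34

theorem c32 : Valid [m31, m30, m29, m28, m27, m26, m25, m24, m23, m22, m21, m20, m19, m18, m17,
    m16, m15, m14, m13, m12, m11, m10, m9, m8, m7, m6, m5, m4, m3, m2, m1, w0, w1, w2, w3, w4,
    w5, w6, w7, w8, w9, w10, w11, w12, w13, w14, w15, w16, w17, w18, w19, w20, w21, w22, w23,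
    w24, w25, w28, w29, w30, w31, w34, w35, w36, w37, w40, w41, w42, w43, w46, w47, w48, w49,
    w52, w53, w54, w55, w58, w59, w60, w61, w64, w65, w66, w67, w70, w71, w72, w73, w76, w77,
    w78, w79, w82, w83, w84, w85, w88, w89, w90, w91, w94, w95, w96, w97, w100, w101, w102, w103,
    w106, w107, w108, w109, w112, w113, w114, w115, w118, w119, w120, w121, w122, w123, w124,
    w125, w126, w127, w128, w129, w130, w131, w132, w133, w134, w135, w138, w141, w144, w147,
    w150, w153, w156, w159, w162, w165, w168, w171, w174, w177, w180] →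
    Concl 67435722 [m31, m30, m29, m28, m27, m26, m25, m24, m23, m22, m21, m20, m19, m18, m17,
    m16, m15, m14, m13, m12, m11, m10, m9, m8, m7, m6, m5, m4, m3, m2, m1, w0, w1, w2, w3, w4,
    w5, w6, w7, w8, w9, w10, w11, w12, w13, w14, w15, w16, w17, w18, w19, w20, w21, w22, w23,
    w24, w25, w28, w29, w30, w31, w34, w35, w36, w37, w40, w41, w42, w43, w46, w47, w48, w49,
    w52, w53, w54, w55, w58, w59, w60, w61, w64, w65, w66, w67, w70, w71, w72, w73, w76, w77,
    w78, w79, w82, w83, w84, w85, w88, w89, w90, w91, w94, w95, w96, w97, w100, w101, w102, w103,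
    w106, w107, w108, w109, w112, w113, w114, w115, w118, w119, w120, w121, w122, w123, w124,
    w125, w126, w127, w128, w129, w130, w131, w132, w133, w134, w135, w138, w141, w144, w147,
    w150, w153, w156, w159, w162, w165, w168, w171, w174, w177, w180] :=
  next (i := 132) (j := 132) rfl rfl s32 c33

theorem c31 : Valid [m30, m29, m28, m27, m26, m25, m24, m23, m22, m21, m20, m19, m18, m17, m16,
    m15, m14, m13, m12, m11, m10, m9, m8, m7, m6, m5, m4, m3, m2, m1, w0, w1, w2, w3, w4, w5, w6,
    w7, w8, w9, w10, w11, w12, w13, w14, w15, w16, w17, w18, w19, w20, w21, w22, w23, w24, w25,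
    w26, w27, w28, w29, w30, w31, w34, w35, w36, w37, w40, w41, w42, w43, w46, w47, w48, w49,
    w52, w53, w54, w55, w58, w59, w60, w61, w64, w65, w66, w67, w70, w71, w72, w73, w76, w77,
    w78, w79, w82, w83, w84, w85, w88, w89, w90, w91, w94, w95, w96, w97, w100, w101, w102, w103,
    w106, w107, w108, w109, w112, w113, w114, w115, w118, w119, w120, w121, w122, w123, w124,
    w125, w126, w127, w128, w129, w130, w131, w132, w133, w134, w135, w138, w141, w144, w147,
    w150, w153, w156, w159, w162, w165, w168, w171, w174, w177, w180] →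
    Concl 67435722 [m30, m29, m28, m27, m26, m25, m24, m23, m22, m21, m20, m19, m18, m17, m16,
    m15, m14, m13, m12, m11, m10, m9, m8, m7, m6, m5, m4, m3, m2, m1, w0, w1, w2, w3, w4, w5, w6,
    w7, w8, w9, w10, w11, w12, w13, w14, w15, w16, w17, w18, w19, w20, w21, w22, w23, w24, w25,
    w26, w27, w28, w29, w30, w31, w34, w35, w36, w37, w40, w41, w42, w43, w46, w47, w48, w49,
    w52, w53, w54, w55, w58, w59, w60, w61, w64, w65, w66, w67, w70, w71, w72, w73, w76, w77,
    w78, w79, w82, w83, w84, w85, w88, w89, w90, w91, w94, w95, w96, w97, w100, w101, w102, w103,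
    w106, w107, w108, w109, w112, w113, w114, w115, w118, w119, w120, w121, w122, w123, w124,
    w125, w126, w127, w128, w129, w130, w131, w132, w133, w134, w135, w138, w141, w144, w147,
    w150, w153, w156, w159, w162, w165, w168, w171, w174, w177, w180] :=
  next (i := 56) (j := 56) rfl rfl s31 c32

theorem c30 : Valid [m29, m28, m27, m26, m25, m24, m23, m22, m21, m20, m19, m18, m17, m16, m15,
    m14, m13, m12, m11, m10, m9, m8, m7, m6, m5, m4, m3, m2, m1, w0, w1, w2, w3, w4, w5, w6, w7,
    w8, w9, w10, w11, w12, w13, w14, w15, w16, w17, w18, w19, w20, w21, w22, w23, w24, w25, w26,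
    w27, w28, w29, w30, w31, w34, w35, w36, w37, w40, w41, w42, w43, w46, w47, w48, w49, w52,
    w53, w54, w55, w58, w59, w60, w61, w64, w65, w66, w67, w70, w71, w72, w73, w76, w77, w78,
    w79, w82, w83, w84, w85, w88, w89, w90, w91, w94, w95, w96, w97, w100, w101, w102, w103,
    w106, w107, w108, w109, w112, w113, w114, w115, w118, w119, w120, w121, w122, w123, w124,
    w125, w126, w127, w128, w129, w130, w131, w132, w133, w134, w135, w136, w137, w138, w141,
    w144, w147, w150, w153, w156, w159, w162, w165, w168, w171, w174, w177, w180] →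
    Concl 67435722 [m29, m28, m27, m26, m25, m24, m23, m22, m21, m20, m19, m18, m17, m16, m15,
    m14, m13, m12, m11, m10, m9, m8, m7, m6, m5, m4, m3, m2, m1, w0, w1, w2, w3, w4, w5, w6, w7,
    w8, w9, w10, w11, w12, w13, w14, w15, w16, w17, w18, w19, w20, w21, w22, w23, w24, w25, w26,
    w27, w28, w29, w30, w31, w34, w35, w36, w37, w40, w41, w42, w43, w46, w47, w48, w49, w52,
    w53, w54, w55, w58, w59, w60, w61, w64, w65, w66, w67, w70, w71, w72, w73, w76, w77, w78,
    w79, w82, w83, w84, w85, w88, w89, w90, w91, w94, w95, w96, w97, w100, w101, w102, w103,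
    w106, w107, w108, w109, w112, w113, w114, w115, w118, w119, w120, w121, w122, w123, w124,
    w125, w126, w127, w128, w129, w130, w131, w132, w133, w134, w135, w136, w137, w138, w141,
    w144, w147, w150, w153, w156, w159, w162, w165, w168, w171, w174, w177, w180] :=
  next (i := 135) (j := 135) rfl rfl s30 c31

theorem c29 : Valid [m28, m27, m26, m25, m24, m23, m22, m21, m20, m19, m18, m17, m16, m15, m14,
    m13, m12, m11, m10, m9, m8, m7, m6, m5, m4, m3, m2, m1, w0, w1, w2, w3, w4, w5, w6, w7, w8,
    w9, w10, w11, w12, w13, w14, w15, w16, w17, w18, w19, w20, w21, w22, w23, w24, w25, w26, w27,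
    w28, w29, w30, w31, w32, w33, w34, w35, w36, w37, w40, w41, w42, w43, w46, w47, w48, w49,
    w52, w53, w54, w55, w58, w59, w60, w61, w64, w65, w66, w67, w70, w71, w72, w73, w76, w77,
    w78, w79, w82, w83, w84, w85, w88, w89, w90, w91, w94, w95, w96, w97, w100, w101, w102, w103,
    w106, w107, w108, w109, w112, w113, w114, w115, w118, w119, w120, w121, w122, w123, w124,
    w125, w126, w127, w128, w129, w130, w131, w132, w133, w134, w135, w136, w137, w138, w141,
    w144, w147, w150, w153, w156, w159, w162, w165, w168, w171, w174, w177, w180] →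
    Concl 67435722 [m28, m27, m26, m25, m24, m23, m22, m21, m20, m19, m18, m17, m16, m15, m14,
    m13, m12, m11, m10, m9, m8, m7, m6, m5, m4, m3, m2, m1, w0, w1, w2, w3, w4, w5, w6, w7, w8,
    w9, w10, w11, w12, w13, w14, w15, w16, w17, w18, w19, w20, w21, w22, w23, w24, w25, w26, w27,
    w28, w29, w30, w31, w32, w33, w34, w35, w36, w37, w40, w41, w42, w43, w46, w47, w48, w49,
    w52, w53, w54, w55, w58, w59, w60, w61, w64, w65, w66, w67, w70, w71, w72, w73, w76, w77,
    w78, w79, w82, w83, w84, w85, w88, w89, w90, w91, w94, w95, w96, w97, w100, w101, w102, w103,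
    w106, w107, w108, w109, w112, w113, w114, w115, w118, w119, w120, w121, w122, w123, w124,
    w125, w126, w127, w128, w129, w130, w131, w132, w133, w134, w135, w136, w137, w138, w141,
    w144, w147, w150, w153, w156, w159, w162, w165, w168, w171, w174, w177, w180] :=
  next (i := 60) (j := 60) rfl rfl s29 c30

theorem c28 : Valid [m27, m26, m25, m24, m23, m22, m21, m20, m19, m18, m17, m16, m15, m14, m13,
    m12, m11, m10, m9, m8, m7, m6, m5, m4, m3, m2, m1, w0, w1, w2, w3, w4, w5, w6, w7, w8, w9,
    w10, w11, w12, w13, w14, w15, w16, w17, w18, w19, w20, w21, w22, w23, w24, w25, w26, w27,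
    w28, w29, w30, w31, w32, w33, w34, w35, w36, w37, w40, w41, w42, w43, w46, w47, w48, w49,
    w52, w53, w54, w55, w58, w59, w60, w61, w64, w65, w66, w67, w70, w71, w72, w73, w76, w77,
    w78, w79, w82, w83, w84, w85, w88, w89, w90, w91, w94, w95, w96, w97, w100, w101, w102, w103,
    w106, w107, w108, w109, w112, w113, w114, w115, w118, w119, w120, w121, w122, w123, w124,
    w125, w126, w127, w128, w129, w130, w131, w132, w133, w134, w135, w136, w137, w138, w139,
    w140, w141, w144, w147, w150, w153, w156, w159, w162, w165, w168, w171, w174, w177, w180] →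
    Concl 67435722 [m27, m26, m25, m24, m23, m22, m21, m20, m19, m18, m17, m16, m15, m14, m13,
    m12, m11, m10, m9, m8, m7, m6, m5, m4, m3, m2, m1, w0, w1, w2, w3, w4, w5, w6, w7, w8, w9,
    w10, w11, w12, w13, w14, w15, w16, w17, w18, w19, w20, w21, w22, w23, w24, w25, w26, w27,
    w28, w29, w30, w31, w32, w33, w34, w35, w36, w37, w40, w41, w42, w43, w46, w47, w48, w49,
    w52, w53, w54, w55, w58, w59, w60, w61, w64, w65, w66, w67, w70, w71, w72, w73, w76, w77,
    w78, w79, w82, w83, w84, w85, w88, w89, w90, w91, w94, w95, w96, w97, w100, w101, w102, w103,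
    w106, w107, w108, w109, w112, w113, w114, w115, w118, w119, w120, w121, w122, w123, w124,
    w125, w126, w127, w128, w129, w130, w131, w132, w133, w134, w135, w136, w137, w138, w139,
    w140, w141, w144, w147, w150, w153, w156, w159, w162, w165, w168, w171, w174, w177, w180] :=
  next (i := 138) (j := 138) rfl rfl s28 c29

theorem c27 : Valid [m26, m25, m24, m23, m22, m21, m20, m19, m18, m17, m16, m15, m14, m13, m12,
    m11, m10, m9, m8, m7, m6, m5, m4, m3, m2, m1, w0, w1, w2, w3, w4, w5, w6, w7, w8, w9, w10,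
    w11, w12, w13, w14, w15, w16, w17, w18, w19, w20, w21, w22, w23, w24, w25, w26, w27, w28,
    w29, w30, w31, w32, w33, w34, w35, w36, w37, w38, w39, w40, w41, w42, w43, w46, w47, w48,
    w49, w52, w53, w54, w55, w58, w59, w60, w61, w64, w65, w66, w67, w70, w71, w72, w73, w76,
    w77, w78, w79, w82, w83, w84, w85, w88, w89, w90, w91, w94, w95, w96, w97, w100, w101, w102,
    w103, w106, w107, w108, w109, w112, w113, w114, w115, w118, w119, w120, w121, w122, w123,
    w124, w125, w126, w127, w128, w129, w130, w131, w132, w133, w134, w135, w136, w137, w138,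
    w139, w140, w141, w144, w147, w150, w153, w156, w159, w162, w165, w168, w171, w174, w177,
    w180] →
    Concl 67435722 [m26, m25, m24, m23, m22, m21, m20, m19, m18, m17, m16, m15, m14, m13, m12,
    m11, m10, m9, m8, m7, m6, m5, m4, m3, m2, m1, w0, w1, w2, w3, w4, w5, w6, w7, w8, w9, w10,
    w11, w12, w13, w14, w15, w16, w17, w18, w19, w20, w21, w22, w23, w24, w25, w26, w27, w28,
    w29, w30, w31, w32, w33, w34, w35, w36, w37, w38, w39, w40, w41, w42, w43, w46, w47, w48,
    w49, w52, w53, w54, w55, w58, w59, w60, w61, w64, w65, w66, w67, w70, w71, w72, w73, w76,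
    w77, w78, w79, w82, w83, w84, w85, w88, w89, w90, w91, w94, w95, w96, w97, w100, w101, w102,
    w103, w106, w107, w108, w109, w112, w113, w114, w115, w118, w119, w120, w121, w122, w123,
    w124, w125, w126, w127, w128, w129, w130, w131, w132, w133, w134, w135, w136, w137, w138,
    w139, w140, w141, w144, w147, w150, w153, w156, w159, w162, w165, w168, w171, w174, w177,
    w180] :=
  next (i := 64) (j := 64) rfl rfl s27 c28

theorem c26 : Valid [m25, m24, m23, m22, m21, m20, m19, m18, m17, m16, m15, m14, m13, m12, m11,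
    m10, m9, m8, m7, m6, m5, m4, m3, m2, m1, w0, w1, w2, w3, w4, w5, w6, w7, w8, w9, w10, w11,
    w12, w13, w14, w15, w16, w17, w18, w19, w20, w21, w22, w23, w24, w25, w26, w27, w28, w29,
    w30, w31, w32, w33, w34, w35, w36, w37, w38, w39, w40, w41, w42, w43, w46, w47, w48, w49,
    w52, w53, w54, w55, w58, w59, w60, w61, w64, w65, w66, w67, w70, w71, w72, w73, w76, w77,
    w78, w79, w82, w83, w84, w85, w88, w89, w90, w91, w94, w95, w96, w97, w100, w101, w102, w103,
    w106, w107, w108, w109, w112, w113, w114, w115, w118, w119, w120, w121, w122, w123, w124,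
    w125, w126, w127, w128, w129, w130, w131, w132, w133, w134, w135, w136, w137, w138, w139,
    w140, w141, w142, w143, w144, w147, w150, w153, w156, w159, w162, w165, w168, w171, w174,
    w177, w180] →
    Concl 67435722 [m25, m24, m23, m22, m21, m20, m19, m18, m17, m16, m15, m14, m13, m12, m11,
    m10, m9, m8, m7, m6, m5, m4, m3, m2, m1, w0, w1, w2, w3, w4, w5, w6, w7, w8, w9, w10, w11,
    w12, w13, w14, w15, w16, w17, w18, w19, w20, w21, w22, w23, w24, w25, w26, w27, w28, w29,
    w30, w31, w32, w33, w34, w35, w36, w37, w38, w39, w40, w41, w42, w43, w46, w47, w48, w49,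
    w52, w53, w54, w55, w58, w59, w60, w61, w64, w65, w66, w67, w70, w71, w72, w73, w76, w77,
    w78, w79, w82, w83, w84, w85, w88, w89, w90, w91, w94, w95, w96, w97, w100, w101, w102, w103,
    w106, w107, w108, w109, w112, w113, w114, w115, w118, w119, w120, w121, w122, w123, w124,
    w125, w126, w127, w128, w129, w130, w131, w132, w133, w134, w135, w136, w137, w138, w139,
    w140, w141, w142, w143, w144, w147, w150, w153, w156, w159, w162, w165, w168, w171, w174,
    w177, w180] :=
  next (i := 141) (j := 141) rfl rfl s26 c27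

theorem c25 : Valid [m24, m23, m22, m21, m20, m19, m18, m17, m16, m15, m14, m13, m12, m11, m10,
    m9, m8, m7, m6, m5, m4, m3, m2, m1, w0, w1, w2, w3, w4, w5, w6, w7, w8, w9, w10, w11, w12,
    w13, w14, w15, w16, w17, w18, w19, w20, w21, w22, w23, w24, w25, w26, w27, w28, w29, w30,
    w31, w32, w33, w34, w35, w36, w37, w38, w39, w40, w41, w42, w43, w44, w45, w46, w47, w48,
    w49, w52, w53, w54, w55, w58, w59, w60, w61, w64, w65, w66, w67, w70, w71, w72, w73, w76,
    w77, w78, w79, w82, w83, w84, w85, w88, w89, w90, w91, w94, w95, w96, w97, w100, w101, w102,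
    w103, w106, w107, w108, w109, w112, w113, w114, w115, w118, w119, w120, w121, w122, w123,
    w124, w125, w126, w127, w128, w129, w130, w131, w132, w133, w134, w135, w136, w137, w138,
    w139, w140, w141, w142, w143, w144, w147, w150, w153, w156, w159, w162, w165, w168, w171,
    w174, w177, w180] →
    Concl 67435722 [m24, m23, m22, m21, m20, m19, m18, m17, m16, m15, m14, m13, m12, m11, m10,
    m9, m8, m7, m6, m5, m4, m3, m2, m1, w0, w1, w2, w3, w4, w5, w6, w7, w8, w9, w10, w11, w12,
    w13, w14, w15, w16, w17, w18, w19, w20, w21, w22, w23, w24, w25, w26, w27, w28, w29, w30,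
    w31, w32, w33, w34, w35, w36, w37, w38, w39, w40, w41, w42, w43, w44, w45, w46, w47, w48,
    w49, w52, w53, w54, w55, w58, w59, w60, w61, w64, w65, w66, w67, w70, w71, w72, w73, w76,
    w77, w78, w79, w82, w83, w84, w85, w88, w89, w90, w91, w94, w95, w96, w97, w100, w101, w102,
    w103, w106, w107, w108, w109, w112, w113, w114, w115, w118, w119, w120, w121, w122, w123,
    w124, w125, w126, w127, w128, w129, w130, w131, w132, w133, w134, w135, w136, w137, w138,
    w139, w140, w141, w142, w143, w144, w147, w150, w153, w156, w159, w162, w165, w168, w171,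
    w174, w177, w180] :=
  next (i := 68) (j := 68) rfl rfl s25 c26

theorem c24 : Valid [m23, m22, m21, m20, m19, m18, m17, m16, m15, m14, m13, m12, m11, m10, m9,
    m8, m7, m6, m5, m4, m3, m2, m1, w0, w1, w2, w3, w4, w5, w6, w7, w8, w9, w10, w11, w12, w13,
    w14, w15, w16, w17, w18, w19, w20, w21, w22, w23, w24, w25, w26, w27, w28, w29, w30, w31,
    w32, w33, w34, w35, w36, w37, w38, w39, w40, w41, w42, w43, w44, w45, w46, w47, w48, w49,
    w52, w53, w54, w55, w58, w59, w60, w61, w64, w65, w66, w67, w70, w71, w72, w73, w76, w77,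
    w78, w79, w82, w83, w84, w85, w88, w89, w90, w91, w94, w95, w96, w97, w100, w101, w102, w103,
    w106, w107, w108, w109, w112, w113, w114, w115, w118, w119, w120, w121, w122, w123, w124,
    w125, w126, w127, w128, w129, w130, w131, w132, w133, w134, w135, w136, w137, w138, w139,
    w140, w141, w142, w143, w144, w145, w146, w147, w150, w153, w156, w159, w162, w165, w168,
    w171, w174, w177, w180] →
    Concl 67435722 [m23, m22, m21, m20, m19, m18, m17, m16, m15, m14, m13, m12, m11, m10, m9, m8,
    m7, m6, m5, m4, m3, m2, m1, w0, w1, w2, w3, w4, w5, w6, w7, w8, w9, w10, w11, w12, w13, w14,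
    w15, w16, w17, w18, w19, w20, w21, w22, w23, w24, w25, w26, w27, w28, w29, w30, w31, w32,
    w33, w34, w35, w36, w37, w38, w39, w40, w41, w42, w43, w44, w45, w46, w47, w48, w49, w52,
    w53, w54, w55, w58, w59, w60, w61, w64, w65, w66, w67, w70, w71, w72, w73, w76, w77, w78,
    w79, w82, w83, w84, w85, w88, w89, w90, w91, w94, w95, w96, w97, w100, w101, w102, w103,
    w106, w107, w108, w109, w112, w113, w114, w115, w118, w119, w120, w121, w122, w123, w124,
    w125, w126, w127, w128, w129, w130, w131, w132, w133, w134, w135, w136, w137, w138, w139,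
    w140, w141, w142, w143, w144, w145, w146, w147, w150, w153, w156, w159, w162, w165, w168,
    w171, w174, w177, w180] :=
  next (i := 144) (j := 144) rfl rfl s24 c25

theorem c23 : Valid [m22, m21, m20, m19, m18, m17, m16, m15, m14, m13, m12, m11, m10, m9, m8, m7,
    m6, m5, m4, m3, m2, m1, w0, w1, w2, w3, w4, w5, w6, w7, w8, w9, w10, w11, w12, w13, w14, w15,
    w16, w17, w18, w19, w20, w21, w22, w23, w24, w25, w26, w27, w28, w29, w30, w31, w32, w33,
    w34, w35, w36, w37, w38, w39, w40, w41, w42, w43, w44, w45, w46, w47, w48, w49, w50, w51,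
    w52, w53, w54, w55, w58, w59, w60, w61, w64, w65, w66, w67, w70, w71, w72, w73, w76, w77,
    w78, w79, w82, w83, w84, w85, w88, w89, w90, w91, w94, w95, w96, w97, w100, w101, w102, w103,
    w106, w107, w108, w109, w112, w113, w114, w115, w118, w119, w120, w121, w122, w123, w124,
    w125, w126, w127, w128, w129, w130, w131, w132, w133, w134, w135, w136, w137, w138, w139,
    w140, w141, w142, w143, w144, w145, w146, w147, w150, w153, w156, w159, w162, w165, w168,
    w171, w174, w177, w180] →
    Concl 67435722 [m22, m21, m20, m19, m18, m17, m16, m15, m14, m13, m12, m11, m10, m9, m8, m7,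
    m6, m5, m4, m3, m2, m1, w0, w1, w2, w3, w4, w5, w6, w7, w8, w9, w10, w11, w12, w13, w14, w15,
    w16, w17, w18, w19, w20, w21, w22, w23, w24, w25, w26, w27, w28, w29, w30, w31, w32, w33,
    w34, w35, w36, w37, w38, w39, w40, w41, w42, w43, w44, w45, w46, w47, w48, w49, w50, w51,
    w52, w53, w54, w55, w58, w59, w60, w61, w64, w65, w66, w67, w70, w71, w72, w73, w76, w77,
    w78, w79, w82, w83, w84, w85, w88, w89, w90, w91, w94, w95, w96, w97, w100, w101, w102, w103,
    w106, w107, w108, w109, w112, w113, w114, w115, w118, w119, w120, w121, w122, w123, w124,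
    w125, w126, w127, w128, w129, w130, w131, w132, w133, w134, w135, w136, w137, w138, w139,
    w140, w141, w142, w143, w144, w145, w146, w147, w150, w153, w156, w159, w162, w165, w168,
    w171, w174, w177, w180] :=
  next (i := 72) (j := 72) rfl rfl s23 c24

theorem c22 : Valid [m21, m20, m19, m18, m17, m16, m15, m14, m13, m12, m11, m10, m9, m8, m7, m6,
    m5, m4, m3, m2, m1, w0, w1, w2, w3, w4, w5, w6, w7, w8, w9, w10, w11, w12, w13, w14, w15,
    w16, w17, w18, w19, w20, w21, w22, w23, w24, w25, w26, w27, w28, w29, w30, w31, w32, w33,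
    w34, w35, w36, w37, w38, w39, w40, w41, w42, w43, w44, w45, w46, w47, w48, w49, w50, w51,
    w52, w53, w54, w55, w58, w59, w60, w61, w64, w65, w66, w67, w70, w71, w72, w73, w76, w77,
    w78, w79, w82, w83, w84, w85, w88, w89, w90, w91, w94, w95, w96, w97, w100, w101, w102, w103,
    w106, w107, w108, w109, w112, w113, w114, w115, w118, w119, w120, w121, w122, w123, w124,
    w125, w126, w127, w128, w129, w130, w131, w132, w133, w134, w135, w136, w137, w138, w139,
    w140, w141, w142, w143, w144, w145, w146, w147, w148, w149, w150, w153, w156, w159, w162,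
    w165, w168, w171, w174, w177, w180] →
    Concl 67435722 [m21, m20, m19, m18, m17, m16, m15, m14, m13, m12, m11, m10, m9, m8, m7, m6,
    m5, m4, m3, m2, m1, w0, w1, w2, w3, w4, w5, w6, w7, w8, w9, w10, w11, w12, w13, w14, w15,
    w16, w17, w18, w19, w20, w21, w22, w23, w24, w25, w26, w27, w28, w29, w30, w31, w32, w33,
    w34, w35, w36, w37, w38, w39, w40, w41, w42, w43, w44, w45, w46, w47, w48, w49, w50, w51,
    w52, w53, w54, w55, w58, w59, w60, w61, w64, w65, w66, w67, w70, w71, w72, w73, w76, w77,
    w78, w79, w82, w83, w84, w85, w88, w89, w90, w91, w94, w95, w96, w97, w100, w101, w102, w103,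
    w106, w107, w108, w109, w112, w113, w114, w115, w118, w119, w120, w121, w122, w123, w124,
    w125, w126, w127, w128, w129, w130, w131, w132, w133, w134, w135, w136, w137, w138, w139,
    w140, w141, w142, w143, w144, w145, w146, w147, w148, w149, w150, w153, w156, w159, w162,
    w165, w168, w171, w174, w177, w180] :=
  next (i := 147) (j := 147) rfl rfl s22 c23

theorem c21 : Valid [m20, m19, m18, m17, m16, m15, m14, m13, m12, m11, m10, m9, m8, m7, m6, m5,
    m4, m3, m2, m1, w0, w1, w2, w3, w4, w5, w6, w7, w8, w9, w10, w11, w12, w13, w14, w15, w16,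
    w17, w18, w19, w20, w21, w22, w23, w24, w25, w26, w27, w28, w29, w30, w31, w32, w33, w34,
    w35, w36, w37, w38, w39, w40, w41, w42, w43, w44, w45, w46, w47, w48, w49, w50, w51, w52,
    w53, w54, w55, w56, w57, w58, w59, w60, w61, w64, w65, w66, w67, w70, w71, w72, w73, w76,
    w77, w78, w79, w82, w83, w84, w85, w88, w89, w90, w91, w94, w95, w96, w97, w100, w101, w102,
    w103, w106, w107, w108, w109, w112, w113, w114, w115, w118, w119, w120, w121, w122, w123,
    w124, w125, w126, w127, w128, w129, w130, w131, w132, w133, w134, w135, w136, w137, w138,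
    w139, w140, w141, w142, w143, w144, w145, w146, w147, w148, w149, w150, w153, w156, w159,
    w162, w165, w168, w171, w174, w177, w180] →
    Concl 67435722 [m20, m19, m18, m17, m16, m15, m14, m13, m12, m11, m10, m9, m8, m7, m6, m5,
    m4, m3, m2, m1, w0, w1, w2, w3, w4, w5, w6, w7, w8, w9, w10, w11, w12, w13, w14, w15, w16,
    w17, w18, w19, w20, w21, w22, w23, w24, w25, w26, w27, w28, w29, w30, w31, w32, w33, w34,
    w35, w36, w37, w38, w39, w40, w41, w42, w43, w44, w45, w46, w47, w48, w49, w50, w51, w52,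
    w53, w54, w55, w56, w57, w58, w59, w60, w61, w64, w65, w66, w67, w70, w71, w72, w73, w76,
    w77, w78, w79, w82, w83, w84, w85, w88, w89, w90, w91, w94, w95, w96, w97, w100, w101, w102,
    w103, w106, w107, w108, w109, w112, w113, w114, w115, w118, w119, w120, w121, w122, w123,
    w124, w125, w126, w127, w128, w129, w130, w131, w132, w133, w134, w135, w136, w137, w138,
    w139, w140, w141, w142, w143, w144, w145, w146, w147, w148, w149, w150, w153, w156, w159,
    w162, w165, w168, w171, w174, w177, w180] :=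
  next (i := 76) (j := 76) rfl rfl s21 c22

theorem c20 : Valid [m19, m18, m17, m16, m15, m14, m13, m12, m11, m10, m9, m8, m7, m6, m5, m4,
    m3, m2, m1, w0, w1, w2, w3, w4, w5, w6, w7, w8, w9, w10, w11, w12, w13, w14, w15, w16, w17,
    w18, w19, w20, w21, w22, w23, w24, w25, w26, w27, w28, w29, w30, w31, w32, w33, w34, w35,
    w36, w37, w38, w39, w40, w41, w42, w43, w44, w45, w46, w47, w48, w49, w50, w51, w52, w53,
    w54, w55, w56, w57, w58, w59, w60, w61, w64, w65, w66, w67, w70, w71, w72, w73, w76, w77,
    w78, w79, w82, w83, w84, w85, w88, w89, w90, w91, w94, w95, w96, w97, w100, w101, w102, w103,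
    w106, w107, w108, w109, w112, w113, w114, w115, w118, w119, w120, w121, w122, w123, w124,
    w125, w126, w127, w128, w129, w130, w131, w132, w133, w134, w135, w136, w137, w138, w139,
    w140, w141, w142, w143, w144, w145, w146, w147, w148, w149, w150, w151, w152, w153, w156,
    w159, w162, w165, w168, w171, w174, w177, w180] →
    Concl 67435722 [m19, m18, m17, m16, m15, m14, m13, m12, m11, m10, m9, m8, m7, m6, m5, m4, m3,
    m2, m1, w0, w1, w2, w3, w4, w5, w6, w7, w8, w9, w10, w11, w12, w13, w14, w15, w16, w17, w18,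
    w19, w20, w21, w22, w23, w24, w25, w26, w27, w28, w29, w30, w31, w32, w33, w34, w35, w36,
    w37, w38, w39, w40, w41, w42, w43, w44, w45, w46, w47, w48, w49, w50, w51, w52, w53, w54,
    w55, w56, w57, w58, w59, w60, w61, w64, w65, w66, w67, w70, w71, w72, w73, w76, w77, w78,
    w79, w82, w83, w84, w85, w88, w89, w90, w91, w94, w95, w96, w97, w100, w101, w102, w103,
    w106, w107, w108, w109, w112, w113, w114, w115, w118, w119, w120, w121, w122, w123, w124,
    w125, w126, w127, w128, w129, w130, w131, w132, w133, w134, w135, w136, w137, w138, w139,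
    w140, w141, w142, w143, w144, w145, w146, w147, w148, w149, w150, w151, w152, w153, w156,
    w159, w162, w165, w168, w171, w174, w177, w180] :=
  next (i := 150) (j := 150) rfl rfl s20 c21

theorem c19 : Valid [m18, m17, m16, m15, m14, m13, m12, m11, m10, m9, m8, m7, m6, m5, m4, m3, m2,
    m1, w0, w1, w2, w3, w4, w5, w6, w7, w8, w9, w10, w11, w12, w13, w14, w15, w16, w17, w18, w19,
    w20, w21, w22, w23, w24, w25, w26, w27, w28, w29, w30, w31, w32, w33, w34, w35, w36, w37,
    w38, w39, w40, w41, w42, w43, w44, w45, w46, w47, w48, w49, w50, w51, w52, w53, w54, w55,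
    w56, w57, w58, w59, w60, w61, w62, w63, w64, w65, w66, w67, w70, w71, w72, w73, w76, w77,
    w78, w79, w82, w83, w84, w85, w88, w89, w90, w91, w94, w95, w96, w97, w100, w101, w102, w103,
    w106, w107, w108, w109, w112, w113, w114, w115, w118, w119, w120, w121, w122, w123, w124,
    w125, w126, w127, w128, w129, w130, w131, w132, w133, w134, w135, w136, w137, w138, w139,
    w140, w141, w142, w143, w144, w145, w146, w147, w148, w149, w150, w151, w152, w153, w156,
    w159, w162, w165, w168, w171, w174, w177, w180] →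
    Concl 67435722 [m18, m17, m16, m15, m14, m13, m12, m11, m10, m9, m8, m7, m6, m5, m4, m3, m2,
    m1, w0, w1, w2, w3, w4, w5, w6, w7, w8, w9, w10, w11, w12, w13, w14, w15, w16, w17, w18, w19,
    w20, w21, w22, w23, w24, w25, w26, w27, w28, w29, w30, w31, w32, w33, w34, w35, w36, w37,
    w38, w39, w40, w41, w42, w43, w44, w45, w46, w47, w48, w49, w50, w51, w52, w53, w54, w55,
    w56, w57, w58, w59, w60, w61, w62, w63, w64, w65, w66, w67, w70, w71, w72, w73, w76, w77,
    w78, w79, w82, w83, w84, w85, w88, w89, w90, w91, w94, w95, w96, w97, w100, w101, w102, w103,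
    w106, w107, w108, w109, w112, w113, w114, w115, w118, w119, w120, w121, w122, w123, w124,
    w125, w126, w127, w128, w129, w130, w131, w132, w133, w134, w135, w136, w137, w138, w139,
    w140, w141, w142, w143, w144, w145, w146, w147, w148, w149, w150, w151, w152, w153, w156,
    w159, w162, w165, w168, w171, w174, w177, w180] :=
  next (i := 80) (j := 80) rfl rfl s19 c20

theorem c18 : Valid [m17, m16, m15, m14, m13, m12, m11, m10, m9, m8, m7, m6, m5, m4, m3, m2, m1,
    w0, w1, w2, w3, w4, w5, w6, w7, w8, w9, w10, w11, w12, w13, w14, w15, w16, w17, w18, w19,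
    w20, w21, w22, w23, w24, w25, w26, w27, w28, w29, w30, w31, w32, w33, w34, w35, w36, w37,
    w38, w39, w40, w41, w42, w43, w44, w45, w46, w47, w48, w49, w50, w51, w52, w53, w54, w55,
    w56, w57, w58, w59, w60, w61, w62, w63, w64, w65, w66, w67, w70, w71, w72, w73, w76, w77,
    w78, w79, w82, w83, w84, w85, w88, w89, w90, w91, w94, w95, w96, w97, w100, w101, w102, w103,
    w106, w107, w108, w109, w112, w113, w114, w115, w118, w119, w120, w121, w122, w123, w124,
    w125, w126, w127, w128, w129, w130, w131, w132, w133, w134, w135, w136, w137, w138, w139,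
    w140, w141, w142, w143, w144, w145, w146, w147, w148, w149, w150, w151, w152, w153, w154,
    w155, w156, w159, w162, w165, w168, w171, w174, w177, w180] →
    Concl 67435722 [m17, m16, m15, m14, m13, m12, m11, m10, m9, m8, m7, m6, m5, m4, m3, m2, m1,
    w0, w1, w2, w3, w4, w5, w6, w7, w8, w9, w10, w11, w12, w13, w14, w15, w16, w17, w18, w19,
    w20, w21, w22, w23, w24, w25, w26, w27, w28, w29, w30, w31, w32, w33, w34, w35, w36, w37,
    w38, w39, w40, w41, w42, w43, w44, w45, w46, w47, w48, w49, w50, w51, w52, w53, w54, w55,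
    w56, w57, w58, w59, w60, w61, w62, w63, w64, w65, w66, w67, w70, w71, w72, w73, w76, w77,
    w78, w79, w82, w83, w84, w85, w88, w89, w90, w91, w94, w95, w96, w97, w100, w101, w102, w103,
    w106, w107, w108, w109, w112, w113, w114, w115, w118, w119, w120, w121, w122, w123, w124,
    w125, w126, w127, w128, w129, w130, w131, w132, w133, w134, w135, w136, w137, w138, w139,
    w140, w141, w142, w143, w144, w145, w146, w147, w148, w149, w150, w151, w152, w153, w154,
    w155, w156, w159, w162, w165, w168, w171, w174, w177, w180] :=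
  next (i := 153) (j := 153) rfl rfl s18 c19

theorem c17 : Valid [m16, m15, m14, m13, m12, m11, m10, m9, m8, m7, m6, m5, m4, m3, m2, m1, w0,
    w1, w2, w3, w4, w5, w6, w7, w8, w9, w10, w11, w12, w13, w14, w15, w16, w17, w18, w19, w20,
    w21, w22, w23, w24, w25, w26, w27, w28, w29, w30, w31, w32, w33, w34, w35, w36, w37, w38,
    w39, w40, w41, w42, w43, w44, w45, w46, w47, w48, w49, w50, w51, w52, w53, w54, w55, w56,
    w57, w58, w59, w60, w61, w62, w63, w64, w65, w66, w67, w68, w69, w70, w71, w72, w73, w76,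
    w77, w78, w79, w82, w83, w84, w85, w88, w89, w90, w91, w94, w95, w96, w97, w100, w101, w102,
    w103, w106, w107, w108, w109, w112, w113, w114, w115, w118, w119, w120, w121, w122, w123,
    w124, w125, w126, w127, w128, w129, w130, w131, w132, w133, w134, w135, w136, w137, w138,
    w139, w140, w141, w142, w143, w144, w145, w146, w147, w148, w149, w150, w151, w152, w153,
    w154, w155, w156, w159, w162, w165, w168, w171, w174, w177, w180] →
    Concl 67435722 [m16, m15, m14, m13, m12, m11, m10, m9, m8, m7, m6, m5, m4, m3, m2, m1, w0,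
    w1, w2, w3, w4, w5, w6, w7, w8, w9, w10, w11, w12, w13, w14, w15, w16, w17, w18, w19, w20,
    w21, w22, w23, w24, w25, w26, w27, w28, w29, w30, w31, w32, w33, w34, w35, w36, w37, w38,
    w39, w40, w41, w42, w43, w44, w45, w46, w47, w48, w49, w50, w51, w52, w53, w54, w55, w56,
    w57, w58, w59, w60, w61, w62, w63, w64, w65, w66, w67, w68, w69, w70, w71, w72, w73, w76,
    w77, w78, w79, w82, w83, w84, w85, w88, w89, w90, w91, w94, w95, w96, w97, w100, w101, w102,
    w103, w106, w107, w108, w109, w112, w113, w114, w115, w118, w119, w120, w121, w122, w123,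
    w124, w125, w126, w127, w128, w129, w130, w131, w132, w133, w134, w135, w136, w137, w138,
    w139, w140, w141, w142, w143, w144, w145, w146, w147, w148, w149, w150, w151, w152, w153,
    w154, w155, w156, w159, w162, w165, w168, w171, w174, w177, w180] :=
  next (i := 84) (j := 84) rfl rfl s17 c18

theorem c16 : Valid [m15, m14, m13, m12, m11, m10, m9, m8, m7, m6, m5, m4, m3, m2, m1, w0, w1,
    w2, w3, w4, w5, w6, w7, w8, w9, w10, w11, w12, w13, w14, w15, w16, w17, w18, w19, w20, w21,
    w22, w23, w24, w25, w26, w27, w28, w29, w30, w31, w32, w33, w34, w35, w36, w37, w38, w39,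
    w40, w41, w42, w43, w44, w45, w46, w47, w48, w49, w50, w51, w52, w53, w54, w55, w56, w57,
    w58, w59, w60, w61, w62, w63, w64, w65, w66, w67, w68, w69, w70, w71, w72, w73, w76, w77,
    w78, w79, w82, w83, w84, w85, w88, w89, w90, w91, w94, w95, w96, w97, w100, w101, w102, w103,
    w106, w107, w108, w109, w112, w113, w114, w115, w118, w119, w120, w121, w122, w123, w124,
    w125, w126, w127, w128, w129, w130, w131, w132, w133, w134, w135, w136, w137, w138, w139,
    w140, w141, w142, w143, w144, w145, w146, w147, w148, w149, w150, w151, w152, w153, w154,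
    w155, w156, w157, w158, w159, w162, w165, w168, w171, w174, w177, w180] →
    Concl 67435722 [m15, m14, m13, m12, m11, m10, m9, m8, m7, m6, m5, m4, m3, m2, m1, w0, w1, w2,
    w3, w4, w5, w6, w7, w8, w9, w10, w11, w12, w13, w14, w15, w16, w17, w18, w19, w20, w21, w22,
    w23, w24, w25, w26, w27, w28, w29, w30, w31, w32, w33, w34, w35, w36, w37, w38, w39, w40,
    w41, w42, w43, w44, w45, w46, w47, w48, w49, w50, w51, w52, w53, w54, w55, w56, w57, w58,
    w59, w60, w61, w62, w63, w64, w65, w66, w67, w68, w69, w70, w71, w72, w73, w76, w77, w78,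
    w79, w82, w83, w84, w85, w88, w89, w90, w91, w94, w95, w96, w97, w100, w101, w102, w103,
    w106, w107, w108, w109, w112, w113, w114, w115, w118, w119, w120, w121, w122, w123, w124,
    w125, w126, w127, w128, w129, w130, w131, w132, w133, w134, w135, w136, w137, w138, w139,
    w140, w141, w142, w143, w144, w145, w146, w147, w148, w149, w150, w151, w152, w153, w154,
    w155, w156, w157, w158, w159, w162, w165, w168, w171, w174, w177, w180] :=
  next (i := 156) (j := 156) rfl rfl s16 c17

theorem c15 : Valid [m14, m13, m12, m11, m10, m9, m8, m7, m6, m5, m4, m3, m2, m1, w0, w1, w2, w3,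
    w4, w5, w6, w7, w8, w9, w10, w11, w12, w13, w14, w15, w16, w17, w18, w19, w20, w21, w22, w23,
    w24, w25, w26, w27, w28, w29, w30, w31, w32, w33, w34, w35, w36, w37, w38, w39, w40, w41,
    w42, w43, w44, w45, w46, w47, w48, w49, w50, w51, w52, w53, w54, w55, w56, w57, w58, w59,
    w60, w61, w62, w63, w64, w65, w66, w67, w68, w69, w70, w71, w72, w73, w74, w75, w76, w77,
    w78, w79, w82, w83, w84, w85, w88, w89, w90, w91, w94, w95, w96, w97, w100, w101, w102, w103,
    w106, w107, w108, w109, w112, w113, w114, w115, w118, w119, w120, w121, w122, w123, w124,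
    w125, w126, w127, w128, w129, w130, w131, w132, w133, w134, w135, w136, w137, w138, w139,
    w140, w141, w142, w143, w144, w145, w146, w147, w148, w149, w150, w151, w152, w153, w154,
    w155, w156, w157, w158, w159, w162, w165, w168, w171, w174, w177, w180] →
    Concl 67435722 [m14, m13, m12, m11, m10, m9, m8, m7, m6, m5, m4, m3, m2, m1, w0, w1, w2, w3,
    w4, w5, w6, w7, w8, w9, w10, w11, w12, w13, w14, w15, w16, w17, w18, w19, w20, w21, w22, w23,
    w24, w25, w26, w27, w28, w29, w30, w31, w32, w33, w34, w35, w36, w37, w38, w39, w40, w41,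
    w42, w43, w44, w45, w46, w47, w48, w49, w50, w51, w52, w53, w54, w55, w56, w57, w58, w59,
    w60, w61, w62, w63, w64, w65, w66, w67, w68, w69, w70, w71, w72, w73, w74, w75, w76, w77,
    w78, w79, w82, w83, w84, w85, w88, w89, w90, w91, w94, w95, w96, w97, w100, w101, w102, w103,
    w106, w107, w108, w109, w112, w113, w114, w115, w118, w119, w120, w121, w122, w123, w124,
    w125, w126, w127, w128, w129, w130, w131, w132, w133, w134, w135, w136, w137, w138, w139,
    w140, w141, w142, w143, w144, w145, w146, w147, w148, w149, w150, w151, w152, w153, w154,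
    w155, w156, w157, w158, w159, w162, w165, w168, w171, w174, w177, w180] :=
  next (i := 88) (j := 88) rfl rfl s15 c16

theorem c14 : Valid [m13, m12, m11, m10, m9, m8, m7, m6, m5, m4, m3, m2, m1, w0, w1, w2, w3, w4,
    w5, w6, w7, w8, w9, w10, w11, w12, w13, w14, w15, w16, w17, w18, w19, w20, w21, w22, w23,
    w24, w25, w26, w27, w28, w29, w30, w31, w32, w33, w34, w35, w36, w37, w38, w39, w40, w41,
    w42, w43, w44, w45, w46, w47, w48, w49, w50, w51, w52, w53, w54, w55, w56, w57, w58, w59,
    w60, w61, w62, w63, w64, w65, w66, w67, w68, w69, w70, w71, w72, w73, w74, w75, w76, w77,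
    w78, w79, w82, w83, w84, w85, w88, w89, w90, w91, w94, w95, w96, w97, w100, w101, w102, w103,
    w106, w107, w108, w109, w112, w113, w114, w115, w118, w119, w120, w121, w122, w123, w124,
    w125, w126, w127, w128, w129, w130, w131, w132, w133, w134, w135, w136, w137, w138, w139,
    w140, w141, w142, w143, w144, w145, w146, w147, w148, w149, w150, w151, w152, w153, w154,
    w155, w156, w157, w158, w159, w160, w161, w162, w165, w168, w171, w174, w177, w180] →
    Concl 67435722 [m13, m12, m11, m10, m9, m8, m7, m6, m5, m4, m3, m2, m1, w0, w1, w2, w3, w4,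
    w5, w6, w7, w8, w9, w10, w11, w12, w13, w14, w15, w16, w17, w18, w19, w20, w21, w22, w23,
    w24, w25, w26, w27, w28, w29, w30, w31, w32, w33, w34, w35, w36, w37, w38, w39, w40, w41,
    w42, w43, w44, w45, w46, w47, w48, w49, w50, w51, w52, w53, w54, w55, w56, w57, w58, w59,
    w60, w61, w62, w63, w64, w65, w66, w67, w68, w69, w70, w71, w72, w73, w74, w75, w76, w77,
    w78, w79, w82, w83, w84, w85, w88, w89, w90, w91, w94, w95, w96, w97, w100, w101, w102, w103,
    w106, w107, w108, w109, w112, w113, w114, w115, w118, w119, w120, w121, w122, w123, w124,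
    w125, w126, w127, w128, w129, w130, w131, w132, w133, w134, w135, w136, w137, w138, w139,
    w140, w141, w142, w143, w144, w145, w146, w147, w148, w149, w150, w151, w152, w153, w154,
    w155, w156, w157, w158, w159, w160, w161, w162, w165, w168, w171, w174, w177, w180] :=
  next (i := 159) (j := 159) rfl rfl s14 c15

theorem c13 : Valid [m12, m11, m10, m9, m8, m7, m6, m5, m4, m3, m2, m1, w0, w1, w2, w3, w4, w5,
    w6, w7, w8, w9, w10, w11, w12, w13, w14, w15, w16, w17, w18, w19, w20, w21, w22, w23, w24,
    w25, w26, w27, w28, w29, w30, w31, w32, w33, w34, w35, w36, w37, w38, w39, w40, w41, w42,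
    w43, w44, w45, w46, w47, w48, w49, w50, w51, w52, w53, w54, w55, w56, w57, w58, w59, w60,
    w61, w62, w63, w64, w65, w66, w67, w68, w69, w70, w71, w72, w73, w74, w75, w76, w77, w78,
    w79, w80, w81, w82, w83, w84, w85, w88, w89, w90, w91, w94, w95, w96, w97, w100, w101, w102,
    w103, w106, w107, w108, w109, w112, w113, w114, w115, w118, w119, w120, w121, w122, w123,
    w124, w125, w126, w127, w128, w129, w130, w131, w132, w133, w134, w135, w136, w137, w138,
    w139, w140, w141, w142, w143, w144, w145, w146, w147, w148, w149, w150, w151, w152, w153,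
    w154, w155, w156, w157, w158, w159, w160, w161, w162, w165, w168, w171, w174, w177, w180] →
    Concl 67435722 [m12, m11, m10, m9, m8, m7, m6, m5, m4, m3, m2, m1, w0, w1, w2, w3, w4, w5,
    w6, w7, w8, w9, w10, w11, w12, w13, w14, w15, w16, w17, w18, w19, w20, w21, w22, w23, w24,
    w25, w26, w27, w28, w29, w30, w31, w32, w33, w34, w35, w36, w37, w38, w39, w40, w41, w42,
    w43, w44, w45, w46, w47, w48, w49, w50, w51, w52, w53, w54, w55, w56, w57, w58, w59, w60,
    w61, w62, w63, w64, w65, w66, w67, w68, w69, w70, w71, w72, w73, w74, w75, w76, w77, w78,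
    w79, w80, w81, w82, w83, w84, w85, w88, w89, w90, w91, w94, w95, w96, w97, w100, w101, w102,
    w103, w106, w107, w108, w109, w112, w113, w114, w115, w118, w119, w120, w121, w122, w123,
    w124, w125, w126, w127, w128, w129, w130, w131, w132, w133, w134, w135, w136, w137, w138,
    w139, w140, w141, w142, w143, w144, w145, w146, w147, w148, w149, w150, w151, w152, w153,
    w154, w155, w156, w157, w158, w159, w160, w161, w162, w165, w168, w171, w174, w177, w180] :=
  next (i := 92) (j := 92) rfl rfl s13 c14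

theorem c12 : Valid [m11, m10, m9, m8, m7, m6, m5, m4, m3, m2, m1, w0, w1, w2, w3, w4, w5, w6,
    w7, w8, w9, w10, w11, w12, w13, w14, w15, w16, w17, w18, w19, w20, w21, w22, w23, w24, w25,
    w26, w27, w28, w29, w30, w31, w32, w33, w34, w35, w36, w37, w38, w39, w40, w41, w42, w43,
    w44, w45, w46, w47, w48, w49, w50, w51, w52, w53, w54, w55, w56, w57, w58, w59, w60, w61,
    w62, w63, w64, w65, w66, w67, w68, w69, w70, w71, w72, w73, w74, w75, w76, w77, w78, w79,
    w80, w81, w82, w83, w84, w85, w88, w89, w90, w91, w94, w95, w96, w97, w100, w101, w102, w103,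
    w106, w107, w108, w109, w112, w113, w114, w115, w118, w119, w120, w121, w122, w123, w124,
    w125, w126, w127, w128, w129, w130, w131, w132, w133, w134, w135, w136, w137, w138, w139,
    w140, w141, w142, w143, w144, w145, w146, w147, w148, w149, w150, w151, w152, w153, w154,
    w155, w156, w157, w158, w159, w160, w161, w162, w163, w164, w165, w168, w171, w174, w177,
    w180] →
    Concl 67435722 [m11, m10, m9, m8, m7, m6, m5, m4, m3, m2, m1, w0, w1, w2, w3, w4, w5, w6, w7,
    w8, w9, w10, w11, w12, w13, w14, w15, w16, w17, w18, w19, w20, w21, w22, w23, w24, w25, w26,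
    w27, w28, w29, w30, w31, w32, w33, w34, w35, w36, w37, w38, w39, w40, w41, w42, w43, w44,
    w45, w46, w47, w48, w49, w50, w51, w52, w53, w54, w55, w56, w57, w58, w59, w60, w61, w62,
    w63, w64, w65, w66, w67, w68, w69, w70, w71, w72, w73, w74, w75, w76, w77, w78, w79, w80,
    w81, w82, w83, w84, w85, w88, w89, w90, w91, w94, w95, w96, w97, w100, w101, w102, w103,
    w106, w107, w108, w109, w112, w113, w114, w115, w118, w119, w120, w121, w122, w123, w124,
    w125, w126, w127, w128, w129, w130, w131, w132, w133, w134, w135, w136, w137, w138, w139,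
    w140, w141, w142, w143, w144, w145, w146, w147, w148, w149, w150, w151, w152, w153, w154,
    w155, w156, w157, w158, w159, w160, w161, w162, w163, w164, w165, w168, w171, w174, w177,
    w180] :=
  next (i := 162) (j := 162) rfl rfl s12 c13

theorem c11 : Valid [m10, m9, m8, m7, m6, m5, m4, m3, m2, m1, w0, w1, w2, w3, w4, w5, w6, w7, w8,
    w9, w10, w11, w12, w13, w14, w15, w16, w17, w18, w19, w20, w21, w22, w23, w24, w25, w26, w27,
    w28, w29, w30, w31, w32, w33, w34, w35, w36, w37, w38, w39, w40, w41, w42, w43, w44, w45,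
    w46, w47, w48, w49, w50, w51, w52, w53, w54, w55, w56, w57, w58, w59, w60, w61, w62, w63,
    w64, w65, w66, w67, w68, w69, w70, w71, w72, w73, w74, w75, w76, w77, w78, w79, w80, w81,
    w82, w83, w84, w85, w86, w87, w88, w89, w90, w91, w94, w95, w96, w97, w100, w101, w102, w103,
    w106, w107, w108, w109, w112, w113, w114, w115, w118, w119, w120, w121, w122, w123, w124,
    w125, w126, w127, w128, w129, w130, w131, w132, w133, w134, w135, w136, w137, w138, w139,
    w140, w141, w142, w143, w144, w145, w146, w147, w148, w149, w150, w151, w152, w153, w154,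
    w155, w156, w157, w158, w159, w160, w161, w162, w163, w164, w165, w168, w171, w174, w177,
    w180] →
    Concl 67435722 [m10, m9, m8, m7, m6, m5, m4, m3, m2, m1, w0, w1, w2, w3, w4, w5, w6, w7, w8,
    w9, w10, w11, w12, w13, w14, w15, w16, w17, w18, w19, w20, w21, w22, w23, w24, w25, w26, w27,
    w28, w29, w30, w31, w32, w33, w34, w35, w36, w37, w38, w39, w40, w41, w42, w43, w44, w45,
    w46, w47, w48, w49, w50, w51, w52, w53, w54, w55, w56, w57, w58, w59, w60, w61, w62, w63,
    w64, w65, w66, w67, w68, w69, w70, w71, w72, w73, w74, w75, w76, w77, w78, w79, w80, w81,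
    w82, w83, w84, w85, w86, w87, w88, w89, w90, w91, w94, w95, w96, w97, w100, w101, w102, w103,
    w106, w107, w108, w109, w112, w113, w114, w115, w118, w119, w120, w121, w122, w123, w124,
    w125, w126, w127, w128, w129, w130, w131, w132, w133, w134, w135, w136, w137, w138, w139,
    w140, w141, w142, w143, w144, w145, w146, w147, w148, w149, w150, w151, w152, w153, w154,
    w155, w156, w157, w158, w159, w160, w161, w162, w163, w164, w165, w168, w171, w174, w177,
    w180] :=
  next (i := 96) (j := 96) rfl rfl s11 c12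

theorem c10 : Valid [m9, m8, m7, m6, m5, m4, m3, m2, m1, w0, w1, w2, w3, w4, w5, w6, w7, w8, w9,
    w10, w11, w12, w13, w14, w15, w16, w17, w18, w19, w20, w21, w22, w23, w24, w25, w26, w27,
    w28, w29, w30, w31, w32, w33, w34, w35, w36, w37, w38, w39, w40, w41, w42, w43, w44, w45,
    w46, w47, w48, w49, w50, w51, w52, w53, w54, w55, w56, w57, w58, w59, w60, w61, w62, w63,
    w64, w65, w66, w67, w68, w69, w70, w71, w72, w73, w74, w75, w76, w77, w78, w79, w80, w81,
    w82, w83, w84, w85, w86, w87, w88, w89, w90, w91, w94, w95, w96, w97, w100, w101, w102, w103,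
    w106, w107, w108, w109, w112, w113, w114, w115, w118, w119, w120, w121, w122, w123, w124,
    w125, w126, w127, w128, w129, w130, w131, w132, w133, w134, w135, w136, w137, w138, w139,
    w140, w141, w142, w143, w144, w145, w146, w147, w148, w149, w150, w151, w152, w153, w154,
    w155, w156, w157, w158, w159, w160, w161, w162, w163, w164, w165, w166, w167, w168, w171,
    w174, w177, w180] →
    Concl 67435722 [m9, m8, m7, m6, m5, m4, m3, m2, m1, w0, w1, w2, w3, w4, w5, w6, w7, w8, w9,
    w10, w11, w12, w13, w14, w15, w16, w17, w18, w19, w20, w21, w22, w23, w24, w25, w26, w27,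
    w28, w29, w30, w31, w32, w33, w34, w35, w36, w37, w38, w39, w40, w41, w42, w43, w44, w45,
    w46, w47, w48, w49, w50, w51, w52, w53, w54, w55, w56, w57, w58, w59, w60, w61, w62, w63,
    w64, w65, w66, w67, w68, w69, w70, w71, w72, w73, w74, w75, w76, w77, w78, w79, w80, w81,
    w82, w83, w84, w85, w86, w87, w88, w89, w90, w91, w94, w95, w96, w97, w100, w101, w102, w103,
    w106, w107, w108, w109, w112, w113, w114, w115, w118, w119, w120, w121, w122, w123, w124,
    w125, w126, w127, w128, w129, w130, w131, w132, w133, w134, w135, w136, w137, w138, w139,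
    w140, w141, w142, w143, w144, w145, w146, w147, w148, w149, w150, w151, w152, w153, w154,
    w155, w156, w157, w158, w159, w160, w161, w162, w163, w164, w165, w166, w167, w168, w171,
    w174, w177, w180] :=
  next (i := 165) (j := 165) rfl rfl s10 c11

theorem c9 : Valid [m8, m7, m6, m5, m4, m3, m2, m1, w0, w1, w2, w3, w4, w5, w6, w7, w8, w9, w10,
    w11, w12, w13, w14, w15, w16, w17, w18, w19, w20, w21, w22, w23, w24, w25, w26, w27, w28,
    w29, w30, w31, w32, w33, w34, w35, w36, w37, w38, w39, w40, w41, w42, w43, w44, w45, w46,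
    w47, w48, w49, w50, w51, w52, w53, w54, w55, w56, w57, w58, w59, w60, w61, w62, w63, w64,
    w65, w66, w67, w68, w69, w70, w71, w72, w73, w74, w75, w76, w77, w78, w79, w80, w81, w82,
    w83, w84, w85, w86, w87, w88, w89, w90, w91, w92, w93, w94, w95, w96, w97, w100, w101, w102,
    w103, w106, w107, w108, w109, w112, w113, w114, w115, w118, w119, w120, w121, w122, w123,
    w124, w125, w126, w127, w128, w129, w130, w131, w132, w133, w134, w135, w136, w137, w138,
    w139, w140, w141, w142, w143, w144, w145, w146, w147, w148, w149, w150, w151, w152, w153,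
    w154, w155, w156, w157, w158, w159, w160, w161, w162, w163, w164, w165, w166, w167, w168,
    w171, w174, w177, w180] →
    Concl 67435722 [m8, m7, m6, m5, m4, m3, m2, m1, w0, w1, w2, w3, w4, w5, w6, w7, w8, w9, w10,
    w11, w12, w13, w14, w15, w16, w17, w18, w19, w20, w21, w22, w23, w24, w25, w26, w27, w28,
    w29, w30, w31, w32, w33, w34, w35, w36, w37, w38, w39, w40, w41, w42, w43, w44, w45, w46,
    w47, w48, w49, w50, w51, w52, w53, w54, w55, w56, w57, w58, w59, w60, w61, w62, w63, w64,
    w65, w66, w67, w68, w69, w70, w71, w72, w73, w74, w75, w76, w77, w78, w79, w80, w81, w82,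
    w83, w84, w85, w86, w87, w88, w89, w90, w91, w92, w93, w94, w95, w96, w97, w100, w101, w102,
    w103, w106, w107, w108, w109, w112, w113, w114, w115, w118, w119, w120, w121, w122, w123,
    w124, w125, w126, w127, w128, w129, w130, w131, w132, w133, w134, w135, w136, w137, w138,
    w139, w140, w141, w142, w143, w144, w145, w146, w147, w148, w149, w150, w151, w152, w153,
    w154, w155, w156, w157, w158, w159, w160, w161, w162, w163, w164, w165, w166, w167, w168,
    w171, w174, w177, w180] :=
  next (i := 100) (j := 100) rfl rfl s9 c10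

theorem c8 : Valid [m7, m6, m5, m4, m3, m2, m1, w0, w1, w2, w3, w4, w5, w6, w7, w8, w9, w10, w11,
    w12, w13, w14, w15, w16, w17, w18, w19, w20, w21, w22, w23, w24, w25, w26, w27, w28, w29,
    w30, w31, w32, w33, w34, w35, w36, w37, w38, w39, w40, w41, w42, w43, w44, w45, w46, w47,
    w48, w49, w50, w51, w52, w53, w54, w55, w56, w57, w58, w59, w60, w61, w62, w63, w64, w65,
    w66, w67, w68, w69, w70, w71, w72, w73, w74, w75, w76, w77, w78, w79, w80, w81, w82, w83,
    w84, w85, w86, w87, w88, w89, w90, w91, w92, w93, w94, w95, w96, w97, w100, w101, w102, w103,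
    w106, w107, w108, w109, w112, w113, w114, w115, w118, w119, w120, w121, w122, w123, w124,
    w125, w126, w127, w128, w129, w130, w131, w132, w133, w134, w135, w136, w137, w138, w139,
    w140, w141, w142, w143, w144, w145, w146, w147, w148, w149, w150, w151, w152, w153, w154,
    w155, w156, w157, w158, w159, w160, w161, w162, w163, w164, w165, w166, w167, w168, w169,
    w170, w171, w174, w177, w180] →
    Concl 67435722 [m7, m6, m5, m4, m3, m2, m1, w0, w1, w2, w3, w4, w5, w6, w7, w8, w9, w10, w11,
    w12, w13, w14, w15, w16, w17, w18, w19, w20, w21, w22, w23, w24, w25, w26, w27, w28, w29,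
    w30, w31, w32, w33, w34, w35, w36, w37, w38, w39, w40, w41, w42, w43, w44, w45, w46, w47,
    w48, w49, w50, w51, w52, w53, w54, w55, w56, w57, w58, w59, w60, w61, w62, w63, w64, w65,
    w66, w67, w68, w69, w70, w71, w72, w73, w74, w75, w76, w77, w78, w79, w80, w81, w82, w83,
    w84, w85, w86, w87, w88, w89, w90, w91, w92, w93, w94, w95, w96, w97, w100, w101, w102, w103,
    w106, w107, w108, w109, w112, w113, w114, w115, w118, w119, w120, w121, w122, w123, w124,
    w125, w126, w127, w128, w129, w130, w131, w132, w133, w134, w135, w136, w137, w138, w139,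
    w140, w141, w142, w143, w144, w145, w146, w147, w148, w149, w150, w151, w152, w153, w154,
    w155, w156, w157, w158, w159, w160, w161, w162, w163, w164, w165, w166, w167, w168, w169,
    w170, w171, w174, w177, w180] :=
  next (i := 168) (j := 168) rfl rfl s8 c9

theorem c7 : Valid [m6, m5, m4, m3, m2, m1, w0, w1, w2, w3, w4, w5, w6, w7, w8, w9, w10, w11,
    w12, w13, w14, w15, w16, w17, w18, w19, w20, w21, w22, w23, w24, w25, w26, w27, w28, w29,
    w30, w31, w32, w33, w34, w35, w36, w37, w38, w39, w40, w41, w42, w43, w44, w45, w46, w47,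
    w48, w49, w50, w51, w52, w53, w54, w55, w56, w57, w58, w59, w60, w61, w62, w63, w64, w65,
    w66, w67, w68, w69, w70, w71, w72, w73, w74, w75, w76, w77, w78, w79, w80, w81, w82, w83,
    w84, w85, w86, w87, w88, w89, w90, w91, w92, w93, w94, w95, w96, w97, w98, w99, w100, w101,
    w102, w103, w106, w107, w108, w109, w112, w113, w114, w115, w118, w119, w120, w121, w122,
    w123, w124, w125, w126, w127, w128, w129, w130, w131, w132, w133, w134, w135, w136, w137,
    w138, w139, w140, w141, w142, w143, w144, w145, w146, w147, w148, w149, w150, w151, w152,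
    w153, w154, w155, w156, w157, w158, w159, w160, w161, w162, w163, w164, w165, w166, w167,
    w168, w169, w170, w171, w174, w177, w180] →
    Concl 67435722 [m6, m5, m4, m3, m2, m1, w0, w1, w2, w3, w4, w5, w6, w7, w8, w9, w10, w11,
    w12, w13, w14, w15, w16, w17, w18, w19, w20, w21, w22, w23, w24, w25, w26, w27, w28, w29,
    w30, w31, w32, w33, w34, w35, w36, w37, w38, w39, w40, w41, w42, w43, w44, w45, w46, w47,
    w48, w49, w50, w51, w52, w53, w54, w55, w56, w57, w58, w59, w60, w61, w62, w63, w64, w65,
    w66, w67, w68, w69, w70, w71, w72, w73, w74, w75, w76, w77, w78, w79, w80, w81, w82, w83,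
    w84, w85, w86, w87, w88, w89, w90, w91, w92, w93, w94, w95, w96, w97, w98, w99, w100, w101,
    w102, w103, w106, w107, w108, w109, w112, w113, w114, w115, w118, w119, w120, w121, w122,
    w123, w124, w125, w126, w127, w128, w129, w130, w131, w132, w133, w134, w135, w136, w137,
    w138, w139, w140, w141, w142, w143, w144, w145, w146, w147, w148, w149, w150, w151, w152,
    w153, w154, w155, w156, w157, w158, w159, w160, w161, w162, w163, w164, w165, w166, w167,
    w168, w169, w170, w171, w174, w177, w180] :=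
  next (i := 104) (j := 104) rfl rfl s7 c8

theorem c6 : Valid [m5, m4, m3, m2, m1, w0, w1, w2, w3, w4, w5, w6, w7, w8, w9, w10, w11, w12,
    w13, w14, w15, w16, w17, w18, w19, w20, w21, w22, w23, w24, w25, w26, w27, w28, w29, w30,
    w31, w32, w33, w34, w35, w36, w37, w38, w39, w40, w41, w42, w43, w44, w45, w46, w47, w48,
    w49, w50, w51, w52, w53, w54, w55, w56, w57, w58, w59, w60, w61, w62, w63, w64, w65, w66,
    w67, w68, w69, w70, w71, w72, w73, w74, w75, w76, w77, w78, w79, w80, w81, w82, w83, w84,
    w85, w86, w87, w88, w89, w90, w91, w92, w93, w94, w95, w96, w97, w98, w99, w100, w101, w102,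
    w103, w106, w107, w108, w109, w112, w113, w114, w115, w118, w119, w120, w121, w122, w123,
    w124, w125, w126, w127, w128, w129, w130, w131, w132, w133, w134, w135, w136, w137, w138,
    w139, w140, w141, w142, w143, w144, w145, w146, w147, w148, w149, w150, w151, w152, w153,
    w154, w155, w156, w157, w158, w159, w160, w161, w162, w163, w164, w165, w166, w167, w168,
    w169, w170, w171, w172, w173, w174, w177, w180] →
    Concl 67435722 [m5, m4, m3, m2, m1, w0, w1, w2, w3, w4, w5, w6, w7, w8, w9, w10, w11, w12,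
    w13, w14, w15, w16, w17, w18, w19, w20, w21, w22, w23, w24, w25, w26, w27, w28, w29, w30,
    w31, w32, w33, w34, w35, w36, w37, w38, w39, w40, w41, w42, w43, w44, w45, w46, w47, w48,
    w49, w50, w51, w52, w53, w54, w55, w56, w57, w58, w59, w60, w61, w62, w63, w64, w65, w66,
    w67, w68, w69, w70, w71, w72, w73, w74, w75, w76, w77, w78, w79, w80, w81, w82, w83, w84,
    w85, w86, w87, w88, w89, w90, w91, w92, w93, w94, w95, w96, w97, w98, w99, w100, w101, w102,
    w103, w106, w107, w108, w109, w112, w113, w114, w115, w118, w119, w120, w121, w122, w123,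
    w124, w125, w126, w127, w128, w129, w130, w131, w132, w133, w134, w135, w136, w137, w138,
    w139, w140, w141, w142, w143, w144, w145, w146, w147, w148, w149, w150, w151, w152, w153,
    w154, w155, w156, w157, w158, w159, w160, w161, w162, w163, w164, w165, w166, w167, w168,
    w169, w170, w171, w172, w173, w174, w177, w180] :=
  next (i := 171) (j := 171) rfl rfl s6 c7

theorem c5 : Valid [m4, m3, m2, m1, w0, w1, w2, w3, w4, w5, w6, w7, w8, w9, w10, w11, w12, w13,
    w14, w15, w16, w17, w18, w19, w20, w21, w22, w23, w24, w25, w26, w27, w28, w29, w30, w31,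
    w32, w33, w34, w35, w36, w37, w38, w39, w40, w41, w42, w43, w44, w45, w46, w47, w48, w49,
    w50, w51, w52, w53, w54, w55, w56, w57, w58, w59, w60, w61, w62, w63, w64, w65, w66, w67,
    w68, w69, w70, w71, w72, w73, w74, w75, w76, w77, w78, w79, w80, w81, w82, w83, w84, w85,
    w86, w87, w88, w89, w90, w91, w92, w93, w94, w95, w96, w97, w98, w99, w100, w101, w102, w103,
    w104, w105, w106, w107, w108, w109, w112, w113, w114, w115, w118, w119, w120, w121, w122,
    w123, w124, w125, w126, w127, w128, w129, w130, w131, w132, w133, w134, w135, w136, w137,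
    w138, w139, w140, w141, w142, w143, w144, w145, w146, w147, w148, w149, w150, w151, w152,
    w153, w154, w155, w156, w157, w158, w159, w160, w161, w162, w163, w164, w165, w166, w167,
    w168, w169, w170, w171, w172, w173, w174, w177, w180] →
    Concl 67435722 [m4, m3, m2, m1, w0, w1, w2, w3, w4, w5, w6, w7, w8, w9, w10, w11, w12, w13,
    w14, w15, w16, w17, w18, w19, w20, w21, w22, w23, w24, w25, w26, w27, w28, w29, w30, w31,
    w32, w33, w34, w35, w36, w37, w38, w39, w40, w41, w42, w43, w44, w45, w46, w47, w48, w49,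
    w50, w51, w52, w53, w54, w55, w56, w57, w58, w59, w60, w61, w62, w63, w64, w65, w66, w67,
    w68, w69, w70, w71, w72, w73, w74, w75, w76, w77, w78, w79, w80, w81, w82, w83, w84, w85,
    w86, w87, w88, w89, w90, w91, w92, w93, w94, w95, w96, w97, w98, w99, w100, w101, w102, w103,
    w104, w105, w106, w107, w108, w109, w112, w113, w114, w115, w118, w119, w120, w121, w122,
    w123, w124, w125, w126, w127, w128, w129, w130, w131, w132, w133, w134, w135, w136, w137,
    w138, w139, w140, w141, w142, w143, w144, w145, w146, w147, w148, w149, w150, w151, w152,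
    w153, w154, w155, w156, w157, w158, w159, w160, w161, w162, w163, w164, w165, w166, w167,
    w168, w169, w170, w171, w172, w173, w174, w177, w180] :=
  next (i := 108) (j := 108) rfl rfl s5 c6

theorem c4 : Valid [m3, m2, m1, w0, w1, w2, w3, w4, w5, w6, w7, w8, w9, w10, w11, w12, w13, w14,
    w15, w16, w17, w18, w19, w20, w21, w22, w23, w24, w25, w26, w27, w28, w29, w30, w31, w32,
    w33, w34, w35, w36, w37, w38, w39, w40, w41, w42, w43, w44, w45, w46, w47, w48, w49, w50,
    w51, w52, w53, w54, w55, w56, w57, w58, w59, w60, w61, w62, w63, w64, w65, w66, w67, w68,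
    w69, w70, w71, w72, w73, w74, w75, w76, w77, w78, w79, w80, w81, w82, w83, w84, w85, w86,
    w87, w88, w89, w90, w91, w92, w93, w94, w95, w96, w97, w98, w99, w100, w101, w102, w103,
    w104, w105, w106, w107, w108, w109, w112, w113, w114, w115, w118, w119, w120, w121, w122,
    w123, w124, w125, w126, w127, w128, w129, w130, w131, w132, w133, w134, w135, w136, w137,
    w138, w139, w140, w141, w142, w143, w144, w145, w146, w147, w148, w149, w150, w151, w152,
    w153, w154, w155, w156, w157, w158, w159, w160, w161, w162, w163, w164, w165, w166, w167,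
    w168, w169, w170, w171, w172, w173, w174, w175, w176, w177, w180] →
    Concl 67435722 [m3, m2, m1, w0, w1, w2, w3, w4, w5, w6, w7, w8, w9, w10, w11, w12, w13, w14,
    w15, w16, w17, w18, w19, w20, w21, w22, w23, w24, w25, w26, w27, w28, w29, w30, w31, w32,
    w33, w34, w35, w36, w37, w38, w39, w40, w41, w42, w43, w44, w45, w46, w47, w48, w49, w50,
    w51, w52, w53, w54, w55, w56, w57, w58, w59, w60, w61, w62, w63, w64, w65, w66, w67, w68,
    w69, w70, w71, w72, w73, w74, w75, w76, w77, w78, w79, w80, w81, w82, w83, w84, w85, w86,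
    w87, w88, w89, w90, w91, w92, w93, w94, w95, w96, w97, w98, w99, w100, w101, w102, w103,
    w104, w105, w106, w107, w108, w109, w112, w113, w114, w115, w118, w119, w120, w121, w122,
    w123, w124, w125, w126, w127, w128, w129, w130, w131, w132, w133, w134, w135, w136, w137,
    w138, w139, w140, w141, w142, w143, w144, w145, w146, w147, w148, w149, w150, w151, w152,
    w153, w154, w155, w156, w157, w158, w159, w160, w161, w162, w163, w164, w165, w166, w167,
    w168, w169, w170, w171, w172, w173, w174, w175, w176, w177, w180] :=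
  next (i := 174) (j := 174) rfl rfl s4 c5

theorem c3 : Valid [m2, m1, w0, w1, w2, w3, w4, w5, w6, w7, w8, w9, w10, w11, w12, w13, w14, w15,
    w16, w17, w18, w19, w20, w21, w22, w23, w24, w25, w26, w27, w28, w29, w30, w31, w32, w33,
    w34, w35, w36, w37, w38, w39, w40, w41, w42, w43, w44, w45, w46, w47, w48, w49, w50, w51,
    w52, w53, w54, w55, w56, w57, w58, w59, w60, w61, w62, w63, w64, w65, w66, w67, w68, w69,
    w70, w71, w72, w73, w74, w75, w76, w77, w78, w79, w80, w81, w82, w83, w84, w85, w86, w87,
    w88, w89, w90, w91, w92, w93, w94, w95, w96, w97, w98, w99, w100, w101, w102, w103, w104,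
    w105, w106, w107, w108, w109, w110, w111, w112, w113, w114, w115, w118, w119, w120, w121,
    w122, w123, w124, w125, w126, w127, w128, w129, w130, w131, w132, w133, w134, w135, w136,
    w137, w138, w139, w140, w141, w142, w143, w144, w145, w146, w147, w148, w149, w150, w151,
    w152, w153, w154, w155, w156, w157, w158, w159, w160, w161, w162, w163, w164, w165, w166,
    w167, w168, w169, w170, w171, w172, w173, w174, w175, w176, w177, w180] →
    Concl 67435722 [m2, m1, w0, w1, w2, w3, w4, w5, w6, w7, w8, w9, w10, w11, w12, w13, w14, w15,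
    w16, w17, w18, w19, w20, w21, w22, w23, w24, w25, w26, w27, w28, w29, w30, w31, w32, w33,
    w34, w35, w36, w37, w38, w39, w40, w41, w42, w43, w44, w45, w46, w47, w48, w49, w50, w51,
    w52, w53, w54, w55, w56, w57, w58, w59, w60, w61, w62, w63, w64, w65, w66, w67, w68, w69,
    w70, w71, w72, w73, w74, w75, w76, w77, w78, w79, w80, w81, w82, w83, w84, w85, w86, w87,
    w88, w89, w90, w91, w92, w93, w94, w95, w96, w97, w98, w99, w100, w101, w102, w103, w104,
    w105, w106, w107, w108, w109, w110, w111, w112, w113, w114, w115, w118, w119, w120, w121,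
    w122, w123, w124, w125, w126, w127, w128, w129, w130, w131, w132, w133, w134, w135, w136,
    w137, w138, w139, w140, w141, w142, w143, w144, w145, w146, w147, w148, w149, w150, w151,
    w152, w153, w154, w155, w156, w157, w158, w159, w160, w161, w162, w163, w164, w165, w166,
    w167, w168, w169, w170, w171, w172, w173, w174, w175, w176, w177, w180] :=
  next (i := 112) (j := 112) rfl rfl s3 c4

theorem c2 : Valid [m1, w0, w1, w2, w3, w4, w5, w6, w7, w8, w9, w10, w11, w12, w13, w14, w15,
    w16, w17, w18, w19, w20, w21, w22, w23, w24, w25, w26, w27, w28, w29, w30, w31, w32, w33,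
    w34, w35, w36, w37, w38, w39, w40, w41, w42, w43, w44, w45, w46, w47, w48, w49, w50, w51,
    w52, w53, w54, w55, w56, w57, w58, w59, w60, w61, w62, w63, w64, w65, w66, w67, w68, w69,
    w70, w71, w72, w73, w74, w75, w76, w77, w78, w79, w80, w81, w82, w83, w84, w85, w86, w87,
    w88, w89, w90, w91, w92, w93, w94, w95, w96, w97, w98, w99, w100, w101, w102, w103, w104,
    w105, w106, w107, w108, w109, w110, w111, w112, w113, w114, w115, w118, w119, w120, w121,
    w122, w123, w124, w125, w126, w127, w128, w129, w130, w131, w132, w133, w134, w135, w136,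
    w137, w138, w139, w140, w141, w142, w143, w144, w145, w146, w147, w148, w149, w150, w151,
    w152, w153, w154, w155, w156, w157, w158, w159, w160, w161, w162, w163, w164, w165, w166,
    w167, w168, w169, w170, w171, w172, w173, w174, w175, w176, w177, w178, w179, w180] →
    Concl 67435722 [m1, w0, w1, w2, w3, w4, w5, w6, w7, w8, w9, w10, w11, w12, w13, w14, w15,
    w16, w17, w18, w19, w20, w21, w22, w23, w24, w25, w26, w27, w28, w29, w30, w31, w32, w33,
    w34, w35, w36, w37, w38, w39, w40, w41, w42, w43, w44, w45, w46, w47, w48, w49, w50, w51,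
    w52, w53, w54, w55, w56, w57, w58, w59, w60, w61, w62, w63, w64, w65, w66, w67, w68, w69,
    w70, w71, w72, w73, w74, w75, w76, w77, w78, w79, w80, w81, w82, w83, w84, w85, w86, w87,
    w88, w89, w90, w91, w92, w93, w94, w95, w96, w97, w98, w99, w100, w101, w102, w103, w104,
    w105, w106, w107, w108, w109, w110, w111, w112, w113, w114, w115, w118, w119, w120, w121,
    w122, w123, w124, w125, w126, w127, w128, w129, w130, w131, w132, w133, w134, w135, w136,
    w137, w138, w139, w140, w141, w142, w143, w144, w145, w146, w147, w148, w149, w150, w151,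
    w152, w153, w154, w155, w156, w157, w158, w159, w160, w161, w162, w163, w164, w165, w166,
    w167, w168, w169, w170, w171, w172, w173, w174, w175, w176, w177, w178, w179, w180] :=
  next (i := 177) (j := 177) rfl rfl s2 c3

theorem c1 : Valid [w0, w1, w2, w3, w4, w5, w6, w7, w8, w9, w10, w11, w12, w13, w14, w15, w16,
    w17, w18, w19, w20, w21, w22, w23, w24, w25, w26, w27, w28, w29, w30, w31, w32, w33, w34,
    w35, w36, w37, w38, w39, w40, w41, w42, w43, w44, w45, w46, w47, w48, w49, w50, w51, w52,
    w53, w54, w55, w56, w57, w58, w59, w60, w61, w62, w63, w64, w65, w66, w67, w68, w69, w70,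
    w71, w72, w73, w74, w75, w76, w77, w78, w79, w80, w81, w82, w83, w84, w85, w86, w87, w88,
    w89, w90, w91, w92, w93, w94, w95, w96, w97, w98, w99, w100, w101, w102, w103, w104, w105,
    w106, w107, w108, w109, w110, w111, w112, w113, w114, w115, w116, w117, w118, w119, w120,
    w121, w122, w123, w124, w125, w126, w127, w128, w129, w130, w131, w132, w133, w134, w135,
    w136, w137, w138, w139, w140, w141, w142, w143, w144, w145, w146, w147, w148, w149, w150,
    w151, w152, w153, w154, w155, w156, w157, w158, w159, w160, w161, w162, w163, w164, w165,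
    w166, w167, w168, w169, w170, w171, w172, w173, w174, w175, w176, w177, w178, w179, w180] →
    Concl 67435722 [w0, w1, w2, w3, w4, w5, w6, w7, w8, w9, w10, w11, w12, w13, w14, w15, w16,
    w17, w18, w19, w20, w21, w22, w23, w24, w25, w26, w27, w28, w29, w30, w31, w32, w33, w34,
    w35, w36, w37, w38, w39, w40, w41, w42, w43, w44, w45, w46, w47, w48, w49, w50, w51, w52,
    w53, w54, w55, w56, w57, w58, w59, w60, w61, w62, w63, w64, w65, w66, w67, w68, w69, w70,
    w71, w72, w73, w74, w75, w76, w77, w78, w79, w80, w81, w82, w83, w84, w85, w86, w87, w88,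
    w89, w90, w91, w92, w93, w94, w95, w96, w97, w98, w99, w100, w101, w102, w103, w104, w105,
    w106, w107, w108, w109, w110, w111, w112, w113, w114, w115, w116, w117, w118, w119, w120,
    w121, w122, w123, w124, w125, w126, w127, w128, w129, w130, w131, w132, w133, w134, w135,
    w136, w137, w138, w139, w140, w141, w142, w143, w144, w145, w146, w147, w148, w149, w150,
    w151, w152, w153, w154, w155, w156, w157, w158, w159, w160, w161, w162, w163, w164, w165,
    w166, w167, w168, w169, w170, w171, w172, w173, w174, w175, w176, w177, w178, w179, w180] :=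
  next (i := 116) (j := 116) rfl rfl s1 c2

theorem first : (covers T L P && (ffree L && good L)) = true := by decide +kernel

theorem forced : (∀ s ∈ fam L, s <:+: ex T) ∧
    ∀ G, IsGreedyOutput (fam L) G → 67435722 ≤ G.length :=
  start first c1

theorem len_T : (ex T).length = 30899278 := by
  rw [length_ex]
  decide +kernel

end Vale.Agent.P333.Rle.V20
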