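import Vale.Agent.P333.CE.DataV12

/-!
P333: steps of the forced greedy run.
-/

namespace Vale.Agent.P333.Rle.V12

set_option maxRecDepth 100000

theorem s1 : okS 917822 w68 w69 m1
    [w0, w1, w2, w3, w4, w5, w6, w7, w8, w9, w10, w11, w12, w13, w14, w15, w16, w17, w18, w19,
    w20, w21, w22, w23, w24, w25, w26, w27, w28, w29, w30, w31, w32, w33, w34, w35, w36, w37,
    w38, w39, w40, w41, w42, w43, w44, w45, w46, w47, w48, w49, w50, w51, w52, w53, w54, w55,
    w56, w57, w58, w59, w60, w61, w62, w63, w64, w65, w66, w67, w70, w71, w72, w73, w74, w75,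
    w76, w77, w78, w79, w80, w81, w82, w83, w84, w85, w86, w87, w88, w89, w90, w91, w92, w93,
    w94, w95, w96, w97, w98, w99, w100, w101, w102, w103, w104, w105, w106, w107, w108] = true :=
  okS_of (by decide +kernel) (by decide +kernel)

theorem s2 : okS 917819 w106 w107 m2
    [m1, w0, w1, w2, w3, w4, w5, w6, w7, w8, w9, w10, w11, w12, w13, w14, w15, w16, w17, w18,
    w19, w20, w21, w22, w23, w24, w25, w26, w27, w28, w29, w30, w31, w32, w33, w34, w35, w36,
    w37, w38, w39, w40, w41, w42, w43, w44, w45, w46, w47, w48, w49, w50, w51, w52, w53, w54,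
    w55, w56, w57, w58, w59, w60, w61, w62, w63, w64, w65, w66, w67, w70, w71, w72, w73, w74,
    w75, w76, w77, w78, w79, w80, w81, w82, w83, w84, w85, w86, w87, w88, w89, w90, w91, w92,
    w93, w94, w95, w96, w97, w98, w99, w100, w101, w102, w103, w104, w105, w108] = true :=
  okS_of (by decide +kernel) (by decide +kernel)

theorem s3 : okS 915685 w62 w63 m3
    [m2, m1, w0, w1, w2, w3, w4, w5, w6, w7, w8, w9, w10, w11, w12, w13, w14, w15, w16, w17, w18,
    w19, w20, w21, w22, w23, w24, w25, w26, w27, w28, w29, w30, w31, w32, w33, w34, w35, w36,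
    w37, w38, w39, w40, w41, w42, w43, w44, w45, w46, w47, w48, w49, w50, w51, w52, w53, w54,
    w55, w56, w57, w58, w59, w60, w61, w64, w65, w66, w67, w70, w71, w72, w73, w74, w75, w76,
    w77, w78, w79, w80, w81, w82, w83, w84, w85, w86, w87, w88, w89, w90, w91, w92, w93, w94,
    w95, w96, w97, w98, w99, w100, w101, w102, w103, w104, w105, w108] = true :=
  okS_of (by decide +kernel) (by decide +kernel)

theorem s4 : okS 915681 w103 w104 m4
    [m3, m2, m1, w0, w1, w2, w3, w4, w5, w6, w7, w8, w9, w10, w11, w12, w13, w14, w15, w16, w17,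
    w18, w19, w20, w21, w22, w23, w24, w25, w26, w27, w28, w29, w30, w31, w32, w33, w34, w35,
    w36, w37, w38, w39, w40, w41, w42, w43, w44, w45, w46, w47, w48, w49, w50, w51, w52, w53,
    w54, w55, w56, w57, w58, w59, w60, w61, w64, w65, w66, w67, w70, w71, w72, w73, w74, w75,
    w76, w77, w78, w79, w80, w81, w82, w83, w84, w85, w86, w87, w88, w89, w90, w91, w92, w93,
    w94, w95, w96, w97, w98, w99, w100, w101, w102, w105, w108] = true :=
  okS_of (by decide +kernel) (by decide +kernel)

theorem s5 : okS 914509 w56 w57 m5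
    [m4, m3, m2, m1, w0, w1, w2, w3, w4, w5, w6, w7, w8, w9, w10, w11, w12, w13, w14, w15, w16,
    w17, w18, w19, w20, w21, w22, w23, w24, w25, w26, w27, w28, w29, w30, w31, w32, w33, w34,
    w35, w36, w37, w38, w39, w40, w41, w42, w43, w44, w45, w46, w47, w48, w49, w50, w51, w52,
    w53, w54, w55, w58, w59, w60, w61, w64, w65, w66, w67, w70, w71, w72, w73, w74, w75, w76,
    w77, w78, w79, w80, w81, w82, w83, w84, w85, w86, w87, w88, w89, w90, w91, w92, w93, w94,
    w95, w96, w97, w98, w99, w100, w101, w102, w105, w108] = true :=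
  okS_of (by decide +kernel) (by decide +kernel)

theorem s6 : okS 914506 w100 w101 m6
    [m5, m4, m3, m2, m1, w0, w1, w2, w3, w4, w5, w6, w7, w8, w9, w10, w11, w12, w13, w14, w15,
    w16, w17, w18, w19, w20, w21, w22, w23, w24, w25, w26, w27, w28, w29, w30, w31, w32, w33,
    w34, w35, w36, w37, w38, w39, w40, w41, w42, w43, w44, w45, w46, w47, w48, w49, w50, w51,
    w52, w53, w54, w55, w58, w59, w60, w61, w64, w65, w66, w67, w70, w71, w72, w73, w74, w75,
    w76, w77, w78, w79, w80, w81, w82, w83, w84, w85, w86, w87, w88, w89, w90, w91, w92, w93,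
    w94, w95, w96, w97, w98, w99, w102, w105, w108] = true :=
  okS_of (by decide +kernel) (by decide +kernel)

theorem s7 : okS 913348 w50 w51 m7
    [m6, m5, m4, m3, m2, m1, w0, w1, w2, w3, w4, w5, w6, w7, w8, w9, w10, w11, w12, w13, w14,
    w15, w16, w17, w18, w19, w20, w21, w22, w23, w24, w25, w26, w27, w28, w29, w30, w31, w32,
    w33, w34, w35, w36, w37, w38, w39, w40, w41, w42, w43, w44, w45, w46, w47, w48, w49, w52,
    w53, w54, w55, w58, w59, w60, w61, w64, w65, w66, w67, w70, w71, w72, w73, w74, w75, w76,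
    w77, w78, w79, w80, w81, w82, w83, w84, w85, w86, w87, w88, w89, w90, w91, w92, w93, w94,
    w95, w96, w97, w98, w99, w102, w105, w108] = true :=
  okS_of (by decide +kernel) (by decide +kernel)

theorem s8 : okS 913346 w97 w98 m8
    [m7, m6, m5, m4, m3, m2, m1, w0, w1, w2, w3, w4, w5, w6, w7, w8, w9, w10, w11, w12, w13, w14,
    w15, w16, w17, w18, w19, w20, w21, w22, w23, w24, w25, w26, w27, w28, w29, w30, w31, w32,
    w33, w34, w35, w36, w37, w38, w39, w40, w41, w42, w43, w44, w45, w46, w47, w48, w49, w52,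
    w53, w54, w55, w58, w59, w60, w61, w64, w65, w66, w67, w70, w71, w72, w73, w74, w75, w76,
    w77, w78, w79, w80, w81, w82, w83, w84, w85, w86, w87, w88, w89, w90, w91, w92, w93, w94,
    w95, w96, w99, w102, w105, w108] = true :=
  okS_of (by decide +kernel) (by decide +kernel)

end Vale.Agent.P333.Rle.V12
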