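import Vale.Agent.P333.CE.DataV20

/-!
P333: steps of the forced greedy run.
-/

namespace Vale.Agent.P333.Rle.V20

set_option maxRecDepth 100000

theorem s1 : okS 925558 w116 w117 m1
    [w0, w1, w2, w3, w4, w5, w6, w7, w8, w9, w10, w11, w12, w13, w14, w15, w16, w17, w18, w19,
    w20, w21, w22, w23, w24, w25, w26, w27, w28, w29, w30, w31, w32, w33, w34, w35, w36, w37,
    w38, w39, w40, w41, w42, w43, w44, w45, w46, w47, w48, w49, w50, w51, w52, w53, w54, w55,
    w56, w57, w58, w59, w60, w61, w62, w63, w64, w65, w66, w67, w68, w69, w70, w71, w72, w73,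
    w74, w75, w76, w77, w78, w79, w80, w81, w82, w83, w84, w85, w86, w87, w88, w89, w90, w91,
    w92, w93, w94, w95, w96, w97, w98, w99, w100, w101, w102, w103, w104, w105, w106, w107, w108,
    w109, w110, w111, w112, w113, w114, w115, w118, w119, w120, w121, w122, w123, w124, w125,
    w126, w127, w128, w129, w130, w131, w132, w133, w134, w135, w136, w137, w138, w139, w140,
    w141, w142, w143, w144, w145, w146, w147, w148, w149, w150, w151, w152, w153, w154, w155,
    w156, w157, w158, w159, w160, w161, w162, w163, w164, w165, w166, w167, w168, w169, w170,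
    w171, w172, w173, w174, w175, w176, w177, w178, w179, w180] = true :=
  okS_of (by decide +kernel) (by decide +kernel)

theorem s2 : okS 925556 w178 w179 m2
    [m1, w0, w1, w2, w3, w4, w5, w6, w7, w8, w9, w10, w11, w12, w13, w14, w15, w16, w17, w18,
    w19, w20, w21, w22, w23, w24, w25, w26, w27, w28, w29, w30, w31, w32, w33, w34, w35, w36,
    w37, w38, w39, w40, w41, w42, w43, w44, w45, w46, w47, w48, w49, w50, w51, w52, w53, w54,
    w55, w56, w57, w58, w59, w60, w61, w62, w63, w64, w65, w66, w67, w68, w69, w70, w71, w72,
    w73, w74, w75, w76, w77, w78, w79, w80, w81, w82, w83, w84, w85, w86, w87, w88, w89, w90,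
    w91, w92, w93, w94, w95, w96, w97, w98, w99, w100, w101, w102, w103, w104, w105, w106, w107,
    w108, w109, w110, w111, w112, w113, w114, w115, w118, w119, w120, w121, w122, w123, w124,
    w125, w126, w127, w128, w129, w130, w131, w132, w133, w134, w135, w136, w137, w138, w139,
    w140, w141, w142, w143, w144, w145, w146, w147, w148, w149, w150, w151, w152, w153, w154,
    w155, w156, w157, w158, w159, w160, w161, w162, w163, w164, w165, w166, w167, w168, w169,
    w170, w171, w172, w173, w174, w175, w176, w177, w180] = true :=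
  okS_of (by decide +kernel) (by decide +kernel)

theorem s3 : okS 924279 w110 w111 m3
    [m2, m1, w0, w1, w2, w3, w4, w5, w6, w7, w8, w9, w10, w11, w12, w13, w14, w15, w16, w17, w18,
    w19, w20, w21, w22, w23, w24, w25, w26, w27, w28, w29, w30, w31, w32, w33, w34, w35, w36,
    w37, w38, w39, w40, w41, w42, w43, w44, w45, w46, w47, w48, w49, w50, w51, w52, w53, w54,
    w55, w56, w57, w58, w59, w60, w61, w62, w63, w64, w65, w66, w67, w68, w69, w70, w71, w72,
    w73, w74, w75, w76, w77, w78, w79, w80, w81, w82, w83, w84, w85, w86, w87, w88, w89, w90,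
    w91, w92, w93, w94, w95, w96, w97, w98, w99, w100, w101, w102, w103, w104, w105, w106, w107,
    w108, w109, w112, w113, w114, w115, w118, w119, w120, w121, w122, w123, w124, w125, w126,
    w127, w128, w129, w130, w131, w132, w133, w134, w135, w136, w137, w138, w139, w140, w141,
    w142, w143, w144, w145, w146, w147, w148, w149, w150, w151, w152, w153, w154, w155, w156,
    w157, w158, w159, w160, w161, w162, w163, w164, w165, w166, w167, w168, w169, w170, w171,
    w172, w173, w174, w175, w176, w177, w180] = true :=
  okS_of (by decide +kernel) (by decide +kernel)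

theorem s4 : okS 924277 w175 w176 m4
    [m3, m2, m1, w0, w1, w2, w3, w4, w5, w6, w7, w8, w9, w10, w11, w12, w13, w14, w15, w16, w17,
    w18, w19, w20, w21, w22, w23, w24, w25, w26, w27, w28, w29, w30, w31, w32, w33, w34, w35,
    w36, w37, w38, w39, w40, w41, w42, w43, w44, w45, w46, w47, w48, w49, w50, w51, w52, w53,
    w54, w55, w56, w57, w58, w59, w60, w61, w62, w63, w64, w65, w66, w67, w68, w69, w70, w71,
    w72, w73, w74, w75, w76, w77, w78, w79, w80, w81, w82, w83, w84, w85, w86, w87, w88, w89,
    w90, w91, w92, w93, w94, w95, w96, w97, w98, w99, w100, w101, w102, w103, w104, w105, w106,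
    w107, w108, w109, w112, w113, w114, w115, w118, w119, w120, w121, w122, w123, w124, w125,
    w126, w127, w128, w129, w130, w131, w132, w133, w134, w135, w136, w137, w138, w139, w140,
    w141, w142, w143, w144, w145, w146, w147, w148, w149, w150, w151, w152, w153, w154, w155,
    w156, w157, w158, w159, w160, w161, w162, w163, w164, w165, w166, w167, w168, w169, w170,
    w171, w172, w173, w174, w177, w180] = true :=
  okS_of (by decide +kernel) (by decide +kernel)

theorem s5 : okS 923000 w104 w105 m5
    [m4, m3, m2, m1, w0, w1, w2, w3, w4, w5, w6, w7, w8, w9, w10, w11, w12, w13, w14, w15, w16,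
    w17, w18, w19, w20, w21, w22, w23, w24, w25, w26, w27, w28, w29, w30, w31, w32, w33, w34,
    w35, w36, w37, w38, w39, w40, w41, w42, w43, w44, w45, w46, w47, w48, w49, w50, w51, w52,
    w53, w54, w55, w56, w57, w58, w59, w60, w61, w62, w63, w64, w65, w66, w67, w68, w69, w70,
    w71, w72, w73, w74, w75, w76, w77, w78, w79, w80, w81, w82, w83, w84, w85, w86, w87, w88,
    w89, w90, w91, w92, w93, w94, w95, w96, w97, w98, w99, w100, w101, w102, w103, w106, w107,
    w108, w109, w112, w113, w114, w115, w118, w119, w120, w121, w122, w123, w124, w125, w126,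
    w127, w128, w129, w130, w131, w132, w133, w134, w135, w136, w137, w138, w139, w140, w141,
    w142, w143, w144, w145, w146, w147, w148, w149, w150, w151, w152, w153, w154, w155, w156,
    w157, w158, w159, w160, w161, w162, w163, w164, w165, w166, w167, w168, w169, w170, w171,
    w172, w173, w174, w177, w180] = true :=
  okS_of (by decide +kernel) (by decide +kernel)

theorem s6 : okS 922998 w172 w173 m6
    [m5, m4, m3, m2, m1, w0, w1, w2, w3, w4, w5, w6, w7, w8, w9, w10, w11, w12, w13, w14, w15,
    w16, w17, w18, w19, w20, w21, w22, w23, w24, w25, w26, w27, w28, w29, w30, w31, w32, w33,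
    w34, w35, w36, w37, w38, w39, w40, w41, w42, w43, w44, w45, w46, w47, w48, w49, w50, w51,
    w52, w53, w54, w55, w56, w57, w58, w59, w60, w61, w62, w63, w64, w65, w66, w67, w68, w69,
    w70, w71, w72, w73, w74, w75, w76, w77, w78, w79, w80, w81, w82, w83, w84, w85, w86, w87,
    w88, w89, w90, w91, w92, w93, w94, w95, w96, w97, w98, w99, w100, w101, w102, w103, w106,
    w107, w108, w109, w112, w113, w114, w115, w118, w119, w120, w121, w122, w123, w124, w125,
    w126, w127, w128, w129, w130, w131, w132, w133, w134, w135, w136, w137, w138, w139, w140,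
    w141, w142, w143, w144, w145, w146, w147, w148, w149, w150, w151, w152, w153, w154, w155,
    w156, w157, w158, w159, w160, w161, w162, w163, w164, w165, w166, w167, w168, w169, w170,
    w171, w174, w177, w180] = true :=
  okS_of (by decide +kernel) (by decide +kernel)

theorem s7 : okS 921721 w98 w99 m7
    [m6, m5, m4, m3, m2, m1, w0, w1, w2, w3, w4, w5, w6, w7, w8, w9, w10, w11, w12, w13, w14,
    w15, w16, w17, w18, w19, w20, w21, w22, w23, w24, w25, w26, w27, w28, w29, w30, w31, w32,
    w33, w34, w35, w36, w37, w38, w39, w40, w41, w42, w43, w44, w45, w46, w47, w48, w49, w50,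
    w51, w52, w53, w54, w55, w56, w57, w58, w59, w60, w61, w62, w63, w64, w65, w66, w67, w68,
    w69, w70, w71, w72, w73, w74, w75, w76, w77, w78, w79, w80, w81, w82, w83, w84, w85, w86,
    w87, w88, w89, w90, w91, w92, w93, w94, w95, w96, w97, w100, w101, w102, w103, w106, w107,
    w108, w109, w112, w113, w114, w115, w118, w119, w120, w121, w122, w123, w124, w125, w126,
    w127, w128, w129, w130, w131, w132, w133, w134, w135, w136, w137, w138, w139, w140, w141,
    w142, w143, w144, w145, w146, w147, w148, w149, w150, w151, w152, w153, w154, w155, w156,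
    w157, w158, w159, w160, w161, w162, w163, w164, w165, w166, w167, w168, w169, w170, w171,
    w174, w177, w180] = true :=
  okS_of (by decide +kernel) (by decide +kernel)

theorem s8 : okS 921719 w169 w170 m8
    [m7, m6, m5, m4, m3, m2, m1, w0, w1, w2, w3, w4, w5, w6, w7, w8, w9, w10, w11, w12, w13, w14,
    w15, w16, w17, w18, w19, w20, w21, w22, w23, w24, w25, w26, w27, w28, w29, w30, w31, w32,
    w33, w34, w35, w36, w37, w38, w39, w40, w41, w42, w43, w44, w45, w46, w47, w48, w49, w50,
    w51, w52, w53, w54, w55, w56, w57, w58, w59, w60, w61, w62, w63, w64, w65, w66, w67, w68,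
    w69, w70, w71, w72, w73, w74, w75, w76, w77, w78, w79, w80, w81, w82, w83, w84, w85, w86,
    w87, w88, w89, w90, w91, w92, w93, w94, w95, w96, w97, w100, w101, w102, w103, w106, w107,
    w108, w109, w112, w113, w114, w115, w118, w119, w120, w121, w122, w123, w124, w125, w126,
    w127, w128, w129, w130, w131, w132, w133, w134, w135, w136, w137, w138, w139, w140, w141,
    w142, w143, w144, w145, w146, w147, w148, w149, w150, w151, w152, w153, w154, w155, w156,
    w157, w158, w159, w160, w161, w162, w163, w164, w165, w166, w167, w168, w171, w174, w177,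
    w180] = true :=
  okS_of (by decide +kernel) (by decide +kernel)

end Vale.Agent.P333.Rle.V20
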